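import Vale.Agent.P134.PS.Kuhn

/-! # P134 / PS, block K1: faces are convex and compact, the complex is locally finite. -/

open MeasureTheory Set
open scoped ENNReal RealInnerProductSpace Real

namespace Vale.Agent.P134.PS

namespace BK1

theorem bar_affine (i : KI) (k : Fin 4) (x y : E3) (a b : ℝ) (hab : a + b = 1) :
    bar i k (a • x + b • y) = a * bar i k x + b * bar i k y := by
  have hb : b = 1 - a := by linarith
  subst hb
  simp only [bar, PiLp.add_apply, PiLp.smul_apply, smul_eq_mul]
  match k with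
  | 0 => simp; ring
  | 1 => simp; ring
  | 2 => simp; ring
  | 3 => simp; ring

theorem bar_cont (i : KI) (k : Fin 4) : Continuous (bar i k) := by
  have hc : ∀ j : Fin 3, Continuous (fun x : E3 => x j) := fun j => by fun_prop
  match k with
  | 0 =>
    have : bar i 0 = fun x : E3 => 1 - (x (ord i.2 0) - i.1 (ord i.2 0)) := by
      funext x; simp [bar]
    rw [this]; fun_prop
  | 1 =>
    have : bar i 1 = fun x : E3 =>
      (x (ord i.2 0) - i.1 (ord i.2 0)) - (x (ord i.2 1) - i.1 (ord i.2 1)) := by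
      funext x; simp [bar]
    rw [this]; fun_prop
  | 2 =>
    have : bar i 2 = fun x : E3 =>
      (x (ord i.2 1) - i.1 (ord i.2 1)) - (x (ord i.2 2) - i.1 (ord i.2 2)) := by
      funext x; simp [bar]
    rw [this]; fun_prop
  | 3 =>
    have : bar i 3 = fun x : E3 => x (ord i.2 2) - i.1 (ord i.2 2) := by
      funext x; simp [bar]
    rw [this]; fun_prop

theorem kF_convex (w : Lat → ℝ) (c : ℝ) (i : KI) : Convex ℝ (kF w c i) := by
  intro x hx y hy a b ha hb hab
  refine ⟨fun k => ?_, ?_⟩
  · rw [bar_affine i k x y a b hab]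
    exact add_nonneg (mul_nonneg ha (hx.1 k)) (mul_nonneg hb (hy.1 k))
  · have : ∀ k, bar i k (a • x + b • y) * w (vert i k) =
        a * (bar i k x * w (vert i k)) + b * (bar i k y * w (vert i k)) := by
      intro k; rw [bar_affine i k x y a b hab]; ring
    simp_rw [this]
    rw [Finset.sum_add_distrib, ← Finset.mul_sum, ← Finset.mul_sum, hx.2, hy.2]
    rw [← add_mul, hab, one_mul]

theorem kF_closed (w : Lat → ℝ) (c : ℝ) (i : KI) : IsClosed (kF w c i) := by
  have h1 : IsClosed {x : E3 | ∀ k, 0 ≤ bar i k x} := by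
    have : {x : E3 | ∀ k, 0 ≤ bar i k x} = ⋂ k, {x : E3 | 0 ≤ bar i k x} := by
      ext x; simp
    rw [this]
    exact isClosed_iInter fun k => isClosed_le continuous_const (bar_cont i k)
  have h2 : IsClosed {x : E3 | ∑ k, bar i k x * w (vert i k) = c} := by
    apply isClosed_eq _ continuous_const
    exact continuous_finsetSum _ fun k _ => (bar_cont i k).mul continuous_const
  have : kF w c i = {x : E3 | ∀ k, 0 ≤ bar i k x} ∩ {x : E3 | ∑ k, bar i k x * w (vert i k) = c} := by
    ext x; simp [kF]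
  rw [this]
  exact h1.inter h2

theorem kF_compact (w : Lat → ℝ) (c : ℝ) (i : KI) : IsCompact (kF w c i) := by
  have hK : IsCompact (convexHull ℝ (Set.range fun k : Fin 4 => pt (vert i k))) :=
    (Set.finite_range _).isCompact_convexHull ℝ
  refine hK.of_isClosed_subset (kF_closed w c i) ?_
  intro x hx
  rw [← bar_pt i x]
  exact (convex_convexHull ℝ _).sum_mem (fun k _ => hx.1 k) (bar_sum i x)
    (fun k _ => subset_convexHull ℝ _ (Set.mem_range_self k))

theorem ord_surj (s : Fin 6) (j : Fin 3) : ∃ l, ord s l = j := by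
  revert s j; decide

theorem coord_bound {i : KI} {x : E3} (h : ∀ k, 0 ≤ bar i k x) (j : Fin 3) :
    0 ≤ x j - i.1 j ∧ x j - i.1 j ≤ 1 := by
  have h0 : 0 ≤ 1 - (x (ord i.2 0) - i.1 (ord i.2 0)) := by simpa [bar] using h 0
  have h1 : 0 ≤ (x (ord i.2 0) - i.1 (ord i.2 0)) - (x (ord i.2 1) - i.1 (ord i.2 1)) := by
    have := h 1; simpa [bar] using this
  have h2 : 0 ≤ (x (ord i.2 1) - i.1 (ord i.2 1)) - (x (ord i.2 2) - i.1 (ord i.2 2)) := by
    have := h 2; simpa [bar] using this
  have h3 : 0 ≤ x (ord i.2 2) - i.1 (ord i.2 2) := by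
    have := h 3; simpa [bar] using this
  obtain ⟨l, rfl⟩ := ord_surj i.2 j
  match l with
  | 0 => constructor <;> linarith
  | 1 => constructor <;> linarith
  | 2 => constructor <;> linarith

theorem abs_coord_le (x : E3) (R : ℝ) (hx : x ∈ Metric.closedBall (0 : E3) R) (j : Fin 3) :
    |x j| ≤ R := by
  have h1 : ‖x‖ ≤ R := by simpa using hx
  have h2 : ‖x j‖ ≤ ‖x‖ := PiLp.norm_apply_le x j
  rw [Real.norm_eq_abs] at h2
  exact h2.trans h1

theorem box_finite (R : ℝ) : {z : Lat | ∀ j, |(z j : ℝ)| ≤ R + 1}.Finite := by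
  have : {z : Lat | ∀ j, |(z j : ℝ)| ≤ R + 1} ⊆
      Set.pi Set.univ (fun _ : Fin 3 => Set.Icc (-⌈R + 1⌉) ⌈R + 1⌉) := by
    intro z hz j _
    have h := abs_le.1 (hz j)
    constructor
    · have : -(z j : ℝ) ≤ ⌈R + 1⌉ := by linarith [Int.le_ceil (R + 1)]
      have h' : -(z j) ≤ ⌈R + 1⌉ := by exact_mod_cast this
      linarith
    · have : (z j : ℝ) ≤ ⌈R + 1⌉ := by linarith [Int.le_ceil (R + 1)]
      exact_mod_cast this
  exact (Set.Finite.pi' fun _ => Set.finite_Icc _ _).subset (by
    intro z hz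
    exact fun j => this hz j (Set.mem_univ j))

theorem vert_add (q z : Lat) (s : Fin 6) (k : Fin 4) : vert (q + z, s) k = q + vert (z, s) k := by
  funext j; simp [vert, add_assoc]

theorem tab (τ : Fin 7) : ∃ k0 k1 : Fin 4, k0 ≠ k1 ∧ vert (ff τ 0) k0 = 0 ∧
    vert (ff τ 0) k1 = evec τ := by
  revert τ; decide

theorem pt_add (p q : Lat) : pt (p + q) = pt p + pt q := by
  ext j; simp [pt]

theorem evec_coord (τ : Fin 7) (j : Fin 3) : evec τ j = 0 ∨ evec τ j = 1 := by
  revert τ j; decide

end BK1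

open BK1 in
theorem K1 : StK1 := by
  intro w c hc
  refine ⟨fun i => ⟨kF_convex w c i, kF_compact w c i⟩, fun R => ?_, fun R => ?_, ?_⟩
  · refine ((box_finite R).prod (Set.finite_univ (α := Fin 6))).subset ?_
    rintro i ⟨x, hx, hR⟩
    refine ⟨fun j => ?_, Set.mem_univ _⟩
    have h1 := coord_bound hx.1 j
    have h2 := abs_le.1 (abs_coord_le x R hR j)
    rw [abs_le]; constructor <;> linarith
  · have hfin := ((box_finite R).prod (Set.finite_univ (α := Fin 7))).image
      (fun p : Lat × Fin 7 => pt p.1 + ((c - w p.1) / (w (p.1 + evec p.2) - w p.1)) • pt (evec p.2))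
    refine hfin.subset ?_
    rintro x ⟨⟨q, τ, t, ht0, ht1, hx, hw⟩, hR⟩
    refine ⟨(q, τ), ⟨fun j => ?_, Set.mem_univ _⟩, ?_⟩
    · have h2 := abs_le.1 (abs_coord_le x R hR j)
      have hxj : x j = q j + t * evec τ j := by rw [hx]; simp [pt]
      rw [hxj] at h2
      rcases evec_coord τ j with h | h
      · rw [h] at h2; simp at h2
        rw [abs_le]; constructor <;> linarith
      · rw [h] at h2; simp at h2
        rw [abs_le]; constructor <;> linarith
    · have hne : w (q + evec τ) - w q ≠ 0 := by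
        intro h0
        have : w (q + evec τ) = w q := by linarith
        apply hc q
        rw [← hw, this]; ring
      have ht : (c - w q) / (w (q + evec τ) - w q) = t := by
        rw [div_eq_iff hne, ← hw]; ring
      simp only
      rw [ht, hx]
  · rintro v ⟨q, τ, t, ht0, ht1, rfl, hw⟩
    obtain ⟨k0, k1, hk, h0, h1⟩ := tab τ
    set i : KI := (q + (ff τ 0).1, (ff τ 0).2) with hi
    have v0 : vert i k0 = q := by
      rw [hi, vert_add]; simp [h0]
    have v1 : vert i k1 = q + evec τ := by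
      rw [hi, vert_add]; simp [h1]
    let l : Fin 4 → ℝ := fun k => if k = k0 then 1 - t else if k = k1 then t else 0
    have hsum : ∀ {M : Type} [AddCommMonoid M] (g : Fin 4 → M), (∀ k, k ≠ k0 → k ≠ k1 → g k = 0) →
        ∑ k, g k = g k0 + g k1 := by
      intro M _ g hg
      exact Fintype.sum_eq_add k0 k1 hk (fun k hk' => hg k hk'.1 hk'.2)
    have l0 : l k0 = 1 - t := by simp [l]
    have l1 : l k1 = t := by simp [l, hk.symm]
    have lz : ∀ k, k ≠ k0 → k ≠ k1 → l k = 0 := by
      intro k h h'; simp [l, h, h']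
    have hl : ∑ k, l k = 1 := by
      rw [hsum l lz, l0, l1]; ring
    have hv : ∑ k, l k • pt (vert i k) = pt q + t • pt (evec τ) := by
      rw [hsum _ (fun k h h' => by rw [lz k h h', zero_smul]), l0, l1, v0, v1, pt_add]
      module
    refine ⟨i, fun k => ?_, ?_⟩
    · rw [← hv, bar_comb i l hl k]
      by_cases h : k = k0
      · rw [h, l0]; linarith
      · by_cases h' : k = k1
        · rw [h', l1]; linarith
        · rw [lz k h h']
    · simp_rw [← hv, bar_comb i l hl]
      rw [hsum _ (fun k h h' => by rw [lz k h h', zero_mul]), l0, l1, v0, v1]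
      exact hw

end Vale.Agent.P134.PS
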