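import Vale.Agent.P134.PS.Kuhn

/-!
# P134 / PS : block K2, charts of the faces of the Kuhn level surface
-/

open MeasureTheory Set Filter Topology
open scoped ENNReal RealInnerProductSpace Real

namespace Vale.Agent.P134.PS
namespace K2

/-- value of the interpolation in the tetrahedron `i` -/
noncomputable def LL (w : Lat → ℝ) (i : KI) (x : E3) : ℝ := ∑ k, bar i k x * w (vert i k)

theorem LL_sub (w : Lat → ℝ) (i : KI) (x y : E3) :
    LL w i y - LL w i x = inner ℝ (grad w i) (y - x) := by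
  obtain ⟨z, s⟩ := i
  simp only [LL, Fin.sum_univ_four, bar, grad, PiLp.inner_apply, Fin.sum_univ_three]
  have h0 : Fin.ofNat 4 0 = 0 := rfl
  have h1 : Fin.ofNat 4 1 = 1 := rfl
  have h2 : Fin.ofNat 4 2 = 2 := rfl
  have h3 : Fin.ofNat 4 3 = 3 := rfl
  match s with
  | 0 => simp [ord, rk, -Fin.ofNat_eq_cast, h0, h1, h2, h3]; ring
  | 1 => simp [ord, rk, -Fin.ofNat_eq_cast, h0, h1, h2, h3]; ring
  | 2 => simp [ord, rk, -Fin.ofNat_eq_cast, h0, h1, h2, h3]; ring
  | 3 => simp [ord, rk, -Fin.ofNat_eq_cast, h0, h1, h2, h3]; ring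
  | 4 => simp [ord, rk, -Fin.ofNat_eq_cast, h0, h1, h2, h3]; ring
  | 5 => simp [ord, rk, -Fin.ofNat_eq_cast, h0, h1, h2, h3]; ring

theorem bar_continuous (i : KI) (k : Fin 4) : Continuous (bar i k) := by
  obtain ⟨z, s⟩ := i
  match k with
  | 0 =>
    show Continuous fun x : E3 => 1 - (x (ord s 0) - z (ord s 0))
    fun_prop
  | 1 =>
    show Continuous fun x : E3 => (x (ord s 0) - z (ord s 0)) - (x (ord s 1) - z (ord s 1))
    fun_prop
  | 2 =>
    show Continuous fun x : E3 => (x (ord s 1) - z (ord s 1)) - (x (ord s 2) - z (ord s 2))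
    fun_prop
  | 3 =>
    show Continuous fun x : E3 => x (ord s 2) - z (ord s 2)
    fun_prop

/-- the point with given barycentric coordinates -/
noncomputable def mk (i : KI) (l : Fin 4 → ℝ) : E3 := ∑ k, l k • pt (vert i k)

theorem LL_mk (w : Lat → ℝ) (i : KI) (l : Fin 4 → ℝ) (hl : ∑ k, l k = 1) :
    LL w i (mk i l) = ∑ k, l k * w (vert i k) := by
  simp only [LL, mk]
  exact Finset.sum_congr rfl fun k _ => by rw [bar_comb i l hl k]

/-- a nonempty face has vertices of the tetrahedron strictly on both sides -/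
theorem exists_sides {w : Lat → ℝ} {c : ℝ} (hw : ∀ q, w q ≠ c) {i : KI} {x : E3}
    (hx : x ∈ kF w c i) : (∃ a, w (vert i a) < c) ∧ ∃ b, c < w (vert i b) := by
  obtain ⟨h0, h1⟩ := hx
  have hs := bar_sum i x
  constructor
  · by_contra hcon
    push Not at hcon
    have h2 : ∀ k, c < w (vert i k) := fun k => lt_of_le_of_ne (hcon k) (hw _).symm
    have h3 : ∑ k, bar i k x * (w (vert i k) - c) = 0 := by
      simp only [mul_sub, Finset.sum_sub_distrib, h1, ← Finset.sum_mul, hs, one_mul, sub_self]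
    have h4 : ∀ k, bar i k x * (w (vert i k) - c) = 0 := by
      intro k
      refine (Finset.sum_eq_zero_iff_of_nonneg ?_).1 h3 k (Finset.mem_univ _)
      intro l _
      exact mul_nonneg (h0 l) (sub_nonneg.2 (h2 l).le)
    have h5 : ∀ k, bar i k x = 0 := by
      intro k
      rcases mul_eq_zero.1 (h4 k) with h | h
      · exact h
      · exact absurd h (sub_pos.2 (h2 k)).ne'
    simp [h5] at hs
  · by_contra hcon
    push Not at hcon
    have h2 : ∀ k, w (vert i k) < c := fun k => lt_of_le_of_ne (hcon k) (hw _)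
    have h3 : ∑ k, bar i k x * (c - w (vert i k)) = 0 := by
      simp only [mul_sub, Finset.sum_sub_distrib, h1, ← Finset.sum_mul, hs, one_mul, sub_self]
    have h4 : ∀ k, bar i k x * (c - w (vert i k)) = 0 := by
      intro k
      refine (Finset.sum_eq_zero_iff_of_nonneg ?_).1 h3 k (Finset.mem_univ _)
      intro l _
      exact mul_nonneg (h0 l) (sub_nonneg.2 (h2 l).le)
    have h5 : ∀ k, bar i k x = 0 := by
      intro k
      rcases mul_eq_zero.1 (h4 k) with h | h
      · exact h
      · exact absurd h (sub_pos.2 (h2 k)).ne'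
    simp [h5] at hs

/-- a nonempty face contains a point with positive barycentric coordinates -/
theorem exists_pos {w : Lat → ℝ} {c : ℝ} (hw : ∀ q, w q ≠ c) {i : KI} {x : E3}
    (hx : x ∈ kF w c i) : ∃ x0, (∀ k, 0 < bar i k x0) ∧ LL w i x0 = c := by
  obtain ⟨⟨a, ha⟩, ⟨b, hb⟩⟩ := exists_sides hw hx
  set m : ℝ := ∑ k, (1 / 4 : ℝ) * w (vert i k) with hm
  -- `δ`-mixtures of the corners with the barycentre
  have e1 : ∀ᶠ δ in 𝓝 (0 : ℝ), (1 - δ) * w (vert i a) + δ * m < c := by
    have : Tendsto (fun δ : ℝ => (1 - δ) * w (vert i a) + δ * m) (𝓝 0)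
        (𝓝 ((1 - 0) * w (vert i a) + 0 * m)) := by
      apply Continuous.tendsto
      fun_prop
    refine this.eventually_lt_const ?_
    simpa using ha
  have e2 : ∀ᶠ δ in 𝓝 (0 : ℝ), c < (1 - δ) * w (vert i b) + δ * m := by
    have : Tendsto (fun δ : ℝ => (1 - δ) * w (vert i b) + δ * m) (𝓝 0)
        (𝓝 ((1 - 0) * w (vert i b) + 0 * m)) := by
      apply Continuous.tendsto
      fun_prop
    refine this.eventually_const_lt ?_
    simpa using hb
  have e3 : ∀ᶠ δ in 𝓝 (0 : ℝ), δ < 1 := eventually_lt_nhds one_pos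
  have e4 : ∀ᶠ δ in 𝓝[>] (0 : ℝ), 0 < δ := self_mem_nhdsWithin
  have e5 := (e1.and (e2.and e3)).filter_mono (nhdsWithin_le_nhds (s := Ioi (0 : ℝ)))
  obtain ⟨δ, ⟨h1, h2, h3⟩, hδ0⟩ := (e5.and e4).exists
  set A : ℝ := (1 - δ) * w (vert i a) + δ * m with hA
  set B : ℝ := (1 - δ) * w (vert i b) + δ * m with hB
  have hAB : 0 < B - A := by linarith
  set t : ℝ := (c - A) / (B - A) with ht
  have ht0 : 0 ≤ t := div_nonneg (by linarith) hAB.le
  have ht1 : t ≤ 1 := by rw [ht, div_le_one hAB]; linarith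
  have htt : (1 - t) * A + t * B = c := by
    have : t * (B - A) = c - A := div_mul_cancel₀ _ hAB.ne'
    linarith
  let l : Fin 4 → ℝ := fun k =>
    (1 - t) * ((1 - δ) * (if k = a then 1 else 0) + δ * (1 / 4)) +
      t * ((1 - δ) * (if k = b then 1 else 0) + δ * (1 / 4))
  have hl : ∀ k, 0 < l k := by
    intro k
    have p1 : 0 ≤ (if k = a then (1 : ℝ) else 0) := by split_ifs <;> norm_num
    have p2 : 0 ≤ (if k = b then (1 : ℝ) else 0) := by split_ifs <;> norm_num
    have p3 : δ * (1 / 4) ≤ (1 - δ) * (if k = a then 1 else 0) + δ * (1 / 4) := by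
      have := mul_nonneg (by linarith : (0 : ℝ) ≤ 1 - δ) p1
      linarith
    have p4 : δ * (1 / 4) ≤ (1 - δ) * (if k = b then 1 else 0) + δ * (1 / 4) := by
      have := mul_nonneg (by linarith : (0 : ℝ) ≤ 1 - δ) p2
      linarith
    have p5 := mul_le_mul_of_nonneg_left p3 (by linarith : (0 : ℝ) ≤ 1 - t)
    have p6 := mul_le_mul_of_nonneg_left p4 ht0
    have : 0 < δ * (1 / 4) := by positivity
    show 0 < (1 - t) * _ + t * _
    nlinarith
  have hsum : ∑ k, l k = 1 := by
    simp only [l, Finset.sum_add_distrib, ← Finset.mul_sum, Finset.sum_ite_eq', Finset.mem_univ,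
      if_true, Finset.sum_const, Finset.card_univ, Fintype.card_fin, nsmul_eq_mul]
    push_cast
    ring
  have hval : ∑ k, l k * w (vert i k) = c := by
    have : ∀ k, l k * w (vert i k) =
        (1 - t) * ((1 - δ) * ((if k = a then 1 else 0) * w (vert i k)) +
          δ * ((1 / 4) * w (vert i k))) +
        t * ((1 - δ) * ((if k = b then 1 else 0) * w (vert i k)) +
          δ * ((1 / 4) * w (vert i k))) := by
      intro k
      simp only [l]
      ring
    simp only [this, Finset.sum_add_distrib, ← Finset.mul_sum, ite_mul, one_mul, zero_mul,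
      Finset.sum_ite_eq', Finset.mem_univ, if_true]
    have hm' : (1 / 4 : ℝ) * ∑ k, w (vert i k) = m := by rw [hm, Finset.mul_sum]
    rw [hm']
    exact htt
  refine ⟨mk i l, fun k => ?_, ?_⟩
  · have := bar_comb i l hsum k
    rw [mk, this]
    exact hl k
  · rw [LL_mk w i l hsum, hval]

theorem grad_ne_zero {w : Lat → ℝ} {c : ℝ} (hw : ∀ q, w q ≠ c) {i : KI} {x : E3}
    (hx : x ∈ kF w c i) : grad w i ≠ 0 := by
  obtain ⟨⟨a, ha⟩, ⟨b, hb⟩⟩ := exists_sides hw hx
  intro h
  have key : ∀ k, LL w i (mk i (Pi.single k 1)) = w (vert i k) := by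
    intro k
    rw [LL_mk w i _ (by simp)]
    simp [Pi.single_apply]
  have := LL_sub w i (mk i (Pi.single a 1)) (mk i (Pi.single b 1))
  rw [key, key, h, inner_zero_left] at this
  linarith

end K2

open K2 in
theorem K2 : StK2 := by
  intro w c hw i hne
  obtain ⟨p, hp⟩ := hne
  have hg : grad w i ≠ 0 := grad_ne_zero hw hp
  obtain ⟨x0, hx0, hL0⟩ := exists_pos hw hp
  set S : Submodule ℝ E3 := (ℝ ∙ grad w i)ᗮ with hS
  have : Fact (Module.finrank ℝ E3 = 2 + 1) := ⟨by simp⟩
  let e : S ≃ₗᵢ[ℝ] ℂ := (OrthonormalBasis.fromOrthogonalSpanSingleton (𝕜 := ℝ) 2 hg).repr.trans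
    Complex.orthonormalBasisOneI.repr.symm
  let T : E3 →ₗ[ℝ] ℂ := e.toLinearEquiv.toLinearMap ∘ₗ S.orthogonalProjectionOnto.toLinearMap
  have hT : ∀ v : S, T (v : E3) = e v := by
    intro v
    show e (S.orthogonalProjectionOnto (v : E3)) = e v
    rw [Submodule.orthogonalProjectionOnto_mem_subspace_eq_self]
  have hmem : ∀ v : E3, inner ℝ (grad w i) v = 0 → v ∈ S := by
    intro v hv
    rw [hS, Submodule.mem_orthogonal_singleton_iff_inner_right]
    exact hv
  have hsub : ∀ x y, LL w i x = c → LL w i y = c → y - x ∈ S := by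
    intro x y hx hy
    apply hmem
    rw [← LL_sub, hx, hy, sub_self]
  -- the section of the chart
  let τ : ℂ → E3 := fun z => x0 + ((e.symm (z - T x0) : S) : E3)
  have hτL : ∀ z, LL w i (τ z) = c := by
    intro z
    have h := LL_sub w i x0 (τ z)
    have h2 : inner ℝ (grad w i) (τ z - x0) = 0 := by
      have : τ z - x0 = ((e.symm (z - T x0) : S) : E3) := by simp [τ]
      rw [this]
      exact (Submodule.mem_orthogonal_singleton_iff_inner_right.1 (e.symm (z - T x0)).2)
    rw [h2] at h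
    linarith
  have hTτ : ∀ z, T (τ z) = z := by
    intro z
    simp only [τ, map_add, hT, LinearIsometryEquiv.apply_symm_apply]
    ring
  have hτT : ∀ x, LL w i x = c → τ (T x) = x := by
    intro x hx
    have h1 := hsub x0 x hL0 hx
    have h2 : T x - T x0 = e ⟨x - x0, h1⟩ := by
      rw [← map_sub, ← hT]
    simp only [τ, h2, LinearIsometryEquiv.symm_apply_apply]
    abel
  have hτc : Continuous τ := by
    have : Continuous (fun z => ((e.symm (z - T x0) : S) : E3)) :=
      continuous_subtype_val.comp (e.symm.continuous.comp (by fun_prop))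
    exact continuous_const.add this
  have hτadd : ∀ a b : ℂ, ∀ s : ℝ, τ (a + s • (a - b)) = τ a + s • (τ a - τ b) := by
    intro a b s
    have h1 : a + s • (a - b) - T x0 = (a - T x0) + s • ((a - T x0) - (b - T x0)) := by
      simp only [Complex.real_smul]
      ring
    rw [show τ (a + s • (a - b)) = x0 + ((e.symm (a + s • (a - b) - T x0) : S) : E3) from rfl, h1]
    simp only [τ, map_add, map_smul, map_sub, Submodule.coe_add, Submodule.coe_smul,
      Submodule.coe_sub]
    module
  have himg : ∀ z, z ∈ T '' kF w c i ↔ ∀ k, 0 ≤ bar i k (τ z) := by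
    intro z
    constructor
    · rintro ⟨x, hx, rfl⟩
      rw [hτT x hx.2]
      exact hx.1
    · intro h
      exact ⟨τ z, ⟨h, hτL z⟩, hTτ z⟩
  refine ⟨T.toAffineMap, ?_, ?_, ?_⟩
  · intro x hx y hy
    have h1 := hsub y x hy.2 hx.2
    show dist (T x) (T y) = dist x y
    rw [dist_eq_norm, dist_eq_norm, ← map_sub]
    have : T (x - y) = e ⟨x - y, h1⟩ := by rw [← hT]
    rw [this, LinearIsometryEquiv.norm_map]
    rfl
  · refine ⟨T x0, ?_⟩
    have hopen : IsOpen {z : ℂ | ∀ k, 0 < bar i k (τ z)} := by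
      simp only [Set.ofPred_forall]
      exact isOpen_iInter_of_finite fun k =>
        isOpen_lt continuous_const ((bar_continuous i k).comp hτc)
    refine mem_interior.2 ⟨_, ?_, hopen, ?_⟩
    · intro z hz
      exact (himg z).2 fun k => (hz k).le
    · intro k
      rw [hτT x0 hL0]
      exact hx0 k
  · rintro y hy ⟨f, hf0, hfy, z, hz, hfz⟩ hint
    have hfz' : 0 < f z := lt_of_le_of_ne (hf0 z hz) (Ne.symm hfz)
    have hc : Continuous (fun s : ℝ => T y + s • (T y - T z)) := by fun_prop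
    have hev : ∀ᶠ s in 𝓝 (0 : ℝ), T y + s • (T y - T z) ∈ T '' kF w c i := by
      have : Tendsto (fun s : ℝ => T y + s • (T y - T z)) (𝓝 0) (𝓝 (T y)) := by
        have := hc.tendsto 0
        rwa [zero_smul, add_zero] at this
      exact this (mem_interior_iff_mem_nhds.1 hint)
    have e4 : ∀ᶠ δ in 𝓝[>] (0 : ℝ), 0 < δ := self_mem_nhdsWithin
    have e5 := hev.filter_mono (nhdsWithin_le_nhds (s := Ioi (0 : ℝ)))
    obtain ⟨s, hs, hs0'⟩ := (e5.and e4).exists
    obtain ⟨x, hx, hxe⟩ := hs
    have hxx : x = y + s • (y - z) := by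
      have := hτT x hx.2
      rw [hxe, hτadd, hτT y hy.2, hτT z hz.2] at this
      exact this.symm
    have h1 := hf0 x hx
    rw [hxx] at h1
    have h2 : f (y + s • (y - z)) = f y + s * (f y - f z) := by
      have e1 : y + s • (y - z) = (s • (y - z)) +ᵥ y := by rw [vadd_eq_add, add_comm]
      rw [e1, AffineMap.map_vadd, map_smul, vadd_eq_add, smul_eq_mul]
      have e2 : f.linear (y - z) = f y - f z := by
        have := f.linearMap_vsub y z
        simpa using this
      rw [e2]
      ring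
    rw [h2, hfy] at h1
    nlinarith

end Vale.Agent.P134.PS
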