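import Vale.Agent.P134.PS.Kuhn

/-!
# P134 / PS, block K3 (helper202): intersections of the faces of the level surface
-/

set_option linter.unusedSectionVars false

open Set
open scoped RealInnerProductSpace Real

namespace Vale.Agent.P134.PS

namespace K3

/-! ### finite combinatorics -/

/-- vertex pattern -/
def pat (s : Fin 6) (k : Fin 4) : Fin 3 → ℤ := fun j => if rk s j < k then 1 else 0

/-- the order of the neighbour across the facet `k` -/
def nbs : Fin 6 → Fin 4 → Fin 6 :=
  ![![3, 2, 1, 4], ![5, 4, 0, 2], ![1, 0, 3, 5], ![4, 5, 2, 0], ![0, 1, 5, 3], ![2, 3, 4, 1]]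

/-- the base point of the neighbour across the facet `k` -/
def nbz (s : Fin 6) : Fin 4 → Fin 3 → ℤ :=
  ![fun j => if j = ord s 0 then 1 else 0, 0, 0, fun j => if j = ord s 2 then -1 else 0]

/-- a vertex different from the omitted one -/
def m0 (k : Fin 4) : Fin 4 := if k = 0 then 1 else 0

theorem m0_ne : ∀ k, m0 k ≠ k := by decide

theorem nb_fin : ∀ (s s' : Fin 6) (k l0 : Fin 4),
    (∀ m, m ≠ k → ∃ l, ∀ c, (pat s (m0 k) c - pat s' l0 c) + pat s' l c = pat s m c) →
    (s' = s ∧ ∀ c, pat s (m0 k) c - pat s' l0 c = 0) ∨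
      (s' = nbs s k ∧ ∀ c, pat s (m0 k) c - pat s' l0 c = nbz s k c) := by
  decide +kernel

theorem edge_fin : ∀ (s : Fin 6) (k l : Fin 4), k < l → ∃ τ : Fin 7, ∀ c,
    pat s k c + evec τ c = pat s l c := by
  decide +kernel

theorem pat_inj : ∀ (s : Fin 6) (k l : Fin 4), (∀ c, pat s k c = pat s l c) → k = l := by
  decide +kernel

theorem evec_01 : ∀ (τ : Fin 7) (c : Fin 3), evec τ c = 0 ∨ evec τ c = 1 := by
  decide +kernel

theorem nb01 : ∀ s : Fin 6, ∃ c, nbz s 0 c ≠ nbz s 1 c := by decide +kernel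

theorem ord_surj : ∀ (s : Fin 6) (j : Fin 3), ∃ r, ord s r = j := by decide +kernel

theorem others : ∀ k : Fin 4, ∃ p q r : Fin 4, p ≠ k ∧ q ≠ k ∧ r ≠ k ∧ p ≠ q ∧ p ≠ r ∧ q ≠ r := by
  decide +kernel

theorem others2 : ∀ k l : Fin 4, k ≠ l → ∃ p q : Fin 4, p ≠ k ∧ q ≠ k ∧ p ≠ l ∧ q ≠ l ∧ p ≠ q := by
  decide +kernel

theorem univ4 : ∀ k p q r : Fin 4, p ≠ k → q ≠ k → r ≠ k → p ≠ q → p ≠ r → q ≠ r →
    (Finset.univ : Finset (Fin 4)) = {k, p, q, r} := by
  decide +kernel

theorem cover4 : ∀ k p q r : Fin 4, p ≠ k → q ≠ k → r ≠ k → p ≠ q → p ≠ r → q ≠ r →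
    ∀ m, m = k ∨ m = p ∨ m = q ∨ m = r := by
  decide +kernel

theorem sum4 {M : Type*} [AddCommMonoid M] {k p q r : Fin 4} (h1 : p ≠ k) (h2 : q ≠ k) (h3 : r ≠ k)
    (h4 : p ≠ q) (h5 : p ≠ r) (h6 : q ≠ r) (f : Fin 4 → M) :
    ∑ m, f m = f k + (f p + (f q + f r)) := by
  rw [univ4 k p q r h1 h2 h3 h4 h5 h6, Finset.sum_insert, Finset.sum_insert, Finset.sum_insert,
    Finset.sum_singleton]
  · simp [h6]
  · simp [h4, h5]
  · simp [h1.symm, h2.symm, h3.symm]

/-! ### vertices -/

theorem vert_eq (i : KI) (k : Fin 4) (j : Fin 3) : vert i k j = i.1 j + pat i.2 k j := rfl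

theorem vert_inj (i : KI) {k l : Fin 4} (h : vert i k = vert i l) : k = l := by
  refine pat_inj i.2 k l fun c => ?_
  have := congrFun h c
  rw [vert_eq, vert_eq] at this
  omega

/-- the neighbour across the facet `k` -/
def nb (i : KI) (k : Fin 4) : KI := (fun c => i.1 c + nbz i.2 k c, nbs i.2 k)

theorem nb_unique {i j : KI} {k : Fin 4} (hne : j ≠ i)
    (h : ∀ m, m ≠ k → ∃ l, vert j l = vert i m) : j = nb i k := by
  obtain ⟨l0, hl0⟩ := h (m0 k) (m0_ne k)
  have hδ : ∀ c, j.1 c - i.1 c = pat i.2 (m0 k) c - pat j.2 l0 c := by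
    intro c
    have := congrFun hl0 c
    rw [vert_eq, vert_eq] at this
    omega
  have h1 : ∀ m, m ≠ k → ∃ l, ∀ c, (pat i.2 (m0 k) c - pat j.2 l0 c) + pat j.2 l c = pat i.2 m c := by
    intro m hm
    obtain ⟨l, hl⟩ := h m hm
    refine ⟨l, fun c => ?_⟩
    have := congrFun hl c
    rw [vert_eq, vert_eq] at this
    have := hδ c
    omega
  rcases nb_fin i.2 j.2 k l0 h1 with ⟨h2, h3⟩ | ⟨h2, h3⟩
  · exfalso
    apply hne
    refine Prod.ext (funext fun c => ?_) h2
    have := hδ c
    have := h3 c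
    omega
  · refine Prod.ext (funext fun c => ?_) h2
    have := hδ c
    have := h3 c
    change j.1 c = i.1 c + nbz i.2 k c
    omega

theorem eq_of_all {i j : KI} (h : ∀ m, ∃ l, vert j l = vert i m) : j = i := by
  by_contra hne
  have h0 := nb_unique (k := 0) hne fun m _ => h m
  have h1 := nb_unique (k := 1) hne fun m _ => h m
  obtain ⟨c, hc⟩ := nb01 i.2
  have h2 : (nb i 0).1 c = (nb i 1).1 c := by rw [← h0, ← h1]
  change i.1 c + nbz i.2 0 c = i.1 c + nbz i.2 1 c at h2
  omega

/-! ### carriers -/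

/-- coordinates in the order of the tetrahedron -/
noncomputable def Y (i : KI) (r : Fin 3) (x : E3) : ℝ := x (ord i.2 r) - i.1 (ord i.2 r)

theorem bar0 (i : KI) (x : E3) : bar i 0 x = 1 - Y i 0 x := rfl
theorem bar1 (i : KI) (x : E3) : bar i 1 x = Y i 0 x - Y i 1 x := rfl
theorem bar2 (i : KI) (x : E3) : bar i 2 x = Y i 1 x - Y i 2 x := rfl
theorem bar3 (i : KI) (x : E3) : bar i 3 x = Y i 2 x := rfl

/-- `q` is the carrier vertex of `x` at height `θ` -/
def Car (x : E3) (θ : ℝ) (q : Lat) : Prop := ∀ j, x j - q j < θ ∧ θ < x j - q j + 1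

theorem Car.unique {x : E3} {θ : ℝ} {q q' : Lat} (h : Car x θ q) (h' : Car x θ q') : q = q' := by
  funext j
  have h1 := h j
  have h2 := h' j
  have h3 : (q j : ℝ) < q' j + 1 := by linarith
  have h4 : (q' j : ℝ) < q j + 1 := by linarith
  have h5 : q j < q' j + 1 := by exact_mod_cast h3
  have h6 : q' j < q j + 1 := by exact_mod_cast h4
  omega

theorem car_vert {i : KI} {l : Fin 4} {x : E3} {θ : ℝ}
    (h : ∀ r : Fin 3, Y i r x - (if (r : ℕ) < l then 1 else 0) < θ ∧
      θ < Y i r x - (if (r : ℕ) < l then 1 else 0) + 1) : Car x θ (vert i l) := by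
  intro j
  obtain ⟨r, rfl⟩ := ord_surj i.2 j
  have h1 := h r
  have h2 : ((vert i l (ord i.2 r) : ℤ) : ℝ) = i.1 (ord i.2 r) + (if (r : ℕ) < l then 1 else 0) := by
    rw [vert_eq, pat, rk_ord]
    split_ifs <;> push_cast <;> rfl
  rw [h2]
  unfold Y at h1
  constructor <;> linarith [h1.1, h1.2]

theorem tet_Y {i : KI} {x : E3} (hx : ∀ k, 0 ≤ bar i k x) :
    Y i 0 x ≤ 1 ∧ Y i 1 x ≤ Y i 0 x ∧ Y i 2 x ≤ Y i 1 x ∧ 0 ≤ Y i 2 x := by
  have h0 := hx 0
  have h1 := hx 1
  have h2 := hx 2
  have h3 := hx 3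
  rw [bar0] at h0
  rw [bar1] at h1
  rw [bar2] at h2
  rw [bar3] at h3
  exact ⟨by linarith, by linarith, by linarith, h3⟩

theorem car_of_pos {i : KI} {k : Fin 4} {x : E3} (hx : ∀ k, 0 ≤ bar i k x) (h : 0 < bar i k x) :
    ∃ u v : ℝ, u < v ∧ 0 ≤ u ∧ v ≤ 1 ∧ ∀ θ, u < θ → θ < v → Car x θ (vert i k) := by
  obtain ⟨h0, h1, h2, h3⟩ := tet_Y hx
  match k, h with
  | 0, h =>
    rw [bar0] at h
    refine ⟨Y i 0 x, 1, by linarith, by linarith, le_rfl, fun θ hu hv => car_vert fun r => ?_⟩
    match r with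
    | 0 => simp; constructor <;> linarith
    | 1 => simp; constructor <;> linarith
    | 2 => simp; constructor <;> linarith
  | 1, h =>
    rw [bar1] at h
    refine ⟨Y i 1 x, Y i 0 x, by linarith, by linarith, h0, fun θ hu hv => car_vert fun r => ?_⟩
    match r with
    | 0 => simp; constructor <;> linarith
    | 1 => simp; constructor <;> linarith
    | 2 => simp; constructor <;> linarith
  | 2, h =>
    rw [bar2] at h
    refine ⟨Y i 2 x, Y i 1 x, by linarith, by linarith, by linarith,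
      fun θ hu hv => car_vert fun r => ?_⟩
    match r with
    | 0 => simp; constructor <;> linarith
    | 1 => simp; constructor <;> linarith
    | 2 => simp; constructor <;> linarith
  | 3, h =>
    rw [bar3] at h
    refine ⟨0, Y i 2 x, by linarith, le_rfl, by linarith, fun θ hu hv => car_vert fun r => ?_⟩
    match r with
    | 0 => simp; constructor <;> linarith
    | 1 => simp; constructor <;> linarith
    | 2 => simp; constructor <;> linarith

theorem exists_car {i : KI} {x : E3} (hx : ∀ k, 0 ≤ bar i k x) {θ : ℝ} (h0 : 0 < θ) (h1 : θ < 1)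
    (hne : ∀ r, Y i r x ≠ θ) : ∃ l, Car x θ (vert i l) := by
  obtain ⟨g0, g1, g2, g3⟩ := tet_Y hx
  rcases lt_or_gt_of_ne (hne 0) with a0 | a0
  · refine ⟨0, car_vert fun r => ?_⟩
    match r with
    | 0 => simp; constructor <;> linarith
    | 1 => simp; constructor <;> linarith
    | 2 => simp; constructor <;> linarith
  rcases lt_or_gt_of_ne (hne 1) with a1 | a1
  · refine ⟨1, car_vert fun r => ?_⟩
    match r with
    | 0 => simp; constructor <;> linarith
    | 1 => simp; constructor <;> linarith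
    | 2 => simp; constructor <;> linarith
  rcases lt_or_gt_of_ne (hne 2) with a2 | a2
  · refine ⟨2, car_vert fun r => ?_⟩
    match r with
    | 0 => simp; constructor <;> linarith
    | 1 => simp; constructor <;> linarith
    | 2 => simp; constructor <;> linarith
  · refine ⟨3, car_vert fun r => ?_⟩
    match r with
    | 0 => simp; constructor <;> linarith
    | 1 => simp; constructor <;> linarith
    | 2 => simp; constructor <;> linarith

/-- a vertex with positive weight is a vertex of every tetrahedron containing the point -/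
theorem pos_vert {i j : KI} {x : E3} (hi : ∀ k, 0 ≤ bar i k x) (hj : ∀ k, 0 ≤ bar j k x)
    {k : Fin 4} (h : 0 < bar i k x) : ∃ l, vert j l = vert i k := by
  obtain ⟨u, v, huv, h0, h1, hc⟩ := car_of_pos hi h
  have hinf : (Set.Ioo u v \ Set.range fun r => Y j r x).Infinite :=
    (Set.Ioo_infinite huv).sdiff (Set.finite_range _)
  obtain ⟨θ, ⟨hθ1, hθ2⟩, hθ3⟩ := hinf.nonempty
  obtain ⟨l, hl⟩ := exists_car hj (θ := θ) (by linarith) (by linarith)
    (fun r hr => hθ3 ⟨r, hr⟩)
  exact ⟨l, hl.unique (hc θ hθ1 hθ2)⟩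

/-- the vertices with positive weight of a point of a lattice edge -/
theorem pos_edge {i : KI} {x : E3} (hi : ∀ k, 0 ≤ bar i k x) {k : Fin 4} (h : 0 < bar i k x)
    {q : Lat} {τ : Fin 7} {t : ℝ} (ht0 : 0 < t) (ht1 : t < 1)
    (hx : x = pt q + t • pt (evec τ)) : vert i k = q ∨ vert i k = q + evec τ := by
  obtain ⟨u, v, huv, h0, h1, hc⟩ := car_of_pos hi h
  have hinf : (Set.Ioo u v \ {t}).Infinite := (Set.Ioo_infinite huv).sdiff (Set.finite_singleton _)
  obtain ⟨θ, ⟨hθ1, hθ2⟩, hθ3⟩ := hinf.nonempty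
  have hne : θ ≠ t := fun h => hθ3 h
  have hxj : ∀ j, x j = q j + t * evec τ j := by
    intro j; rw [hx]; simp [pt]
  rcases lt_or_gt_of_ne hne with hlt | hlt
  · right
    refine (hc θ hθ1 hθ2).unique fun j => ?_
    have h3 : (((q + evec τ) j : ℤ) : ℝ) = q j + evec τ j := by
      rw [Pi.add_apply]; push_cast; rfl
    rw [h3, hxj]
    rcases evec_01 τ j with e | e <;> rw [e] <;> push_cast <;> constructor <;> linarith
  · left
    refine (hc θ hθ1 hθ2).unique fun j => ?_
    rw [hxj]
    rcases evec_01 τ j with e | e <;> rw [e] <;> push_cast <;> constructor <;> linarith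

/-- three positive weights: not on a lattice edge -/
theorem not_kV {w : Lat → ℝ} {c : ℝ} {i : KI} {x : E3} (hi : ∀ k, 0 ≤ bar i k x) {p q r : Fin 4}
    (hp : 0 < bar i p x) (hq : 0 < bar i q x) (hr : 0 < bar i r x) (h1 : p ≠ q) (h2 : p ≠ r)
    (h3 : q ≠ r) : x ∉ kV w c := by
  rintro ⟨q0, τ, t, ht0, ht1, hx, -⟩
  have a1 := pos_edge hi hp ht0 ht1 hx
  have a2 := pos_edge hi hq ht0 ht1 hx
  have a3 := pos_edge hi hr ht0 ht1 hx
  rcases a1 with a1 | a1 <;> rcases a2 with a2 | a2 <;> rcases a3 with a3 | a3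
  all_goals
    first
    | exact h1 (vert_inj i (a1.trans a2.symm))
    | exact h2 (vert_inj i (a1.trans a3.symm))
    | exact h3 (vert_inj i (a2.trans a3.symm))

/-! ### affine coordinates -/

/-- ordered coordinates as affine functions -/
noncomputable def YA (i : KI) (r : Fin 3) : E3 →ᵃ[ℝ] ℝ where
  toFun x := Y i r x
  linear :=
    { toFun := fun x => x (ord i.2 r)
      map_add' := fun _ _ => rfl
      map_smul' := fun _ _ => rfl }
  map_vadd' p v := by
    change (v + p) (ord i.2 r) - _ = v (ord i.2 r) + (p (ord i.2 r) - _)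
    rw [PiLp.add_apply]; ring

/-- barycentric coordinates as affine functions -/
noncomputable def barA (i : KI) (k : Fin 4) : E3 →ᵃ[ℝ] ℝ :=
  ![AffineMap.const ℝ E3 1 - YA i 0, YA i 0 - YA i 1, YA i 1 - YA i 2, YA i 2] k

theorem barA_apply (i : KI) (k : Fin 4) (x : E3) : barA i k x = bar i k x := by
  match k with
  | 0 => rfl
  | 1 => rfl
  | 2 => rfl
  | 3 => rfl

theorem bar_seg (i : KI) (k : Fin 4) (x y : E3) {a b : ℝ} (hab : a + b = 1) :
    bar i k (a • x + b • y) = a * bar i k x + b * bar i k y := by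
  have ha : a = 1 - b := by linarith
  subst ha
  match k with
  | 0 => rw [bar0, bar0, bar0]; simp only [Y, PiLp.add_apply, PiLp.smul_apply, smul_eq_mul]; ring
  | 1 => rw [bar1, bar1, bar1]; simp only [Y, PiLp.add_apply, PiLp.smul_apply, smul_eq_mul]; ring
  | 2 => rw [bar2, bar2, bar2]; simp only [Y, PiLp.add_apply, PiLp.smul_apply, smul_eq_mul]; ring
  | 3 => rw [bar3, bar3, bar3]; simp only [Y, PiLp.add_apply, PiLp.smul_apply, smul_eq_mul]; ring

theorem bar_inj {i : KI} {x y : E3} (h : ∀ k, bar i k x = bar i k y) : x = y := by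
  rw [← bar_pt i x, ← bar_pt i y]
  simp only [h]

theorem seg_kF {w : Lat → ℝ} {c : ℝ} {i : KI} {x y : E3} (hx : x ∈ kF w c i) (hy : y ∈ kF w c i)
    {a b : ℝ} (ha : 0 ≤ a) (hb : 0 ≤ b) (hab : a + b = 1) : a • x + b • y ∈ kF w c i := by
  refine ⟨fun k => ?_, ?_⟩
  · rw [bar_seg i k x y hab]
    exact add_nonneg (mul_nonneg ha (hx.1 k)) (mul_nonneg hb (hy.1 k))
  · have : ∑ k, bar i k (a • x + b • y) * w (vert i k) =
        a * ∑ k, bar i k x * w (vert i k) + b * ∑ k, bar i k y * w (vert i k) := by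
      rw [Finset.mul_sum, Finset.mul_sum, ← Finset.sum_add_distrib]
      refine Finset.sum_congr rfl fun k _ => ?_
      rw [bar_seg i k x y hab]; ring
    rw [this, hx.2, hy.2, ← add_mul, hab, one_mul]

/-- the point of the edge `k l` of `i` with parameter `t` -/
noncomputable def ep (i : KI) (k l : Fin 4) (t : ℝ) : E3 :=
  (1 - t) • pt (vert i k) + t • pt (vert i l)

theorem ep_swap (i : KI) (k l : Fin 4) (t : ℝ) : ep i k l t = ep i l k (1 - t) := by
  unfold ep
  rw [sub_sub_cancel, add_comm]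

theorem bar_ep (i : KI) {k l : Fin 4} (hkl : k ≠ l) (t : ℝ) (m : Fin 4) :
    bar i m (ep i k l t) = if m = k then 1 - t else if m = l then t else 0 := by
  obtain ⟨p, q, h1, h2, h3, h4, h5⟩ := others2 k l hkl
  set f : Fin 4 → ℝ := fun m => if m = k then 1 - t else if m = l then t else 0 with hf
  have fk : f k = 1 - t := by simp [hf]
  have fl : f l = t := by simp [hf, hkl.symm]
  have fp : f p = 0 := by simp [hf, h1, h3]
  have fq : f q = 0 := by simp [hf, h2, h4]
  have hs : ∑ m, f m = 1 := by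
    rw [sum4 hkl.symm h1 h2 h3.symm h4.symm h5 f, fk, fl, fp, fq]; ring
  have he : ep i k l t = ∑ m, f m • pt (vert i m) := by
    rw [sum4 hkl.symm h1 h2 h3.symm h4.symm h5 (fun m => f m • pt (vert i m)), fk, fl, fp, fq, ep]
    simp
  rw [he, bar_comb i f hs m]

theorem ep_mem {w : Lat → ℝ} {c : ℝ} (i : KI) {k l : Fin 4} (hkl : k ≠ l) {t : ℝ} (h0 : 0 ≤ t)
    (h1 : t ≤ 1) (hc : (1 - t) * w (vert i k) + t * w (vert i l) = c) : ep i k l t ∈ kF w c i := by
  refine ⟨fun m => ?_, ?_⟩
  · rw [bar_ep i hkl]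
    split_ifs <;> linarith
  · obtain ⟨p, q, h1, h2, h3, h4, h5⟩ := others2 k l hkl
    rw [sum4 hkl.symm h1 h2 h3.symm h4.symm h5 (fun m => bar i m (ep i k l t) * w (vert i m)),
      bar_ep i hkl, bar_ep i hkl, bar_ep i hkl, bar_ep i hkl]
    simp only [if_true, hkl.symm, if_false, h1, h3, h2, h4, zero_mul, add_zero]
    linarith

theorem ep_kV {w : Lat → ℝ} {c : ℝ} (i : KI) {k l : Fin 4} (hkl : k ≠ l) {t : ℝ} (h0 : 0 < t)
    (h1 : t < 1) (hc : (1 - t) * w (vert i k) + t * w (vert i l) = c) : ep i k l t ∈ kV w c := by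
  have key : ∀ {k l : Fin 4} {t : ℝ}, k < l → 0 < t → t < 1 →
      (1 - t) * w (vert i k) + t * w (vert i l) = c → ep i k l t ∈ kV w c := by
    intro k l t hkl h0 h1 hc
    obtain ⟨τ, hτ⟩ := edge_fin i.2 k l hkl
    have hv : vert i l = vert i k + evec τ := by
      funext j
      rw [Pi.add_apply, vert_eq, vert_eq, ← hτ j]; ring
    refine ⟨vert i k, τ, t, h0, h1, ?_, ?_⟩
    · unfold ep
      rw [hv]
      ext j
      simp only [pt, PiLp.add_apply, PiLp.smul_apply, smul_eq_mul, Pi.add_apply]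
      push_cast
      ring
    · rw [← hv]; exact hc
  rcases lt_or_gt_of_ne hkl with h | h
  · exact key h h0 h1 hc
  · rw [ep_swap]
    refine key h (by linarith) (by linarith) ?_
    rw [sub_sub_cancel]; linarith

/-- crossing parameter -/
theorem cross {a b c : ℝ} (h : (a - c) * (b - c) < 0) :
    0 < (c - a) / (b - a) ∧ (c - a) / (b - a) < 1 ∧
      (1 - (c - a) / (b - a)) * a + (c - a) / (b - a) * b = c := by
  rcases mul_neg_iff.1 h with ⟨h1, h2⟩ | ⟨h1, h2⟩
  · have h3 : b - a < 0 := by linarith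
    refine ⟨div_pos_of_neg_of_neg (by linarith) h3, ?_, ?_⟩
    · rw [div_lt_one_of_neg h3]; linarith
    · have e : (c - a) / (b - a) * (b - a) = c - a := div_mul_cancel₀ _ h3.ne
      linarith
  · have h3 : 0 < b - a := by linarith
    refine ⟨div_pos (by linarith) h3, ?_, ?_⟩
    · rw [div_lt_one h3]; linarith
    · have e : (c - a) / (b - a) * (b - a) = c - a := div_mul_cancel₀ _ h3.ne'
      linarith

/-- every vertex has a vertex on the other side of the level -/
theorem exists_opp {w : Lat → ℝ} {c : ℝ} (hw : ∀ q, w q ≠ c) {i : KI} {y : E3}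
    (hy : y ∈ kF w c i) (k : Fin 4) :
    ∃ l, 0 < bar i l y ∧ (w (vert i k) - c) * (w (vert i l) - c) < 0 := by
  by_contra hcon
  push Not at hcon
  have h1 : ∑ l, bar i l y * ((w (vert i k) - c) * (w (vert i l) - c)) = 0 := by
    have : ∑ l, bar i l y * ((w (vert i k) - c) * (w (vert i l) - c)) =
        (w (vert i k) - c) * (∑ l, bar i l y * w (vert i l) - c * ∑ l, bar i l y) := by
      rw [Finset.mul_sum, ← Finset.sum_sub_distrib, Finset.mul_sum]
      exact Finset.sum_congr rfl fun l _ => by ring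
    rw [this, hy.2, bar_sum]; ring
  have h2 : ∀ l, 0 ≤ bar i l y * ((w (vert i k) - c) * (w (vert i l) - c)) := by
    intro l
    rcases (hy.1 l).eq_or_lt with h | h
    · rw [← h, zero_mul]
    · exact mul_nonneg h.le (hcon l h)
  have h3 := (Finset.sum_eq_zero_iff_of_nonneg (fun l _ => h2 l)).1 h1
  have h4 : ∀ l, bar i l y = 0 := by
    intro l
    have := h3 l (Finset.mem_univ l)
    rcases mul_eq_zero.1 this with h | h
    · exact h
    · exfalso
      rcases mul_eq_zero.1 h with h | h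
      · exact hw (vert i k) (by linarith)
      · exact hw (vert i l) (by linarith)
  have h5 := bar_sum i y
  simp only [h4, Finset.sum_const_zero] at h5
  exact zero_ne_one h5

theorem supp_of_zero {w : Lat → ℝ} {c : ℝ} (hw : ∀ q, w q ≠ c) {i : KI} {y : E3}
    (hy : y ∈ kF w c i) {k : Fin 4} (hk : bar i k y = 0) : Supp (kF w c i) y := by
  obtain ⟨l, -, hl⟩ := exists_opp hw hy k
  have hkl : k ≠ l := by
    rintro rfl
    exact absurd hl (not_lt.2 (mul_self_nonneg _))
  obtain ⟨h0, h1, h2⟩ := cross hl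
  refine ⟨barA i k, fun z hz => ?_, by rw [barA_apply, hk], _, ep_mem i hkl h0.le h1.le h2, ?_⟩
  · rw [barA_apply]; exact hz.1 k
  · rw [barA_apply, bar_ep i hkl, if_pos rfl]
    linarith

end K3

open K3 in
/-- **K3** -/
theorem K3 : StK3 := by
  intro w c hw
  refine ⟨?_, ?_⟩
  · intro v hv i hi
    by_contra hcon
    have h : ∀ k, 0 < bar i k v := fun k =>
      (hi.1 k).lt_of_ne fun h => hcon (supp_of_zero hw hi h.symm)
    exact not_kV hi.1 (h 0) (h 1) (h 2) (by decide) (by decide) (by decide) hv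
  · intro i j hij x hx hxV
    -- the omitted vertex
    have hall : ∀ y ∈ kF w c i ∩ kF w c j, ∃ k, bar i k y = 0 := by
      intro y hy
      by_contra hcon
      push Not at hcon
      exact hij (eq_of_all (i := i) (j := j) fun m =>
        pos_vert hy.1.1 hy.2.1 ((hy.1.1 m).lt_of_ne (hcon m).symm)).symm
    obtain ⟨k, hk⟩ := hall x hx
    have hpos : ∀ m, m ≠ k → 0 < bar i m x := by
      intro m hm
      refine (hx.1.1 m).lt_of_ne fun h0 => hxV ?_
      obtain ⟨p, q, h1, h2, h3, h4, h5⟩ := others2 k m hm.symm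
      have hs := bar_sum i x
      rw [sum4 hm h1 h2 h3.symm h4.symm h5, hk, ← h0] at hs
      have hw2 := hx.1.2
      rw [sum4 hm h1 h2 h3.symm h4.symm h5, hk, ← h0] at hw2
      have hp : bar i p x = 1 - bar i q x := by linarith
      have hxe : x = ep i p q (bar i q x) := by
        refine bar_inj (i := i) fun n => ?_
        rw [bar_ep i h5]
        rcases cover4 k m p q hm h1 h2 h3.symm h4.symm h5 n with rfl | rfl | rfl | rfl
        · rw [if_neg h1.symm, if_neg h2.symm, hk]
        · rw [if_neg h3.symm, if_neg h4.symm, ← h0]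
        · rw [if_pos rfl, hp]
        · rw [if_neg h5.symm, if_pos rfl]
      have hq0 : bar i q x ≠ 0 := by
        intro h
        rw [hp, h] at hw2
        exact hw (vert i p) (by linarith)
      have hq1 : bar i q x ≠ 1 := by
        intro h
        rw [hp, h] at hw2
        exact hw (vert i q) (by linarith)
      rw [hxe]
      refine ep_kV i h5 ((hx.1.1 q).lt_of_ne hq0.symm) ?_ ?_
      · have := hx.1.1 p
        exact lt_of_le_of_ne (by linarith) hq1
      · rw [← hp]; linarith
    -- common vertices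
    have hcom : ∀ m, m ≠ k → ∃ l, vert j l = vert i m := fun m hm =>
      pos_vert hx.1.1 hx.2.1 (hpos m hm)
    have hj : j = nb i k := nb_unique hij.symm hcom
    have hzero : ∀ y ∈ kF w c i ∩ kF w c j, bar i k y = 0 := by
      intro y hy
      by_contra h
      have h1 : 0 < bar i k y := (hy.1.1 k).lt_of_ne (Ne.symm h)
      refine hij (eq_of_all (i := i) (j := j) fun m => ?_).symm
      rcases eq_or_ne m k with rfl | hm
      · exact pos_vert hy.1.1 hy.2.1 h1
      · exact hcom m hm
    -- the isolated vertex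
    obtain ⟨α, β, γ, hα, hβ, hγ, hαβ, hαγ, hβγ, hsβ, hsγ⟩ : ∃ α β γ : Fin 4, α ≠ k ∧ β ≠ k ∧ γ ≠ k ∧
        α ≠ β ∧ α ≠ γ ∧ β ≠ γ ∧ (w (vert i α) - c) * (w (vert i β) - c) < 0 ∧
        (w (vert i α) - c) * (w (vert i γ) - c) < 0 := by
      obtain ⟨p, q, r, h1, h2, h3, h4, h5, h6⟩ := others k
      have hopp : ∀ m, ∃ l, l ≠ k ∧ (w (vert i m) - c) * (w (vert i l) - c) < 0 := by
        intro m
        obtain ⟨l, hl, hl'⟩ := exists_opp hw hx.1 m
        refine ⟨l, ?_, hl'⟩
        rintro rfl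
        exact absurd hk hl.ne'
      have hnz : ∀ m, w (vert i m) - c ≠ 0 := fun m h => hw (vert i m) (by linarith)
      have hself : ∀ m, ¬ (w (vert i m) - c) * (w (vert i m) - c) < 0 := fun m =>
        not_lt.2 (mul_self_nonneg _)
      have hc4 := cover4 k p q r h1 h2 h3 h4 h5 h6
      have htr : ∀ a b d : Fin 4, (w (vert i a) - c) * (w (vert i b) - c) < 0 →
          ¬ (w (vert i a) - c) * (w (vert i d) - c) < 0 →
          (w (vert i b) - c) * (w (vert i d) - c) < 0 := by
        intro a b d hab had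
        have hn := hnz d
        rcases mul_neg_iff.1 hab with ⟨a1, a2⟩ | ⟨a1, a2⟩
        · refine mul_neg_of_neg_of_pos a2 ?_
          rcases lt_or_gt_of_ne hn with h | h
          · exact absurd (mul_neg_of_pos_of_neg a1 h) had
          · exact h
        · refine mul_neg_of_pos_of_neg a2 ?_
          rcases lt_or_gt_of_ne hn with h | h
          · exact h
          · exact absurd (mul_neg_of_neg_of_pos a1 h) had
      by_cases hpq : (w (vert i p) - c) * (w (vert i q) - c) < 0
      · by_cases hpr : (w (vert i p) - c) * (w (vert i r) - c) < 0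
        · exact ⟨p, q, r, h1, h2, h3, h4, h5, h6, hpq, hpr⟩
        · refine ⟨q, p, r, h2, h1, h3, h4.symm, h6, h5, by rw [mul_comm]; exact hpq,
            htr p q r hpq hpr⟩
      · have hpr : (w (vert i p) - c) * (w (vert i r) - c) < 0 := by
          obtain ⟨l, hl1, hl2⟩ := hopp p
          rcases hc4 l with rfl | rfl | rfl | rfl
          · exact absurd rfl hl1
          · exact absurd hl2 (hself _)
          · exact absurd hl2 hpq
          · exact hl2
        exact ⟨r, p, q, h3, h1, h2, h5.symm, h6.symm, h4, by rw [mul_comm]; exact hpr,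
          htr p r q hpr hpq⟩
    obtain ⟨b0, b1, b2⟩ := cross hsβ
    obtain ⟨g0, g1, g2⟩ := cross hsγ
    set tβ := (c - w (vert i α)) / (w (vert i β) - w (vert i α)) with htβ
    set tγ := (c - w (vert i α)) / (w (vert i γ) - w (vert i α)) with htγ
    set a := ep i α β tβ with ha
    set b := ep i α γ tγ with hb
    have haV : a ∈ kV w c := ep_kV i hαβ b0 b1 b2
    have hbV : b ∈ kV w c := ep_kV i hαγ g0 g1 g2
    have hai : a ∈ kF w c i := ep_mem i hαβ b0.le b1.le b2
    have hbi : b ∈ kF w c i := ep_mem i hαγ g0.le g1.le g2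
    have hmem : ∀ (m n : Fin 4) (t : ℝ), m ≠ k → n ≠ k → m ≠ n → 0 ≤ t → t ≤ 1 →
        (1 - t) * w (vert i m) + t * w (vert i n) = c → ep i m n t ∈ kF w c j := by
      intro m n t hm hn hmn h0 h1 hc
      obtain ⟨m', hm'⟩ := hcom m hm
      obtain ⟨n', hn'⟩ := hcom n hn
      have hne : m' ≠ n' := by
        rintro rfl
        exact hmn (vert_inj i (hm'.symm.trans hn'))
      have : ep i m n t = ep j m' n' t := by
        unfold ep; rw [hm', hn']
      rw [this]
      exact ep_mem j hne h0 h1 (by rw [hm', hn']; exact hc)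
    have haj : a ∈ kF w c j := hmem α β tβ hα hβ hαβ b0.le b1.le b2
    have hbj : b ∈ kF w c j := hmem α γ tγ hα hγ hαγ g0.le g1.le g2
    have bka : bar i k a = 0 := by rw [ha, bar_ep i hαβ, if_neg hα.symm, if_neg hβ.symm]
    have bkb : bar i k b = 0 := by rw [hb, bar_ep i hαγ, if_neg hα.symm, if_neg hγ.symm]
    have bαa : bar i α a = 1 - tβ := by rw [ha, bar_ep i hαβ, if_pos rfl]
    have bαb : bar i α b = 1 - tγ := by rw [hb, bar_ep i hαγ, if_pos rfl]
    have bβa : bar i β a = tβ := by rw [ha, bar_ep i hαβ, if_neg hαβ.symm, if_pos rfl]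
    have bβb : bar i β b = 0 := by rw [hb, bar_ep i hαγ, if_neg hαβ.symm, if_neg hβγ]
    have bγa : bar i γ a = 0 := by rw [ha, bar_ep i hαβ, if_neg hαγ.symm, if_neg hβγ.symm]
    have bγb : bar i γ b = tγ := by rw [hb, bar_ep i hαγ, if_neg hαγ.symm, if_pos rfl]
    have hab : a ≠ b := by
      intro h
      rw [h, bβb] at bβa
      exact b0.ne bβa
    -- points of the intersection
    have hrep : ∀ y ∈ kF w c i, bar i k y = 0 →
        bar i β y / tβ + bar i γ y / tγ = 1 ∧
        y = (bar i β y / tβ) • a + (bar i γ y / tγ) • b := by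
      intro y hy hky
      have hs := bar_sum i y
      rw [sum4 hα hβ hγ hαβ hαγ hβγ, hky] at hs
      have hw2 := hy.2
      rw [sum4 hα hβ hγ hαβ hαγ hβγ, hky] at hw2
      have hcα : c - w (vert i α) ≠ 0 := fun h => hw (vert i α) (by linarith)
      have hβα : w (vert i β) - w (vert i α) ≠ 0 := by
        intro h
        rw [htβ, h, div_zero] at b0
        exact lt_irrefl _ b0
      have hγα : w (vert i γ) - w (vert i α) ≠ 0 := by
        intro h
        rw [htγ, h, div_zero] at g0
        exact lt_irrefl _ g0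
      have hsum : bar i β y / tβ + bar i γ y / tγ = 1 := by
        have e1 : bar i β y / tβ = bar i β y * (w (vert i β) - w (vert i α)) / (c - w (vert i α)) := by
          rw [htβ]; field_simp
        have e2 : bar i γ y / tγ = bar i γ y * (w (vert i γ) - w (vert i α)) / (c - w (vert i α)) := by
          rw [htγ]; field_simp
        rw [e1, e2, ← add_div, div_eq_one_iff_eq hcα]
        have : bar i α y = 1 - bar i β y - bar i γ y := by linarith
        rw [this] at hw2
        linarith
      refine ⟨hsum, bar_inj (i := i) fun n => ?_⟩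
      rw [bar_seg i n a b hsum]
      rcases cover4 k α β γ hα hβ hγ hαβ hαγ hβγ n with rfl | rfl | rfl | rfl
      · rw [bka, bkb, hky]; ring
      · rw [bαa, bαb]
        have e1 : bar i β y / tβ * tβ = bar i β y := div_mul_cancel₀ _ b0.ne'
        have e2 : bar i γ y / tγ * tγ = bar i γ y := div_mul_cancel₀ _ g0.ne'
        have : bar i n y = 1 - bar i β y - bar i γ y := by linarith
        rw [this, mul_sub, mul_sub, mul_one, mul_one, e1, e2]
        linarith
      · rw [bβa, bβb, mul_zero, add_zero, div_mul_cancel₀ _ b0.ne']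
      · rw [bγa, bγb, mul_zero, zero_add, div_mul_cancel₀ _ g0.ne']
    refine ⟨a, haV, b, hbV, hab, ?_, ?_, ?_⟩
    · ext y
      constructor
      · intro hy
        obtain ⟨h1, h2⟩ := hrep y hy.1 (hzero y hy)
        rw [h2]
        exact ⟨_, _, div_nonneg (hy.1.1 β) b0.le, div_nonneg (hy.1.1 γ) g0.le, h1, rfl⟩
      · rintro ⟨l, m, hl, hm, hlm, rfl⟩
        exact ⟨seg_kF hai hbi hl hm hlm, seg_kF haj hbj hl hm hlm⟩
    · obtain ⟨h1, h2⟩ := hrep x hx.1 hk
      rw [h2]
      exact ⟨_, _, div_pos (hpos β hβ) b0, div_pos (hpos γ hγ) g0, h1, rfl⟩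
    · rintro y ⟨l, m, hl, hm, hlm, rfl⟩
      have hyi := seg_kF hai hbi hl.le hm.le hlm
      have hyj := seg_kF haj hbj hl.le hm.le hlm
      have pα : 0 < bar i α (l • a + m • b) := by
        rw [bar_seg i α a b hlm, bαa, bαb]
        exact add_pos (mul_pos hl (by linarith)) (mul_pos hm (by linarith))
      have pβ : 0 < bar i β (l • a + m • b) := by
        rw [bar_seg i β a b hlm, bβa, bβb, mul_zero, add_zero]
        exact mul_pos hl b0
      have pγ : 0 < bar i γ (l • a + m • b) := by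
        rw [bar_seg i γ a b hlm, bγa, bγb, mul_zero, zero_add]
        exact mul_pos hm g0
      have pk : bar i k (l • a + m • b) = 0 := by
        rw [bar_seg i k a b hlm, bka, bkb]; ring
      have hp : ∀ n, n ≠ k → 0 < bar i n (l • a + m • b) := by
        intro n hn
        rcases cover4 k α β γ hα hβ hγ hαβ hαγ hβγ n with rfl | rfl | rfl | rfl
        · exact absurd rfl hn
        · exact pα
        · exact pβ
        · exact pγ
      refine ⟨not_kV hyi.1 pα pβ pγ hαβ hαγ hβγ, supp_of_zero hw hyi pk, ?_, ?_⟩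
      · have : ∃ n, bar j n (l • a + m • b) = 0 := by
          by_contra hcon
          push Not at hcon
          exact hij (eq_of_all (i := j) (j := i) fun n =>
            pos_vert hyj.1 hyi.1 ((hyj.1 n).lt_of_ne (hcon n).symm))
        obtain ⟨n, hn⟩ := this
        exact supp_of_zero hw hyj hn
      · intro n hn
        rcases eq_or_ne n i with h | h
        · exact Or.inl h
        · right
          rw [hj]
          exact nb_unique h fun m' hm' => pos_vert hyi.1 hn.1 (hp m' hm')

end Vale.Agent.P134.PS
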