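import Vale.Agent.P134.PS.Kuhn

/-!
# P134 / PS / block K4

The cyclic fan of faces around a vertex of the level surface of the Kuhn interpolation.
-/

open MeasureTheory Set
open scoped ENNReal RealInnerProductSpace Real

namespace Vale.Agent.P134.PS

namespace K4

/-- positions of `0`, `evec τ`, `bb τ k`, `bb τ (k+1)` among the vertices of `ft τ k` -/
def st : Fin 7 → Fin 6 → Fin 4 → Fin 4 :=
  ![![![2, 3, 0, 1], ![1, 2, 0, 3], ![0, 1, 2, 3], ![0, 1, 3, 2], ![1, 2, 3, 0], ![2, 3, 1, 0]],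
    ![![2, 3, 0, 1], ![1, 2, 0, 3], ![0, 1, 2, 3], ![0, 1, 3, 2], ![1, 2, 3, 0], ![2, 3, 1, 0]],
    ![![2, 3, 0, 1], ![1, 2, 0, 3], ![0, 1, 2, 3], ![0, 1, 3, 2], ![1, 2, 3, 0], ![2, 3, 1, 0]],
    ![![1, 3, 0, 2], ![0, 2, 1, 3], ![0, 2, 3, 1], ![1, 3, 2, 0], ![1, 3, 0, 2], ![0, 2, 1, 3]],
    ![![1, 3, 0, 2], ![0, 2, 1, 3], ![0, 2, 3, 1], ![1, 3, 2, 0], ![1, 3, 0, 2], ![0, 2, 1, 3]],
    ![![1, 3, 0, 2], ![0, 2, 1, 3], ![0, 2, 3, 1], ![1, 3, 2, 0], ![1, 3, 0, 2], ![0, 2, 1, 3]],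
    ![![0, 3, 1, 2], ![0, 3, 2, 1], ![0, 3, 1, 2], ![0, 3, 2, 1], ![0, 3, 1, 2], ![0, 3, 2, 1]]]

/-- periodic version of `st` -/
def ss (τ : Fin 7) (k : ℕ) : Fin 4 → Fin 4 := st τ (Fin.ofNat 6 (k % mm τ))

lemma mm_pos (τ : Fin 7) : 0 < mm τ := by revert τ; decide

lemma mm_le (τ : Fin 7) : mm τ ≤ 6 := by revert τ; decide

lemma three_le_mm (τ : Fin 7) : 3 ≤ mm τ := by revert τ; decide

lemma st_inj (τ : Fin 7) (k : Fin 6) : Function.Injective (st τ k) := by
  revert τ k; decide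

lemma st_spec (τ : Fin 7) (k : Fin 6) : k.1 < mm τ →
    vert (ft τ k) (st τ k 0) = 0 ∧ vert (ft τ k) (st τ k 1) = evec τ ∧
    vert (ft τ k) (st τ k 2) = bt τ k ∧
    vert (ft τ k) (st τ k 3) = bt τ (Fin.ofNat 6 ((k.1 + 1) % mm τ)) := by
  revert τ k; decide

lemma ft_inj (τ : Fin 7) (k l : Fin 6) : k.1 < mm τ → l.1 < mm τ → ft τ k = ft τ l → k = l := by
  revert τ k l; decide

lemma evec01 (τ : Fin 7) (j : Fin 3) : evec τ j = 0 ∨ evec τ j = 1 := by
  revert τ j; decide

lemma evec_ne (τ : Fin 7) : ∃ j, evec τ j = 1 := by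
  revert τ; decide

/-- coordinates of an integer vector with entries `0`, `1` -/
def dv (d0 d1 d2 : Fin 2) : Lat := ![(d0.1 : ℤ), (d1.1 : ℤ), (d2.1 : ℤ)]

lemma complete (τ : Fin 7) (s : Fin 6) (d0 d1 d2 : Fin 2) :
    2 * dv d0 d1 d2 (ord s 0) + evec τ (ord s 0) ≤ 2 →
    2 * dv d0 d1 d2 (ord s 1) + evec τ (ord s 1) ≤ 2 * dv d0 d1 d2 (ord s 0) + evec τ (ord s 0) →
    2 * dv d0 d1 d2 (ord s 2) + evec τ (ord s 2) ≤ 2 * dv d0 d1 d2 (ord s 1) + evec τ (ord s 1) →
    ∃ k : Fin 6, k.1 < mm τ ∧ (ft τ k).1 = -dv d0 d1 d2 ∧ (ft τ k).2 = s := by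
  revert τ s d0 d1 d2; decide

lemma pt_add (a b : Lat) : pt (a + b) = pt a + pt b := by
  ext j; simp [pt]

lemma pt_zero : pt 0 = 0 := by
  ext j; simp [pt]

lemma vert_add (q z : Lat) (s : Fin 6) (k : Fin 4) : vert (q + z, s) k = q + vert (z, s) k := by
  ext j; simp [vert, add_assoc]

/-- barycentric coordinates of a combination of the vertices in any order -/
lemma bar_perm (i : KI) {σ : Fin 4 → Fin 4} (hσ : Function.Injective σ) (l : Fin 4 → ℝ)
    (hl : ∑ j, l j = 1) (j : Fin 4) : bar i (σ j) (∑ j, l j • pt (vert i (σ j))) = l j := by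
  have hb : Function.Bijective σ := Finite.injective_iff_bijective.mp hσ
  set e : Fin 4 ≃ Fin 4 := Equiv.ofBijective σ hb with he
  have h1 : ∑ j, l j • pt (vert i (σ j)) = ∑ k, l (e.symm k) • pt (vert i k) := by
    rw [← Equiv.sum_comp e (fun k => l (e.symm k) • pt (vert i k))]
    apply Finset.sum_congr rfl
    intro j _
    rw [Equiv.symm_apply_apply]
    rfl
  have h2 : ∑ k, l (e.symm k) = 1 := by
    rw [Equiv.sum_comp e.symm l]; exact hl
  rw [h1, bar_comb i (fun k => l (e.symm k)) h2]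
  have : e.symm (σ j) = j := e.symm_apply_apply j
  rw [this]

lemma sum_perm {σ : Fin 4 → Fin 4} (hσ : Function.Injective σ) (F : Fin 4 → ℝ) :
    ∑ k, F k = ∑ j, F (σ j) := by
  have hb : Function.Bijective σ := Finite.injective_iff_bijective.mp hσ
  exact (Equiv.sum_comp (Equiv.ofBijective σ hb) F).symm

lemma sum_perm_E {σ : Fin 4 → Fin 4} (hσ : Function.Injective σ) (F : Fin 4 → E3) :
    ∑ k, F k = ∑ j, F (σ j) := by
  have hb : Function.Bijective σ := Finite.injective_iff_bijective.mp hσ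
  exact (Equiv.sum_comp (Equiv.ofBijective σ hb) F).symm

section local_
variable (q : Lat) (τ : Fin 7) (k : ℕ)

/-- the tetrahedron -/
def tt : KI := (q + (ff τ k).1, (ff τ k).2)

lemma ss_inj : Function.Injective (ss τ k) := st_inj _ _

lemma modlt : k % mm τ < mm τ := Nat.mod_lt _ (mm_pos τ)

lemma fin_mod : (Fin.ofNat 6 (k % mm τ)).1 = k % mm τ := by
  have h1 := modlt τ k
  have h2 := mm_le τ
  simp [Fin.ofNat]
  omega

lemma v0 : vert (tt q τ k) (ss τ k 0) = q := by
  have h := (st_spec τ (Fin.ofNat 6 (k % mm τ)) (by rw [fin_mod]; exact modlt τ k)).1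
  unfold tt ss
  rw [vert_add]
  have h' : vert ((ff τ k).1, (ff τ k).2) (st τ (Fin.ofNat 6 (k % mm τ)) 0) = 0 := h
  rw [h', add_zero]

lemma v1 : vert (tt q τ k) (ss τ k 1) = q + evec τ := by
  have h := (st_spec τ (Fin.ofNat 6 (k % mm τ)) (by rw [fin_mod]; exact modlt τ k)).2.1
  unfold tt ss
  rw [vert_add]
  have h' : vert ((ff τ k).1, (ff τ k).2) (st τ (Fin.ofNat 6 (k % mm τ)) 1) = evec τ := h
  rw [h']

lemma v2 : vert (tt q τ k) (ss τ k 2) = q + bb τ k := by
  have h := (st_spec τ (Fin.ofNat 6 (k % mm τ)) (by rw [fin_mod]; exact modlt τ k)).2.2.1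
  unfold tt ss
  rw [vert_add]
  have h' : vert ((ff τ k).1, (ff τ k).2) (st τ (Fin.ofNat 6 (k % mm τ)) 2) = bb τ k := h
  rw [h']

lemma v3 : vert (tt q τ k) (ss τ k 3) = q + bb τ (k + 1) := by
  have h := (st_spec τ (Fin.ofNat 6 (k % mm τ)) (by rw [fin_mod]; exact modlt τ k)).2.2.2
  unfold tt ss
  rw [vert_add]
  have h' : vert ((ff τ k).1, (ff τ k).2) (st τ (Fin.ofNat 6 (k % mm τ)) 3) = bb τ (k + 1) := by
    rw [fin_mod] at h
    have h2 : (k % mm τ + 1) % mm τ = (k + 1) % mm τ := by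
      rw [Nat.mod_add_mod]
    rw [h2] at h
    exact h
  rw [h']

/-- barycentric coordinates of a combination of the four vertices `q, q+e, q+b, q+b'` -/
lemma bar_all (l0 l1 l2 l3 : ℝ) (hl : l0 + l1 + l2 + l3 = 1) (x : E3)
    (hx : x = l0 • pt q + l1 • pt (q + evec τ) + l2 • pt (q + bb τ k) + l3 • pt (q + bb τ (k + 1))) :
    bar (tt q τ k) (ss τ k 0) x = l0 ∧ bar (tt q τ k) (ss τ k 1) x = l1 ∧
    bar (tt q τ k) (ss τ k 2) x = l2 ∧ bar (tt q τ k) (ss τ k 3) x = l3 := by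
  have h1 : ∑ j, ![l0, l1, l2, l3] j = 1 := by
    simp only [Fin.sum_univ_four]
    simpa using hl
  have h2 : x = ∑ j, ![l0, l1, l2, l3] j • pt (vert (tt q τ k) (ss τ k j)) := by
    simp only [Fin.sum_univ_four, v0, v1, v2, v3]
    rw [hx]
    simp
  have h3 := bar_perm (tt q τ k) (ss_inj τ k) ![l0, l1, l2, l3] h1
  rw [← h2] at h3
  exact ⟨h3 0, h3 1, h3 2, h3 3⟩

/-- the barycentric representation of a point -/
lemma rep (x : E3) : x = bar (tt q τ k) (ss τ k 0) x • pt q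
    + bar (tt q τ k) (ss τ k 1) x • pt (q + evec τ)
    + bar (tt q τ k) (ss τ k 2) x • pt (q + bb τ k)
    + bar (tt q τ k) (ss τ k 3) x • pt (q + bb τ (k + 1)) := by
  have h := (bar_pt (tt q τ k) x).symm
  rw [sum_perm_E (ss_inj τ k)] at h
  simp only [Fin.sum_univ_four, v0, v1, v2, v3] at h
  exact h

lemma rep_sum (x : E3) : bar (tt q τ k) (ss τ k 0) x + bar (tt q τ k) (ss τ k 1) x
    + bar (tt q τ k) (ss τ k 2) x + bar (tt q τ k) (ss τ k 3) x = 1 := by
  have h := bar_sum (tt q τ k) x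
  rw [sum_perm (ss_inj τ k)] at h
  simpa only [Fin.sum_univ_four] using h

lemma mem_kF (w : Lat → ℝ) (c : ℝ) (x : E3) : x ∈ kF w c (tt q τ k) ↔
    0 ≤ bar (tt q τ k) (ss τ k 0) x ∧ 0 ≤ bar (tt q τ k) (ss τ k 1) x ∧
    0 ≤ bar (tt q τ k) (ss τ k 2) x ∧ 0 ≤ bar (tt q τ k) (ss τ k 3) x ∧
    bar (tt q τ k) (ss τ k 0) x * w q + bar (tt q τ k) (ss τ k 1) x * w (q + evec τ)
      + bar (tt q τ k) (ss τ k 2) x * w (q + bb τ k)
      + bar (tt q τ k) (ss τ k 3) x * w (q + bb τ (k + 1)) = c := by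
  have hb : Function.Bijective (ss τ k) := Finite.injective_iff_bijective.mp (ss_inj τ k)
  have hs : ∑ j, bar (tt q τ k) j x * w (vert (tt q τ k) j)
      = bar (tt q τ k) (ss τ k 0) x * w q + bar (tt q τ k) (ss τ k 1) x * w (q + evec τ)
      + bar (tt q τ k) (ss τ k 2) x * w (q + bb τ k)
      + bar (tt q τ k) (ss τ k 3) x * w (q + bb τ (k + 1)) := by
    rw [sum_perm (ss_inj τ k) (fun j => bar (tt q τ k) j x * w (vert (tt q τ k) j))]
    simp only [Fin.sum_univ_four, v0, v1, v2, v3]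
  constructor
  · rintro ⟨h1, h2⟩
    exact ⟨h1 _, h1 _, h1 _, h1 _, by rw [← hs]; exact h2⟩
  · rintro ⟨h0, h1, h2, h3, h4⟩
    refine ⟨fun j => ?_, by rw [hs]; exact h4⟩
    obtain ⟨j', rfl⟩ := hb.2 j
    fin_cases j'
    · exact h0
    · exact h1
    · exact h2
    · exact h3

/-- barycentric coordinates are Lipschitz -/
lemma bar_lip (i : KI) (j : Fin 4) (x y : E3) : |bar i j x - bar i j y| ≤ 2 * ‖x - y‖ := by
  have h : ∀ a, |x a - y a| ≤ ‖x - y‖ := by
    intro a
    have := EuclideanSpace.norm_eq (x - y)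
    have h2 : |(x - y) a| ≤ ‖x - y‖ := by
      rw [← Real.norm_eq_abs]
      exact PiLp.norm_apply_le (x - y) a
    simpa using h2
  have h0 := h (ord i.2 0)
  have h1 := h (ord i.2 1)
  have h2 := h (ord i.2 2)
  have hn := norm_nonneg (x - y)
  rw [abs_le] at h0 h1 h2
  rw [abs_le]
  match j with
  | 0 => simp only [bar, Matrix.cons_val]; constructor <;> linarith
  | 1 => simp only [bar, Matrix.cons_val]; constructor <;> linarith
  | 2 => simp only [bar, Matrix.cons_val]; constructor <;> linarith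
  | 3 => simp only [bar, Matrix.cons_val]; constructor <;> linarith

/-! ### the level surface near a vertex -/

variable (w : Lat → ℝ) {c t : ℝ}

lemma spoke_rep (a b : ℝ) : pt q + t • pt (evec τ) + a • spoke w q τ k + b • spoke w q τ (k + 1)
    = (1 - (t - a * slope w q τ k - b * slope w q τ (k + 1)) - a - b) • pt q
      + (t - a * slope w q τ k - b * slope w q τ (k + 1)) • pt (q + evec τ)
      + a • pt (q + bb τ k) + b • pt (q + bb τ (k + 1)) := by
  unfold spoke
  rw [pt_add, pt_add, pt_add]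
  module

lemma bar_spoke (a b : ℝ) :
    bar (tt q τ k) (ss τ k 0) (pt q + t • pt (evec τ) + a • spoke w q τ k + b • spoke w q τ (k + 1))
      = 1 - (t - a * slope w q τ k - b * slope w q τ (k + 1)) - a - b ∧
    bar (tt q τ k) (ss τ k 1) (pt q + t • pt (evec τ) + a • spoke w q τ k + b • spoke w q τ (k + 1))
      = t - a * slope w q τ k - b * slope w q τ (k + 1) ∧
    bar (tt q τ k) (ss τ k 2) (pt q + t • pt (evec τ) + a • spoke w q τ k + b • spoke w q τ (k + 1))
      = a ∧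
    bar (tt q τ k) (ss τ k 3) (pt q + t • pt (evec τ) + a • spoke w q τ k + b • spoke w q τ (k + 1))
      = b :=
  bar_all q τ k _ _ _ _ (by ring) _ (spoke_rep q τ k w a b)

/-- the spokes are linearly independent -/
lemma spoke_indep {a b : ℝ} (h : a • spoke w q τ k + b • spoke w q τ (k + 1) = 0) :
    a = 0 ∧ b = 0 := by
  have h1 := bar_spoke q τ k w (t := 0) a b
  have h2 := bar_spoke q τ k w (t := 0) 0 0
  have e : pt q + (0:ℝ) • pt (evec τ) + a • spoke w q τ k + b • spoke w q τ (k + 1)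
      = pt q + (0:ℝ) • pt (evec τ) + (0:ℝ) • spoke w q τ k + (0:ℝ) • spoke w q τ (k + 1) := by
    rw [add_assoc, h]; simp
  rw [e] at h1
  exact ⟨h1.2.2.1.symm.trans h2.2.2.1, h1.2.2.2.symm.trans h2.2.2.2⟩

lemma spoke_ne (k : ℕ) : spoke w q τ k ≠ 0 := by
  intro h
  have := (spoke_indep q τ k w (a := 1) (b := 0) (by rw [h]; simp)).1
  norm_num at this

variable {q τ w}

lemma denom (hw : ∀ q, w q ≠ c) (hc : (1 - t) * w q + t * w (q + evec τ) = c) :
    w (q + evec τ) - w q ≠ 0 := by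
  intro h
  apply hw q
  have : w (q + evec τ) = w q := by linarith
  rw [this] at hc
  linarith

lemma level_eq (hw : ∀ q, w q ≠ c) (hc : (1 - t) * w q + t * w (q + evec τ) = c) (a b : ℝ) :
    (1 - (t - a * slope w q τ k - b * slope w q τ (k + 1)) - a - b) * w q
      + (t - a * slope w q τ k - b * slope w q τ (k + 1)) * w (q + evec τ)
      + a * w (q + bb τ k) + b * w (q + bb τ (k + 1)) = c := by
  have hd := denom hw hc
  unfold slope
  rw [← hc]
  field_simp
  ring

/-- membership in the face `k` near the vertex -/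
lemma mem_face_of {a b : ℝ} (hw : ∀ q, w q ≠ c)
    (hc : (1 - t) * w q + t * w (q + evec τ) = c) (ha : 0 ≤ a) (hb : 0 ≤ b)
    (h0 : 0 ≤ 1 - (t - a * slope w q τ k - b * slope w q τ (k + 1)) - a - b)
    (h1 : 0 ≤ t - a * slope w q τ k - b * slope w q τ (k + 1)) :
    pt q + t • pt (evec τ) + a • spoke w q τ k + b • spoke w q τ (k + 1) ∈ kF w c (tt q τ k) := by
  obtain ⟨e0, e1, e2, e3⟩ := bar_spoke q τ k w (t := t) a b
  rw [mem_kF, e0, e1, e2, e3]
  exact ⟨h0, h1, ha, hb, level_eq k hw hc a b⟩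

lemma face_mem {x : E3} (hw : ∀ q, w q ≠ c)
    (hc : (1 - t) * w q + t * w (q + evec τ) = c) (hx : x ∈ kF w c (tt q τ k)) :
    ∃ a b : ℝ, 0 ≤ a ∧ 0 ≤ b ∧
      x = pt q + t • pt (evec τ) + a • spoke w q τ k + b • spoke w q τ (k + 1) := by
  have hd := denom hw hc
  rw [mem_kF] at hx
  obtain ⟨h0, h1, h2, h3, h4⟩ := hx
  have hr := rep q τ k x
  have hs := rep_sum q τ k x
  set l0 := bar (tt q τ k) (ss τ k 0) x
  set l1 := bar (tt q τ k) (ss τ k 1) x
  set l2 := bar (tt q τ k) (ss τ k 2) x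
  set l3 := bar (tt q τ k) (ss τ k 3) x
  refine ⟨l2, l3, h2, h3, ?_⟩
  have e1 : l1 = t - l2 * slope w q τ k - l3 * slope w q τ (k + 1) := by
    have e0 : l0 = 1 - l1 - l2 - l3 := by linarith
    rw [e0] at h4
    unfold slope
    field_simp
    rw [← hc] at h4
    linear_combination h4
  have e0 : l0 = 1 - (t - l2 * slope w q τ k - l3 * slope w q τ (k + 1)) - l2 - l3 := by
    rw [← e1]; linarith
  rw [spoke_rep, ← e1]
  rw [← e1] at e0
  rw [← e0]
  exact hr

lemma vertex_mem (hw : ∀ q, w q ≠ c) (ht0 : 0 < t) (ht1 : t < 1)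
    (hc : (1 - t) * w q + t * w (q + evec τ) = c) :
    pt q + t • pt (evec τ) ∈ kF w c (tt q τ k) := by
  have h := mem_face_of k (a := 0) (b := 0) hw hc le_rfl le_rfl (by linarith) (by linarith)
  simpa using h

/-- the tetrahedra which contain the vertex -/
lemma tet_complete {i : KI} (ht0 : 0 < t) (ht1 : t < 1)
    (h : ∀ j, 0 ≤ bar i j (pt q + t • pt (evec τ))) : ∃ k, k < mm τ ∧ tt q τ k = i := by
  obtain ⟨z, s⟩ := i
  have hx : ∀ a, (pt q + t • pt (evec τ)) a = q a + t * evec τ a := by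
    intro a; simp [pt]
  have h0 := h 0
  have h1 := h 1
  have h2 := h 2
  have h3 := h 3
  simp only [bar, Matrix.cons_val, hx] at h0 h1 h2 h3
  -- integer differences
  have hfin : ∀ a, 0 ≤ (q a : ℝ) + t * evec τ a - z a ∧ (q a : ℝ) + t * evec τ a - z a ≤ 1 := by
    intro a
    obtain ⟨l, rfl⟩ := (Finite.injective_iff_surjective.mp (ord_inj s)) a
    fin_cases l
    · constructor <;> simp only [Fin.zero_eta] <;> linarith
    · constructor <;> simp only [Fin.mk_one] <;> linarith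
    · constructor <;> simp only [Fin.reduceFinMk] <;> linarith
  have hd01 : ∀ a, q a - z a = 0 ∨ q a - z a = 1 := by
    intro a
    obtain ⟨g1, g2⟩ := hfin a
    have g3 : ((q a - z a : ℤ) : ℝ) = (q a : ℝ) - z a := by push_cast; ring
    rcases evec01 τ a with he | he
    · rw [he] at g1 g2
      have k1 : (0:ℝ) ≤ ((q a - z a : ℤ) : ℝ) := by rw [g3]; push_cast at g1; linarith
      have k2 : ((q a - z a : ℤ) : ℝ) ≤ 1 := by rw [g3]; push_cast at g2; linarith
      have k1' : (0:ℤ) ≤ q a - z a := by exact_mod_cast k1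
      have k2' : q a - z a ≤ 1 := by exact_mod_cast k2
      omega
    · rw [he] at g1 g2
      have k1 : (-1:ℝ) < ((q a - z a : ℤ) : ℝ) := by rw [g3]; push_cast at g1; linarith
      have k2 : ((q a - z a : ℤ) : ℝ) < 1 := by rw [g3]; push_cast at g2; linarith
      have k1' : (-1:ℤ) < q a - z a := by exact_mod_cast k1
      have k2' : q a - z a < 1 := by exact_mod_cast k2
      omega
  -- comparison of two coordinates
  have hcmp : ∀ a b, 0 ≤ ((q a : ℝ) + t * evec τ a - z a) - ((q b : ℝ) + t * evec τ b - z b) →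
      2 * (q b - z b) + evec τ b ≤ 2 * (q a - z a) + evec τ a := by
    intro a b g
    have g3 : (((q a - z a) - (q b - z b) : ℤ) : ℝ) = ((q a : ℝ) - z a) - (q b - z b) := by
      push_cast; ring
    rcases evec01 τ a with ha | ha <;> rcases evec01 τ b with hb | hb <;> rw [ha, hb] at g ⊢ <;>
      push_cast at g
    · have k1 : (0:ℝ) ≤ (((q a - z a) - (q b - z b) : ℤ) : ℝ) := by rw [g3]; linarith
      have k1' : (0:ℤ) ≤ (q a - z a) - (q b - z b) := by exact_mod_cast k1
      omega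
    · have k1 : (0:ℝ) < (((q a - z a) - (q b - z b) : ℤ) : ℝ) := by rw [g3]; linarith
      have k1' : (0:ℤ) < (q a - z a) - (q b - z b) := by exact_mod_cast k1
      omega
    · have k1 : (-1:ℝ) < (((q a - z a) - (q b - z b) : ℤ) : ℝ) := by rw [g3]; linarith
      have k1' : (-1:ℤ) < (q a - z a) - (q b - z b) := by exact_mod_cast k1
      omega
    · have k1 : (0:ℝ) ≤ (((q a - z a) - (q b - z b) : ℤ) : ℝ) := by rw [g3]; linarith
      have k1' : (0:ℤ) ≤ (q a - z a) - (q b - z b) := by exact_mod_cast k1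
      omega
  have htop : 2 * (q (ord s 0) - z (ord s 0)) + evec τ (ord s 0) ≤ 2 := by
    obtain ⟨g1, g2⟩ := hfin (ord s 0)
    rcases evec01 τ (ord s 0) with he | he
    · rcases hd01 (ord s 0) with h5 | h5 <;> rw [he, h5] <;> norm_num
    · rcases hd01 (ord s 0) with h5 | h5
      · rw [he, h5]; norm_num
      · exfalso
        have g3 : (q (ord s 0) : ℝ) - z (ord s 0) = 1 := by exact_mod_cast h5
        rw [he] at g2
        push_cast at g2
        linarith
  -- Fin 2 versions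
  have hf2 : ∀ a, ∃ d : Fin 2, (d.1 : ℤ) = q a - z a := by
    intro a
    rcases hd01 a with h5 | h5
    · exact ⟨0, by rw [h5]; rfl⟩
    · exact ⟨1, by rw [h5]; rfl⟩
  obtain ⟨d0, hd0⟩ := hf2 0
  obtain ⟨d1, hd1⟩ := hf2 1
  obtain ⟨d2, hd2⟩ := hf2 2
  have hdv : dv d0 d1 d2 = q - z := by
    ext a
    fin_cases a
    · exact hd0
    · exact hd1
    · exact hd2
  have hdv' : ∀ a, dv d0 d1 d2 a = q a - z a := by
    intro a; rw [hdv]; rfl
  obtain ⟨k, hk, hk1, hk2⟩ := complete τ s d0 d1 d2 (by rw [hdv']; exact htop)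
    (by rw [hdv', hdv']; exact hcmp _ _ h1) (by rw [hdv', hdv']; exact hcmp _ _ h2)
  refine ⟨k.1, hk, ?_⟩
  have hff : ff τ k.1 = ft τ k := by
    unfold ff
    congr 1
    rw [Nat.mod_eq_of_lt hk]
    ext
    simp [Fin.ofNat, Nat.mod_eq_of_lt k.2]
  unfold tt
  rw [hff, hk1, hk2, hdv]
  congr 1
  abel

lemma bb_per (τ : Fin 7) (k : ℕ) : bb τ (k + mm τ) = bb τ k := by
  unfold bb; rw [Nat.add_mod_right]

lemma ff_per (τ : Fin 7) (k : ℕ) : ff τ (k + mm τ) = ff τ k := by
  unfold ff; rw [Nat.add_mod_right]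

lemma spoke_per (w : Lat → ℝ) (q : Lat) (τ : Fin 7) (k : ℕ) :
    spoke w q τ (k + mm τ) = spoke w q τ k := by
  unfold spoke slope; rw [bb_per]

lemma tt_inj {k l : ℕ} (hk : k < mm τ) (hl : l < mm τ) (h : tt q τ k = tt q τ l) : k = l := by
  unfold tt at h
  obtain ⟨h1, h2⟩ := Prod.mk.inj h
  have h3 : ff τ k = ff τ l := Prod.ext (add_left_cancel h1) h2
  have e1 := fin_mod τ k
  have e2 := fin_mod τ l
  rw [Nat.mod_eq_of_lt hk] at e1
  rw [Nat.mod_eq_of_lt hl] at e2
  have h4 := ft_inj τ (Fin.ofNat 6 (k % mm τ)) (Fin.ofNat 6 (l % mm τ))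
    (by rw [fin_mod]; exact modlt τ k) (by rw [fin_mod]; exact modlt τ l) h3
  have h5 := congrArg Fin.val h4
  rw [fin_mod, fin_mod, Nat.mod_eq_of_lt hk, Nat.mod_eq_of_lt hl] at h5
  exact h5

lemma norm_spoke_pos (w : Lat → ℝ) (q : Lat) (τ : Fin 7) (k : ℕ) : 0 < ‖spoke w q τ k‖ :=
  norm_pos_iff.mpr (spoke_ne q τ w k)

lemma angle_normalized (w : Lat → ℝ) (q : Lat) (τ : Fin 7) (k l : ℕ) :
    InnerProductGeometry.angle (‖spoke w q τ k‖⁻¹ • spoke w q τ k)
      (‖spoke w q τ l‖⁻¹ • spoke w q τ l)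
      = InnerProductGeometry.angle (spoke w q τ k) (spoke w q τ l) := by
  rw [InnerProductGeometry.angle_smul_left_of_pos _ _ (inv_pos.mpr (norm_spoke_pos w q τ k)),
    InnerProductGeometry.angle_smul_right_of_pos _ _ (inv_pos.mpr (norm_spoke_pos w q τ l))]

lemma angle_spoke_pos (w : Lat → ℝ) (q : Lat) (τ : Fin 7) (k : ℕ) :
    0 < InnerProductGeometry.angle (spoke w q τ k) (spoke w q τ (k + 1)) := by
  apply lt_of_le_of_ne (InnerProductGeometry.angle_nonneg _ _)
  intro h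
  obtain ⟨-, r, -, hr⟩ := InnerProductGeometry.angle_eq_zero_iff.mp h.symm
  have := (spoke_indep q τ k w (a := -r) (b := 1) (by rw [hr]; module)).2
  norm_num at this

lemma angle_spoke_lt (w : Lat → ℝ) (q : Lat) (τ : Fin 7) (k : ℕ) :
    InnerProductGeometry.angle (spoke w q τ k) (spoke w q τ (k + 1)) < π := by
  apply lt_of_le_of_ne (InnerProductGeometry.angle_le_pi _ _)
  intro h
  obtain ⟨-, r, -, hr⟩ := InnerProductGeometry.angle_eq_pi_iff.mp h
  have := (spoke_indep q τ k w (a := -r) (b := 1) (by rw [hr]; module)).2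
  norm_num at this

end local_

end K4

open K4 in
/-- Block K4: the fan around a vertex of the level surface. -/
theorem K4 : StK4 := by
  intro w c hw q τ t ht0 ht1 hc
  set v : E3 := pt q + t • pt (evec τ) with hv
  have hmem : ∀ k, v ∈ kF w c (tt q τ k) := fun k => vertex_mem k hw ht0 ht1 hc
  have hr0 : 0 < min t (1 - t) / 2 := by
    have : 0 < min t (1 - t) := lt_min ht0 (by linarith)
    linarith
  refine ⟨{ m := mm τ
            f := fun k => ⟨tt q τ k, ⟨v, hmem k⟩⟩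
            d := fun k => ‖spoke w q τ k‖⁻¹ • spoke w q τ k
            r := min t (1 - t) / 2
            m3 := three_le_mm τ
            r_pos := hr0
            f_per := ?_
            d_per := ?_
            f_inj := ?_
            f_all := ?_
            d_norm := ?_
            ang_pos := ?_
            ang_lt := ?_
            sector := ?_ }, rfl, fun k => rfl, fun k => rfl⟩
  · intro k
    apply Subtype.ext
    simp only [tt, ff_per]
  · intro k
    simp only [spoke_per]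
  · intro k l hk hl h
    exact tt_inj hk hl (congrArg Subtype.val h)
  · intro i
    constructor
    · intro h
      obtain ⟨k, hk, hk2⟩ := tet_complete (i := i.1) ht0 ht1 h.1
      exact ⟨k, hk, Subtype.ext hk2⟩
    · rintro ⟨k, -, rfl⟩
      exact hmem k
  · intro k
    have := norm_spoke_pos w q τ k
    rw [norm_smul, norm_inv, norm_norm, inv_mul_cancel₀ this.ne']
  · intro k
    rw [angle_normalized]
    exact angle_spoke_pos w q τ k
  · intro k
    rw [angle_normalized]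
    exact angle_spoke_lt w q τ k
  · intro k x hx
    have hk := norm_spoke_pos w q τ k
    have hk1 := norm_spoke_pos w q τ (k + 1)
    constructor
    · intro h
      obtain ⟨a, b, ha, hb, hab⟩ := face_mem k hw hc h
      refine ⟨a * ‖spoke w q τ k‖, b * ‖spoke w q τ (k + 1)‖, by positivity, by positivity, ?_⟩
      rw [smul_smul, smul_smul, mul_assoc, mul_assoc, mul_inv_cancel₀ hk.ne',
        mul_inv_cancel₀ hk1.ne', mul_one, mul_one]
      exact hab
    · rintro ⟨a, b, ha, hb, hab⟩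
      rw [smul_smul, smul_smul] at hab
      set a' := a * ‖spoke w q τ k‖⁻¹
      set b' := b * ‖spoke w q τ (k + 1)‖⁻¹
      have ha' : 0 ≤ a' := by positivity
      have hb' : 0 ≤ b' := by positivity
      have e1 := bar_spoke q τ k w (t := t) a' b'
      have e2 := bar_spoke q τ k w (t := t) 0 0
      have e3 : pt q + t • pt (evec τ) + (0:ℝ) • spoke w q τ k + (0:ℝ) • spoke w q τ (k + 1) = v := by
        rw [zero_smul, zero_smul, add_zero, add_zero]
      rw [← hv, ← hab] at e1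
      rw [e3] at e2
      have hmin1 : min t (1 - t) ≤ t := min_le_left _ _
      have hmin2 : min t (1 - t) ≤ 1 - t := min_le_right _ _
      have l0 := abs_le.mp (bar_lip (tt q τ k) (ss τ k 0) x v)
      have l1 := abs_le.mp (bar_lip (tt q τ k) (ss τ k 1) x v)
      rw [e1.1, e2.1] at l0
      rw [e1.2.1, e2.2.1] at l1
      have := mem_face_of k (a := a') (b := b') hw hc ha' hb' (by linarith [l0.1]) (by linarith [l1.1])
      rw [← hv, ← hab] at this
      exact this

end Vale.Agent.P134.PS
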