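import Vale.Agent.P134.PS.Kuhn

/-! # P134 / PS, block K5: the level surface of the Kuhn interpolation is a `Surf`. -/

open MeasureTheory Set
open scoped ENNReal RealInnerProductSpace Real

namespace Vale.Agent.P134.PS

namespace BK5

theorem evec_coord (τ : Fin 7) (j : Fin 3) : evec τ j = 0 ∨ evec τ j = 1 := by
  revert τ j; decide

theorem evec_pos (τ : Fin 7) : ∃ j, evec τ j = 1 := by
  revert τ; decide

theorem evec_inj (τ σ : Fin 7) (h : evec τ = evec σ) : τ = σ := by
  revert τ σ; decide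

/-- the edge, and the position on the edge, are determined by the point -/
theorem edge_unique {q q' : Lat} {τ τ' : Fin 7} {t t' : ℝ} (h0 : 0 < t) (h1 : t < 1)
    (h0' : 0 < t') (h1' : t' < 1)
    (h : pt q + t • pt (evec τ) = pt q' + t' • pt (evec τ')) : q = q' ∧ τ = τ' ∧ t = t' := by
  have hj : ∀ j, (q j : ℝ) + t * evec τ j = q' j + t' * evec τ' j := by
    intro j
    have := congrArg (fun x : E3 => x j) h
    simpa [pt] using this
  have hq : q = q' := by
    funext j
    have e := hj j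
    have a1 : 0 ≤ t * (evec τ j : ℝ) ∧ t * (evec τ j : ℝ) < 1 := by
      rcases evec_coord τ j with h | h
      · rw [h]; norm_num
      · rw [h]; norm_num; exact ⟨h0.le, h1⟩
    have a2 : 0 ≤ t' * (evec τ' j : ℝ) ∧ t' * (evec τ' j : ℝ) < 1 := by
      rcases evec_coord τ' j with h | h
      · rw [h]; norm_num
      · rw [h]; norm_num; exact ⟨h0'.le, h1'⟩
    have b1 : (q j : ℝ) < q' j + 1 := by linarith
    have b2 : (q' j : ℝ) < q j + 1 := by linarith
    have c1 : q j < q' j + 1 := by exact_mod_cast b1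
    have c2 : q' j < q j + 1 := by exact_mod_cast b2
    omega
  subst hq
  have hj' : ∀ j, t * (evec τ j : ℝ) = t' * evec τ' j := fun j => by
    have := hj j; linarith
  have he : evec τ = evec τ' := by
    funext j
    have e := hj' j
    rcases evec_coord τ j with h | h <;> rcases evec_coord τ' j with h' | h'
    · rw [h, h']
    · rw [h, h'] at e; norm_num at e; exact absurd e.symm h0'.ne'
    · rw [h, h'] at e; norm_num at e; exact absurd e h0.ne'
    · rw [h, h']
  have hτ := evec_inj τ τ' he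
  subst hτ
  obtain ⟨j, hj1⟩ := evec_pos τ
  have e := hj' j
  rw [hj1] at e; norm_num at e
  exact ⟨rfl, rfl, e⟩

/-- the total angle of a fan whose directions are the normalized spokes -/
theorem theta_eq {ι : Type} {F : ι → Set E3} {v : E3} (fn : Fan F v) (m : ℕ) (s : ℕ → E3)
    (hm : fn.m = m) (hd : ∀ k, fn.d k = ‖s k‖⁻¹ • s k) :
    fn.θ = ∑ k ∈ Finset.range m, InnerProductGeometry.angle (s k) (s (k + 1)) := by
  have hpos : ∀ k, 0 < ‖s k‖⁻¹ := by
    intro k
    have h := fn.d_norm k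
    rw [hd k] at h
    rcases eq_or_ne (s k) 0 with h0 | h0
    · rw [h0] at h; simp at h
    · exact inv_pos.2 (norm_pos_iff.2 h0)
  unfold Fan.θ Fan.A
  rw [hm]
  refine Finset.sum_congr rfl fun k _ => ?_
  unfold Fan.α
  rw [hd k, hd (k + 1), InnerProductGeometry.angle_smul_left_of_pos _ _ (hpos k),
    InnerProductGeometry.angle_smul_right_of_pos _ _ (hpos (k + 1))]

end BK5

open BK5 in
theorem K5 : StK5 := by
  intro h1 h2 h3 h4 w c hc
  obtain ⟨k1a, k1b, k1c, k1d⟩ := h1 w c hc
  have h2' : ∀ i : {i : KI // (kF w c i).Nonempty}, _ := fun i => h2 w c hc i.1 i.2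
  choose ch hch1 hch2 hch3 using h2'
  obtain ⟨k3a, k3b⟩ := h3 w c hc
  -- the fans
  have hfan : ∀ v : E3, v ∈ kV w c →
      ∃ fn : Fan (fun i : {i : KI // (kF w c i).Nonempty} => kF w c i.1) v,
        ∀ (q : Lat) (τ : Fin 7) (t : ℝ), 0 < t → t < 1 → (1 - t) * w q + t * w (q + evec τ) = c →
          v = pt q + t • pt (evec τ) →
          fn.θ = ∑ k ∈ Finset.range (mm τ),
            InnerProductGeometry.angle (spoke w q τ k) (spoke w q τ (k + 1)) := by
    rintro v ⟨q, τ, t, ht0, ht1, rfl, hw⟩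
    obtain ⟨fn, hm, _, hd⟩ := h4 w c hc q τ t ht0 ht1 hw
    refine ⟨fn, ?_⟩
    intro q' τ' t' ht0' ht1' hw' he
    obtain ⟨rfl, rfl, rfl⟩ := edge_unique ht0 ht1 ht0' ht1' he
    exact theta_eq fn (mm τ) (spoke w q τ) hm hd
  choose fan hfan' using hfan
  refine ⟨{
      ι := {i : KI // (kF w c i).Nonempty}
      cnt := inferInstance
      F := fun i => kF w c i.1
      V := kV w c
      ch := ch
      convex := fun i => (k1a i.1).1
      compact := fun i => (k1a i.1).2
      ch_iso := hch1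
      ch_int := hch2
      locFin := fun R => ?_
      V_locFin := k1c
      V_face := ?_
      V_int := ?_
      meet := ?_
      fan := fan }, Equiv.refl _, fun _ => rfl, rfl, ?_⟩
  · exact Set.Finite.preimage (f := (Subtype.val : {i : KI // (kF w c i).Nonempty} → KI))
      (s := {i | (kF w c i ∩ Metric.closedBall 0 R).Nonempty})
      Subtype.val_injective.injOn (k1b R)
  · intro v hv
    obtain ⟨i, hi⟩ := k1d v hv
    exact ⟨⟨i, v, hi⟩, hi⟩
  · intro v hv i hi
    exact hch3 i v hi (k3a v hv i.1 hi)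
  · intro i j hij x hx hxV
    have hij' : i.1 ≠ j.1 := fun h => hij (Subtype.ext h)
    obtain ⟨a, ha, b, hb, hab, hseg, hxo, hy⟩ := k3b i.1 j.1 hij' x hx hxV
    refine ⟨a, ha, b, hb, hab, hseg, hxo, fun y hyo => ?_⟩
    obtain ⟨y1, y2, y3, y4⟩ := hy y hyo
    have hyF : y ∈ kF w c i.1 ∩ kF w c j.1 := by
      rw [hseg]; exact openSegment_subset_segment ℝ a b hyo
    refine ⟨y1, hch3 i y hyF.1 y2, hch3 j y hyF.2 y3, fun k hk => ?_⟩
    rcases y4 k.1 hk with h | h
    · exact Or.inl (Subtype.ext h)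
    · exact Or.inr (Subtype.ext h)
  · intro q τ t ht0 ht1 hw
    have hv : pt q + t • pt (evec τ) ∈ kV w c := ⟨q, τ, t, ht0, ht1, rfl, hw⟩
    unfold Surf.θ
    rw [dif_pos hv]
    exact hfan' _ hv q τ t ht0 ht1 hw rfl

end Vale.Agent.P134.PS
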