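import Vale.Agent.P134.PS.Kuhn

/-!
# P134 / PS / K6 : surface integrals over a planar face do not depend on the chart
-/

open MeasureTheory Set
open scoped ENNReal RealInnerProductSpace Real

namespace Vale.Agent.P134.PS

namespace BlockK6

lemma dist_sq (a b : ℂ) : dist a b ^ 2 = (a.re - b.re) ^ 2 + (a.im - b.im) ^ 2 := by
  rw [Complex.dist_eq, Complex.sq_norm, Complex.normSq_apply]
  simp; ring

lemma core {r p1 p2 q1 q2 : ℝ} (hp : p1 ^ 2 + p2 ^ 2 = r ^ 2) (hq : q1 ^ 2 + q2 ^ 2 = r ^ 2)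
    (hpq : p1 * q1 + p2 * q2 = 0) : (q1 = -p2 ∧ q2 = p1) ∨ (q1 = p2 ∧ q2 = -p1) := by
  have hdet : (p1 * q2 - p2 * q1) ^ 2 = (r ^ 2) ^ 2 := by
    have : (p1 * q2 - p2 * q1) ^ 2 + (p1 * q1 + p2 * q2) ^ 2 =
      (p1 ^ 2 + p2 ^ 2) * (q1 ^ 2 + q2 ^ 2) := by ring
    rw [hpq, hp, hq] at this
    linear_combination this
  rcases sq_eq_sq_iff_eq_or_eq_neg.1 hdet with h' | h'
  · left
    have h0 : (q1 + p2) ^ 2 + (q2 - p1) ^ 2 = 0 := by linear_combination hp + hq - 2 * h'
    have h1 : (q1 + p2) ^ 2 = 0 := by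
      have := sq_nonneg (q1 + p2); have := sq_nonneg (q2 - p1); linarith
    have h2 : (q2 - p1) ^ 2 = 0 := by
      have := sq_nonneg (q1 + p2); have := sq_nonneg (q2 - p1); linarith
    constructor
    · have := pow_eq_zero_iff (two_ne_zero) |>.1 h1; linarith
    · have := pow_eq_zero_iff (two_ne_zero) |>.1 h2; linarith
  · right
    have h0 : (q1 - p2) ^ 2 + (q2 + p1) ^ 2 = 0 := by linear_combination hp + hq + 2 * h'
    have h1 : (q1 - p2) ^ 2 = 0 := by
      have := sq_nonneg (q1 - p2); have := sq_nonneg (q2 + p1); linarith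
    have h2 : (q2 + p1) ^ 2 = 0 := by
      have := sq_nonneg (q1 - p2); have := sq_nonneg (q2 + p1); linarith
    constructor
    · have := pow_eq_zero_iff (two_ne_zero) |>.1 h1; linarith
    · have := pow_eq_zero_iff (two_ne_zero) |>.1 h2; linarith

lemma core1 {r p1 p2 a b c d : ℝ} (hr : 0 < r) (hp : p1 ^ 2 + p2 ^ 2 = r ^ 2)
    (h1 : c * p1 + d * p2 = a * r) (h2 : -c * p2 + d * p1 = b * r) :
    c = p1 / r * a - p2 / r * b ∧ d = p1 / r * b + p2 / r * a := by
  have hr' : r ≠ 0 := hr.ne'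
  constructor
  · have : c * r ^ 2 = r * (p1 * a - p2 * b) := by
      rw [← hp]; linear_combination p1 * h1 - p2 * h2
    field_simp
    have h3 : r * (c * r) = r * (p1 * a - p2 * b) := by linear_combination this
    exact mul_left_cancel₀ hr' h3
  · have : d * r ^ 2 = r * (p1 * b + p2 * a) := by
      rw [← hp]; linear_combination p2 * h1 + p1 * h2
    field_simp
    have h3 : r * (d * r) = r * (p1 * b + p2 * a) := by linear_combination this
    exact mul_left_cancel₀ hr' h3

/-- a map of the plane which preserves distances on a set containing a right angled triangle is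
an isometry -/
lemma exists_isom {X : Type*} (F : Set X) (f g : X → ℂ)
    (h : ∀ x ∈ F, ∀ y ∈ F, dist (f x) (f y) = dist (g x) (g y))
    (hint : (interior (f '' F)).Nonempty) :
    ∃ e : ℂ ≃ᵢ ℂ, ∀ x ∈ F, e (f x) = g x := by
  obtain ⟨z0, hz0⟩ := hint
  obtain ⟨ε, hε, hball⟩ := Metric.isOpen_iff.1 isOpen_interior z0 hz0
  have hsub : Metric.ball z0 ε ⊆ f '' F := hball.trans interior_subset
  obtain ⟨r, hr0, hrε⟩ : ∃ r : ℝ, 0 < r ∧ r < ε := ⟨ε / 2, by positivity, by linarith⟩
  obtain ⟨x0, hx0, h0⟩ := hsub (Metric.mem_ball_self hε)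
  obtain ⟨x1, hx1, h1⟩ : z0 + r ∈ f '' F := hsub (by
    rw [Metric.mem_ball, Complex.dist_eq, add_sub_cancel_left, Complex.norm_real,
      Real.norm_eq_abs, abs_of_pos hr0]
    exact hrε)
  obtain ⟨x2, hx2, h2⟩ : z0 + r * Complex.I ∈ f '' F := hsub (by
    rw [Metric.mem_ball, Complex.dist_eq, add_sub_cancel_left, norm_mul, Complex.norm_I, mul_one,
      Complex.norm_real, Real.norm_eq_abs, abs_of_pos hr0]
    exact hrε)
  -- the second triangle
  have D : ∀ x ∈ F, ∀ y ∈ F, ((f x).re - (f y).re) ^ 2 + ((f x).im - (f y).im) ^ 2 =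
      ((g x).re - (g y).re) ^ 2 + ((g x).im - (g y).im) ^ 2 := by
    intro x hx y hy
    rw [← dist_sq, ← dist_sq, h x hx y hy]
  have f1r : (f x1).re = z0.re + r := by rw [h1]; simp
  have f1i : (f x1).im = z0.im := by rw [h1]; simp
  have f2r : (f x2).re = z0.re := by rw [h2]; simp
  have f2i : (f x2).im = z0.im + r := by rw [h2]; simp
  have e01 := D x1 hx1 x0 hx0
  have e02 := D x2 hx2 x0 hx0
  have e12 := D x1 hx1 x2 hx2
  rw [f1r, f1i, h0] at e01
  rw [f2r, f2i, h0] at e02
  rw [f1r, f1i, f2r, f2i] at e12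
  obtain ⟨p1, hp1⟩ : ∃ p1, p1 = (g x1).re - (g x0).re := ⟨_, rfl⟩
  obtain ⟨p2, hp2⟩ : ∃ p1, p1 = (g x1).im - (g x0).im := ⟨_, rfl⟩
  obtain ⟨q1, hq1⟩ : ∃ p1, p1 = (g x2).re - (g x0).re := ⟨_, rfl⟩
  obtain ⟨q2, hq2⟩ : ∃ p1, p1 = (g x2).im - (g x0).im := ⟨_, rfl⟩
  have hp : p1 ^ 2 + p2 ^ 2 = r ^ 2 := by rw [hp1, hp2]; linear_combination -e01
  have hq : q1 ^ 2 + q2 ^ 2 = r ^ 2 := by rw [hq1, hq2]; linear_combination -e02
  have hpq : p1 * q1 + p2 * q2 = 0 := by
    have h3 : (p1 - q1) ^ 2 + (p2 - q2) ^ 2 = 2 * r ^ 2 := by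
      rw [hp1, hp2, hq1, hq2]; linear_combination -e12
    linear_combination (1 / 2) * hp + (1 / 2) * hq - (1 / 2) * h3
  have hr' : r ≠ 0 := hr0.ne'
  set p : ℂ := ⟨p1 / r, p2 / r⟩ with hpdef
  have hpn : ‖p‖ = 1 := by
    have h4 : ‖p‖ ^ 2 = 1 := by
      rw [Complex.sq_norm, Complex.normSq_apply, hpdef]
      field_simp
      linarith
    have h5 := norm_nonneg p
    exact (pow_eq_one_iff_of_nonneg h5 two_ne_zero).1 h4
  let pc : Circle := ⟨p, mem_sphere_zero_iff_norm.2 hpn⟩
  -- coordinates of a point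
  have key : ∀ x ∈ F, ((g x).re - (g x0).re) * p1 + ((g x).im - (g x0).im) * p2 =
        ((f x).re - z0.re) * r ∧
      ((g x).re - (g x0).re) * q1 + ((g x).im - (g x0).im) * q2 = ((f x).im - z0.im) * r := by
    intro x hx
    have a0 := D x hx x0 hx0
    have a1 := D x hx x1 hx1
    have a2 := D x hx x2 hx2
    rw [h0] at a0
    rw [f1r, f1i] at a1
    rw [f2r, f2i] at a2
    have g1r : (g x1).re = (g x0).re + p1 := by rw [hp1]; ring
    have g1i : (g x1).im = (g x0).im + p2 := by rw [hp2]; ring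
    have g2r : (g x2).re = (g x0).re + q1 := by rw [hq1]; ring
    have g2i : (g x2).im = (g x0).im + q2 := by rw [hq2]; ring
    rw [g1r, g1i] at a1
    rw [g2r, g2i] at a2
    constructor
    · linear_combination (-1 / 2) * a0 + (1 / 2) * a1 + (1 / 2) * hp
    · linear_combination (-1 / 2) * a0 + (1 / 2) * a2 + (1 / 2) * hq
  rcases core hp hq hpq with ⟨c1, c2⟩ | ⟨c1, c2⟩
  · refine ⟨(IsometryEquiv.subRight z0).trans
      ((rotation pc).toIsometryEquiv.trans (IsometryEquiv.addRight (g x0))), fun x hx => ?_⟩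
    obtain ⟨k1, k2⟩ := key x hx
    rw [c1, c2] at k2
    obtain ⟨m1, m2⟩ := core1 (b := (f x).im - z0.im) hr0 hp k1 (by linear_combination k2)
    have : (rotation pc) (f x - z0) = p * (f x - z0) := rfl
    simp only [IsometryEquiv.trans_apply, IsometryEquiv.subRight_apply,
      LinearIsometryEquiv.coe_toIsometryEquiv, IsometryEquiv.addRight_apply, this]
    apply Complex.ext
    · simp only [Complex.add_re, Complex.mul_re, Complex.sub_re, Complex.sub_im, hpdef]
      linear_combination -m1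
    · simp only [Complex.add_im, Complex.mul_im, Complex.sub_re, Complex.sub_im, hpdef]
      linear_combination -m2
  · refine ⟨(IsometryEquiv.subRight z0).trans (Complex.conjLIE.toIsometryEquiv.trans
      ((rotation pc).toIsometryEquiv.trans (IsometryEquiv.addRight (g x0)))), fun x hx => ?_⟩
    obtain ⟨k1, k2⟩ := key x hx
    rw [c1, c2] at k2
    obtain ⟨m1, m2⟩ := core1 (b := -((f x).im - z0.im)) hr0 hp k1 (by linear_combination -k2)
    have : (rotation pc) (Complex.conjLIE (f x - z0)) = p * (starRingEnd ℂ) (f x - z0) := rfl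
    simp only [IsometryEquiv.trans_apply, IsometryEquiv.subRight_apply,
      LinearIsometryEquiv.coe_toIsometryEquiv, IsometryEquiv.addRight_apply, this]
    apply Complex.ext
    · simp only [Complex.add_re, Complex.mul_re, Complex.sub_re, Complex.sub_im, hpdef,
        Complex.conj_re, Complex.conj_im]
      linear_combination -m1
    · simp only [Complex.add_im, Complex.mul_im, Complex.sub_re, Complex.sub_im, hpdef,
        Complex.conj_re, Complex.conj_im]
      linear_combination -m2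

lemma measurePreserving_isometryEquiv (g : ℂ ≃ᵢ ℂ) : MeasurePreserving g volume volume := by
  have hl := (g.toRealLinearIsometryEquiv).measurePreserving
  have h2 : (g : ℂ → ℂ) = (fun w => w + g 0) ∘ g.toRealLinearIsometryEquiv := by
    ext w
    simp [IsometryEquiv.toRealLinearIsometryEquiv_apply]
  rw [h2]
  exact (measurePreserving_add_right volume (g 0)).comp hl

end BlockK6

open BlockK6 in
theorem K6 : StK6 := by
  intro F ch ch' h h' hint hconv Ψ
  obtain ⟨e, he⟩ := exists_isom F ch ch' (fun x hx y hy => by rw [h x hx y hy, h' x hx y hy]) hint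
  have himg : ch' '' F = e '' (ch '' F) := by
    rw [image_image]
    exact image_congr fun x hx => (he x hx).symm
  have hmeas : NullMeasurableSet (ch '' F) volume :=
    (hconv.affine_image ch).nullMeasurableSet volume
  rw [himg, ← (measurePreserving_isometryEquiv e).setLIntegral_comp_emb
    e.toHomeomorph.measurableEmbedding]
  apply lintegral_congr_ae
  filter_upwards [ae_restrict_mem₀ hmeas] with z hz
  obtain ⟨x, hx, rfl⟩ := hz
  have hinj : ∀ (f : E3 →ᵃ[ℝ] ℂ), (∀ x ∈ F, ∀ y ∈ F, dist (f x) (f y) = dist x y) →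
      ∀ x ∈ F, Function.invFunOn f F (f x) = x := by
    intro f hf x hx
    have hm : ∃ y ∈ F, f y = f x := ⟨x, hx, rfl⟩
    have h1 := Function.invFunOn_mem hm
    have h2 := Function.invFunOn_eq hm
    have h3 := hf _ h1 x hx
    rw [h2, dist_self] at h3
    exact dist_eq_zero.1 h3.symm
  rw [hinj ch h x hx, he x hx, hinj ch' h' x hx]

end Vale.Agent.P134.PS
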