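import Vale.Agent.P134.PS.Kuhn

/-! # PS-K7 : coarea formula in a Kuhn tetrahedron -/

open MeasureTheory Set
open scoped ENNReal RealInnerProductSpace Real

namespace Vale.Agent.P134.PS

namespace K7

/-- interpolated value -/
noncomputable def Lf (w : Lat → ℝ) (i : KI) (x : E3) : ℝ := ∑ k, bar i k x * w (vert i k)

lemma Lf_eq (w : Lat → ℝ) (i : KI) : ∃ b : ℝ, ∀ x, Lf w i x = inner ℝ (grad w i) x + b := by
  obtain ⟨z, s⟩ := i
  refine ⟨Lf w (z, s) 0, fun x => ?_⟩
  rw [EuclideanSpace.inner_eq_star_dotProduct]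
  simp only [Lf, Fin.sum_univ_four, bar, dotProduct, Fin.sum_univ_three, grad]
  match s with
  | 0 => simp [ord, rk, Fin.ofNat]; ring
  | 1 => simp [ord, rk, Fin.ofNat]; ring
  | 2 => simp [ord, rk, Fin.ofNat]; ring
  | 3 => simp [ord, rk, Fin.ofNat]; ring
  | 4 => simp [ord, rk, Fin.ofNat]; ring
  | 5 => simp [ord, rk, Fin.ofNat]; ring

lemma Lf_vert (w : Lat → ℝ) (i : KI) : Lf w i (pt (vert i 0)) = w (vert i 0) := by
  have h := bar_comb i (fun k => if k = 0 then 1 else 0) (by simp)
  have e : ∑ k, (if k = 0 then (1:ℝ) else 0) • pt (vert i k) = pt (vert i 0) := by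
    simp
  rw [e] at h
  unfold Lf
  simp_rw [h]
  simp

lemma kF_eq (w : Lat → ℝ) (c : ℝ) (i : KI) : kF w c i = {x | x ∈ tet i ∧ Lf w i x = c} := rfl

lemma continuous_bar (i : KI) (k : Fin 4) : Continuous (bar i k) := by
  unfold bar
  fin_cases k <;> simp <;> fun_prop

lemma measurableSet_tet (i : KI) : MeasurableSet (tet i) := by
  have : tet i = ⋂ k, {x | 0 ≤ bar i k x} := by ext x; simp [tet]
  rw [this]
  exact MeasurableSet.iInter fun k =>
    (isClosed_le continuous_const (continuous_bar i k)).measurableSet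

lemma bar_affine (i : KI) (k : Fin 4) (x y : E3) (a b : ℝ) (hab : a + b = 1) :
    bar i k (a • x + b • y) = a * bar i k x + b * bar i k y := by
  have hb : b = 1 - a := by linarith
  subst hb
  unfold bar
  fin_cases k <;> simp <;> ring

lemma convex_tet (i : KI) : Convex ℝ (tet i) := by
  intro x hx y hy a b ha hb hab k
  rw [bar_affine i k x y a b hab]
  have := hx k
  have := hy k
  positivity

lemma convex_kF (w : Lat → ℝ) (c : ℝ) (i : KI) : Convex ℝ (kF w c i) := by
  obtain ⟨b, hb⟩ := Lf_eq w i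
  intro x hx y hy s t hs ht hst
  rw [kF_eq] at hx hy ⊢
  refine ⟨convex_tet i hx.1 hy.1 hs ht hst, ?_⟩
  rw [hb, inner_add_right, inner_smul_right, inner_smul_right]
  have h1 := hx.2
  have h2 := hy.2
  rw [hb] at h1 h2
  have e1 : inner ℝ (grad w i) x = c - b := by linarith
  have e2 : inner ℝ (grad w i) y = c - b := by linarith
  rw [e1, e2]
  have : t = 1 - s := by linarith
  subst this; ring

lemma exists_phi (n : E3) (hn : ‖n‖ = 1) : ∃ u v : E3, ‖u‖ = 1 ∧ ‖v‖ = 1 ∧ inner ℝ u v = 0 ∧
    inner ℝ n u = 0 ∧ inner ℝ n v = 0 ∧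
    MeasurePreserving (fun p : ℝ × ℂ => p.1 • n + p.2.re • u + p.2.im • v)
      ((volume : Measure ℝ).prod (volume : Measure ℂ)) volume ∧
    ∀ x : E3, x = (inner ℝ n x) • n + (inner ℝ u x) • u + (inner ℝ v x) • v := by
  have h0 : Orthonormal ℝ (({0} : Set (Fin 3)).domRestrict (fun _ => n)) := by
    constructor
    · intro i; exact hn
    · rintro ⟨i, hi⟩ ⟨j, hj⟩ hij
      exact absurd (Subtype.ext ((mem_singleton_iff.1 hi).trans (mem_singleton_iff.1 hj).symm)) hij
  obtain ⟨e, he⟩ := h0.exists_orthonormalBasis_extension_of_card_eq (by simp)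
  have he0 : e 0 = n := he 0 (by simp)
  have ho := e.orthonormal
  have ho2 : ∀ i j, i ≠ j → inner ℝ (e i) (e j) = 0 := fun i j hij => ho.2 hij
  refine ⟨e 1, e 2, ho.1 1, ho.1 2, ho2 1 2 (by decide), ?_, ?_, ?_, fun x => ?_⟩
  · rw [← he0]; exact ho2 0 1 (by decide)
  · rw [← he0]; exact ho2 0 2 (by decide)
  · have m1 : MeasurePreserving (e.repr.symm : EuclideanSpace ℝ (Fin 3) → E3) :=
      e.measurePreserving_repr_symm
    have m2 := PiLp.volume_preserving_toLp (Fin 3)
    have m3 := (volume_preserving_piFinSuccAbove (fun _ : Fin 3 => ℝ) 0).symm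
    have m4 : MeasurePreserving (Prod.map (id : ℝ → ℝ) Complex.measurableEquivPi)
        ((volume : Measure ℝ).prod (volume : Measure ℂ))
        ((volume : Measure ℝ).prod (volume : Measure (Fin 2 → ℝ))) :=
      (MeasurePreserving.id volume).prod Complex.volume_preserving_equiv_pi
    have m5 := m1.comp (m2.comp (m3.comp m4))
    have key : (fun p : ℝ × ℂ => p.1 • n + p.2.re • e 1 + p.2.im • e 2)
        = e.repr.symm ∘ WithLp.toLp 2 ∘ (MeasurableEquiv.piFinSuccAbove (fun _ : Fin 3 => ℝ) 0).symm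
          ∘ Prod.map (id : ℝ → ℝ) Complex.measurableEquivPi := by
      funext p
      obtain ⟨s, z⟩ := p
      simp only [Function.comp_apply, Prod.map_apply, id, Complex.measurableEquivPi_apply]
      rw [← e.sum_repr_symm, Fin.sum_univ_three, he0]
      simp [MeasurableEquiv.piFinSuccAbove]
    rw [key]
    exact m5
  · have := e.sum_repr' x
    rw [Fin.sum_univ_three, he0] at this
    exact this.symm

/-- the orthogonal projection chart -/
noncomputable def ch0 (u v : E3) : E3 →ᵃ[ℝ] ℂ :=
  ({ toFun := fun x => ⟨inner ℝ u x, inner ℝ v x⟩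
     map_add' := fun x y => by
       apply Complex.ext <;> simp [inner_add_right]
     map_smul' := fun a x => by
       apply Complex.ext <;> simp [inner_smul_right] } : E3 →ₗ[ℝ] ℂ).toAffineMap

lemma ch0_apply (u v x : E3) : ch0 u v x = ⟨inner ℝ u x, inner ℝ v x⟩ := rfl

open Classical in
/-- K7, given K6 (independence of the chart). -/
theorem K7_of (h6 : StK6) : StK7 := by
  intro w i ch hch Ψ hΨ
  obtain ⟨b, hb⟩ := Lf_eq w i
  by_cases hg : grad w i = 0
  · rw [hg, norm_zero, ENNReal.ofReal_zero]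
    simp only [mul_zero, lintegral_zero]
    have h0 : ∀ c, (if (∀ q, w q ≠ c) ∧ (kF w c i).Nonempty then
      ∫⁻ z in ch c '' kF w c i, Ψ (Function.invFunOn (ch c) (kF w c i) z) else 0) = 0 := by
      intro c
      rw [if_neg]
      rintro ⟨h1, x, hx⟩
      have h2 : Lf w i x = c := hx.2
      have h3 := Lf_vert w i
      rw [hb, hg, inner_zero_left] at h2 h3
      exact h1 (vert i 0) (by linarith)
    simp_rw [h0]
    simp
  set g := grad w i with hgdef
  set γ := ‖g‖ with hγdef
  have hγ : 0 < γ := norm_pos_iff.2 hg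
  set n : E3 := γ⁻¹ • g with hndef
  have hn : ‖n‖ = 1 := by
    rw [hndef, norm_smul, norm_inv, Real.norm_eq_abs, abs_of_pos hγ, ← hγdef,
      inv_mul_cancel₀ hγ.ne']
  have hgn : g = γ • n := by rw [hndef, smul_smul, mul_inv_cancel₀ hγ.ne', one_smul]
  obtain ⟨u, v, hu, hv, huv, hnu, hnv, hmp, hrep⟩ := exists_phi n hn
  set φ : ℝ × ℂ → E3 := fun p => p.1 • n + p.2.re • u + p.2.im • v with hφ
  have hφc : Continuous φ := by
    rw [hφ]
    refine ((continuous_fst.smul continuous_const).add
      ((Complex.continuous_re.comp continuous_snd).smul continuous_const)).add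
      ((Complex.continuous_im.comp continuous_snd).smul continuous_const)
  have inn : inner ℝ n n = (1:ℝ) := by rw [real_inner_self_eq_norm_sq, hn]; norm_num
  have iuu : inner ℝ u u = (1:ℝ) := by rw [real_inner_self_eq_norm_sq, hu]; norm_num
  have ivv : inner ℝ v v = (1:ℝ) := by rw [real_inner_self_eq_norm_sq, hv]; norm_num
  have hun : inner ℝ u n = (0:ℝ) := by rw [real_inner_comm]; exact hnu
  have hvn : inner ℝ v n = (0:ℝ) := by rw [real_inner_comm]; exact hnv
  have hvu : inner ℝ v u = (0:ℝ) := by rw [real_inner_comm]; exact huv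
  have hgi : ∀ y, inner ℝ g y = γ * inner ℝ n y := by
    intro y
    conv_lhs => rw [hgn]
    rw [inner_smul_left]; simp
  have hLφ : ∀ s z, Lf w i (φ (s, z)) = γ * s + b := by
    intro s z
    rw [hb, hgi, hφ]
    simp only [inner_add_right, inner_smul_right, inn, hnu, hnv]
    simp
  have hch0φ : ∀ s z, ch0 u v (φ (s, z)) = z := by
    intro s z
    rw [ch0_apply, hφ]
    simp only [inner_add_right, inner_smul_right, iuu, ivv, hun, hvn, hvu, huv]
    apply Complex.ext <;> simp
  -- the slice function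
  set Q : E3 → ℝ≥0∞ := (tet i).indicator Ψ with hQ
  have hQm : Measurable Q := hΨ.indicator (measurableSet_tet i)
  set G : ℝ → ℝ≥0∞ := fun c => ∫⁻ z : ℂ, Q (φ ((c - b) / γ, z)) with hG
  have hGm : Measurable G := by
    have h1 : Measurable (fun p : ℝ × ℂ => Q (φ ((p.1 - b) / γ, p.2))) :=
      hQm.comp (hφc.measurable.comp ((((measurable_fst.sub_const b).div_const γ)).prodMk
        measurable_snd))
    exact h1.lintegral_prod_right'
  -- right-hand side
  have rhs : ∫⁻ x in tet i, Ψ x * ENNReal.ofReal γ = ∫⁻ c, G c := by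
    have r1 : ∫⁻ x in tet i, Ψ x * ENNReal.ofReal γ = (∫⁻ x, Q x) * ENNReal.ofReal γ := by
      rw [lintegral_mul_const _ hΨ, hQ, lintegral_indicator (measurableSet_tet i)]
    have r2 : ∫⁻ x, Q x = ∫⁻ s : ℝ, ∫⁻ z : ℂ, Q (φ (s, z)) := by
      rw [← hmp.lintegral_comp hQm,
        lintegral_prod (fun p => Q (φ p)) (hQm.comp hφc.measurable).aemeasurable]
    have r3 : ∀ s : ℝ, ∫⁻ z : ℂ, Q (φ (s, z)) = G (γ * s + b) := by
      intro s
      rw [hG]
      simp only
      congr 1
      funext z
      congr 3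
      field_simp
      ring
    have r4 : ∫⁻ s : ℝ, G (γ * s + b) = ENNReal.ofReal γ⁻¹ * ∫⁻ c, G c := by
      have m1 : Measurable (fun t : ℝ => G (t + b)) := hGm.comp (measurable_id.add_const b)
      calc ∫⁻ s : ℝ, G (γ * s + b) = ∫⁻ t, G (t + b) ∂(Measure.map (γ * ·) volume) := by
            rw [lintegral_map m1 (measurable_const_mul γ)]
        _ = ENNReal.ofReal |γ⁻¹| * ∫⁻ t : ℝ, G (t + b) := by
            rw [Real.map_volume_mul_left hγ.ne', lintegral_smul_measure, smul_eq_mul]
        _ = ENNReal.ofReal γ⁻¹ * ∫⁻ c, G c := by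
            rw [abs_of_pos (inv_pos.2 hγ), lintegral_add_right_eq_self]
    rw [r1, r2]
    simp_rw [r3]
    rw [r4, mul_comm, ← mul_assoc, ← ENNReal.ofReal_mul hγ.le, mul_inv_cancel₀ hγ.ne',
      ENNReal.ofReal_one, one_mul]
  rw [rhs]
  -- generic c
  have hae : ∀ᵐ c : ℝ, ∀ q, w q ≠ c := by
    have h1 : (volume : Measure ℝ) (range w) = 0 := (countable_range w).measure_zero _
    have h2 : ∀ᵐ c : ℝ, c ∉ range w := measure_eq_zero_iff_ae_notMem.1 h1
    filter_upwards [h2] with c hc q hq
    exact hc ⟨q, hq⟩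
  refine lintegral_congr_ae ?_
  filter_upwards [hae] with c hc
  by_cases hne : (kF w c i).Nonempty
  · rw [if_pos ⟨hc, hne⟩]
    have hlev : ∀ x ∈ kF w c i, inner ℝ n x = (c - b) / γ := by
      intro x hx
      have h2 : Lf w i x = c := hx.2
      rw [hb, hgi] at h2
      rw [eq_div_iff hγ.ne']
      linarith
    have hiso : ∀ x ∈ kF w c i, ∀ y ∈ kF w c i, dist (ch0 u v x) (ch0 u v y) = dist x y := by
      intro x hx y hy
      have e0 : inner ℝ n (x - y) = (0:ℝ) := by
        rw [inner_sub_right, hlev x hx, hlev y hy, sub_self]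
      have e1 := hrep (x - y)
      rw [e0, zero_smul, zero_add] at e1
      have e2 : ‖x - y‖ ^ 2 = (inner ℝ u (x - y)) ^ 2 + (inner ℝ v (x - y)) ^ 2 := by
        rw [← real_inner_self_eq_norm_sq]
        conv_lhs => rw [e1]
        simp only [inner_add_left, inner_add_right, inner_smul_left, inner_smul_right, iuu, ivv,
          huv, hvu]
        simp; ring
      have e3 : ‖ch0 u v x - ch0 u v y‖ ^ 2
          = (inner ℝ u (x - y)) ^ 2 + (inner ℝ v (x - y)) ^ 2 := by
        rw [← Complex.normSq_eq_norm_sq, ch0_apply, ch0_apply, Complex.normSq_apply]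
        simp only [Complex.sub_re, Complex.sub_im, inner_sub_right]
        ring
      rw [dist_eq_norm, dist_eq_norm]
      have := e3.trans e2.symm
      exact (pow_left_inj₀ (norm_nonneg _) (norm_nonneg _) (by norm_num)).1 this
    obtain ⟨q1, q2⟩ := hch c hc hne
    rw [h6 (kF w c i) (ch c) (ch0 u v) q1 hiso q2 (convex_kF w c i) Ψ]
    have himg : ch0 u v '' kF w c i = {z | φ ((c - b) / γ, z) ∈ tet i} := by
      ext z
      constructor
      · rintro ⟨x, hx, rfl⟩
        have hx' : φ ((c - b) / γ, ch0 u v x) = x := by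
          conv_rhs => rw [hrep x, hlev x hx]
          rw [hφ, ch0_apply]
        rw [Set.mem_ofPred_eq, hx']; exact hx.1
      · intro hz
        refine ⟨φ ((c - b) / γ, z), ⟨hz, ?_⟩, hch0φ _ _⟩
        have := hLφ ((c - b) / γ) z
        unfold Lf at this
        rw [this]; field_simp; ring
    have hinj : InjOn (ch0 u v) (kF w c i) := by
      intro x hx y hy e
      have := hiso x hx y hy
      rw [e, dist_self] at this
      exact dist_eq_zero.1 this.symm
    have hmeas : MeasurableSet {z : ℂ | φ ((c - b) / γ, z) ∈ tet i} :=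
      (hφc.comp (continuous_const.prodMk continuous_id)).measurable (measurableSet_tet i)
    have hinv : ∀ z ∈ {z : ℂ | φ ((c - b) / γ, z) ∈ tet i},
        Ψ (Function.invFunOn (ch0 u v) (kF w c i) z) = Ψ (φ ((c - b) / γ, z)) := by
      intro z hz
      congr 1
      rw [← himg] at hz
      have h1 := Function.invFunOn_mem hz
      have h2 := Function.invFunOn_eq hz
      rw [himg] at hz
      have h3 : φ ((c - b) / γ, z) ∈ kF w c i := by
        refine ⟨hz, ?_⟩
        have := hLφ ((c - b) / γ) z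
        unfold Lf at this
        rw [this]; field_simp; ring
      exact hinj h1 h3 (by rw [h2, hch0φ])
    rw [himg, setLIntegral_congr_fun hmeas hinv, hG]
    simp only
    rw [← lintegral_indicator hmeas]
    congr 1
  · rw [if_neg (fun h => hne h.2), hG]
    have h0 : ∀ z : ℂ, Q (φ ((c - b) / γ, z)) = 0 := by
      intro z
      simp only [hQ]
      rw [indicator_of_notMem]
      intro hz
      refine hne ⟨φ ((c - b) / γ, z), hz, ?_⟩
      have := hLφ ((c - b) / γ) z
      unfold Lf at this
      rw [this]; field_simp; ring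
    simp only [h0, lintegral_zero]

end K7

end Vale.Agent.P134.PS
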