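import Vale.Agent.P134.PS.Defs

/-!
# P134 / PS, block PA: shortest chains exist and use every face at most once
-/

open MeasureTheory Set Filter Topology
open scoped ENNReal RealInnerProductSpace Real

namespace Vale.Agent.P134.PS

namespace Surf

variable (S : Surf)

theorem len_nonneg (n : ℕ) (p : ℕ → E3) : 0 ≤ len n p :=
  Finset.sum_nonneg fun _ _ => dist_nonneg

theorem len_succ (n : ℕ) (p : ℕ → E3) : len (n + 1) p = len n p + dist (p n) (p (n + 1)) := by
  unfold len; rw [Finset.sum_range_succ]

/-- a piece of a chain is longer than the distance of its end points -/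
theorem dist_le_sum (p : ℕ → E3) (a b : ℕ) (h : a ≤ b) :
    dist (p a) (p b) ≤ ∑ k ∈ Finset.Ico a b, dist (p k) (p (k + 1)) := by
  exact dist_le_Ico_sum_dist p h

theorem dist_le_len (p : ℕ → E3) (n a b : ℕ) (h : a ≤ b) (hb : b ≤ n) :
    dist (p a) (p b) ≤ len n p := by
  refine (dist_le_sum p a b h).trans ?_
  unfold len
  refine Finset.sum_le_sum_of_subset_of_nonneg ?_ fun _ _ _ => dist_nonneg
  intro k hk
  rw [Finset.mem_Ico] at hk
  rw [Finset.mem_range]
  omega

/-- removing the part between `k` and `k + s` -/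
theorem len_skip (p : ℕ → E3) (n k s : ℕ) (hk : k + s < n) :
    len (n - s) (fun j => if j ≤ k then p j else p (j + s)) ≤ len n p := by
  unfold len
  have h1 : ∑ j ∈ Finset.range (n - s), dist ((fun j => if j ≤ k then p j else p (j + s)) j)
      ((fun j => if j ≤ k then p j else p (j + s)) (j + 1)) =
      ∑ j ∈ Finset.range k, dist (p j) (p (j + 1)) + dist (p k) (p (k + 1 + s)) +
        ∑ j ∈ Finset.Ico (k + 1) (n - s), dist (p (j + s)) (p (j + 1 + s)) := by
    rw [← Finset.sum_range_add_sum_Ico _ (show k + 1 ≤ n - s by omega), Finset.sum_range_succ]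
    congr 1
    · congr 1
      · refine Finset.sum_congr rfl fun j hj => ?_
        rw [Finset.mem_range] at hj
        simp only [if_pos hj.le, if_pos (show j + 1 ≤ k by omega)]
      · simp
    · refine Finset.sum_congr rfl fun j hj => ?_
      rw [Finset.mem_Ico] at hj
      simp only [if_neg (show ¬ j ≤ k by omega), if_neg (show ¬ j + 1 ≤ k by omega)]
  rw [h1]
  have h2 : ∑ j ∈ Finset.range n, dist (p j) (p (j + 1)) =
      ∑ j ∈ Finset.range k, dist (p j) (p (j + 1)) +
      ∑ j ∈ Finset.Ico k (k + 1 + s), dist (p j) (p (j + 1)) +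
        ∑ j ∈ Finset.Ico (k + 1 + s) n, dist (p j) (p (j + 1)) := by
    rw [Finset.sum_range_add_sum_Ico _ (show k ≤ k + 1 + s by omega),
      Finset.sum_range_add_sum_Ico _ (show k + 1 + s ≤ n by omega)]
  rw [h2]
  have h3 : ∑ j ∈ Finset.Ico (k + 1) (n - s), dist (p (j + s)) (p (j + 1 + s)) =
      ∑ j ∈ Finset.Ico (k + 1 + s) n, dist (p j) (p (j + 1)) := by
    rw [show n = (n - s) + s by omega, ← Finset.sum_Ico_add' (fun j => dist (p j) (p (j + 1))) (k + 1) (n - s) s]
    rw [show (n - s) + s - s = n - s by omega]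
    refine Finset.sum_congr rfl fun j _ => ?_
    rw [show j + 1 + s = j + s + 1 by omega]
  rw [h3]
  gcongr
  exact dist_le_sum p k (k + 1 + s) (by omega)

/-- a chain can be replaced by a reduced chain which is not longer -/
theorem exists_reduced (Z : Set E3) (x : E3) (L : ℝ)
    (h : ∃ (n : ℕ) (p : ℕ → E3) (g : ℕ → S.ι),
      S.IsChain n p g ∧ p 0 ∈ Z ∧ p n = x ∧ len n p ≤ L) :
    ∃ (n : ℕ) (p : ℕ → E3) (g : ℕ → S.ι),
      S.IsChain n p g ∧ p 0 ∈ Z ∧ p n = x ∧ len n p ≤ L ∧ (∀ k, k < n → p k ≠ p (k + 1)) ∧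
      (∀ k l, k < n → l < n → g k = g l → k = l) := by
  classical
  obtain ⟨p, g, hc, h0, hx, hL⟩ := Nat.find_spec h
  have hmin : ∀ m, m < Nat.find h → ¬ ∃ (p : ℕ → E3) (g : ℕ → S.ι),
      S.IsChain m p g ∧ p 0 ∈ Z ∧ p m = x ∧ len m p ≤ L := fun m hm => Nat.find_min h hm
  generalize Nat.find h = n at hc hx hL hmin
  refine ⟨n, p, g, hc, h0, hx, hL, ?_, ?_⟩
  · intro k hk he
    rcases Nat.lt_or_ge (k + 1) n with hk1 | hk1
    · refine hmin (n - 1) (by omega) ⟨fun j => if j ≤ k then p j else p (j + 1),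
        fun j => if j < k then g j else g (j + 1), ?_, ?_, ?_, ?_⟩
      · intro j hj
        rcases lt_trichotomy j k with hjk | hjk | hjk
        · simp only [if_pos hjk.le, if_pos hjk, if_pos (show j + 1 ≤ k by omega)]
          exact hc j (by omega)
        · subst hjk
          simp only [le_refl, if_true, lt_irrefl, if_false, if_neg (show ¬ j + 1 ≤ j by omega)]
          refine ⟨?_, (hc (j + 1) hk1).2⟩
          rw [he]; exact (hc (j + 1) hk1).1
        · simp only [if_neg (show ¬ j ≤ k by omega), if_neg (show ¬ j < k by omega),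
            if_neg (show ¬ j + 1 ≤ k by omega)]
          exact hc (j + 1) (by omega)
      · simpa using h0
      · show (if n - 1 ≤ k then p (n - 1) else p (n - 1 + 1)) = x
        rw [if_neg (by omega), show n - 1 + 1 = n by omega, hx]
      · exact (len_skip p n k 1 hk1).trans hL
    · have hkn : k + 1 = n := by omega
      refine hmin k (by omega) ⟨p, g, fun j hj => hc j (by omega), h0, ?_, ?_⟩
      · rw [he, hkn, hx]
      · refine le_trans ?_ hL
        rw [← hkn, len_succ]
        exact le_add_of_nonneg_right dist_nonneg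
  · have key : ∀ k l, k < l → l < n → g k ≠ g l := by
      intro k l hkl hl he
      refine hmin (n - (l - k)) (by omega) ⟨fun j => if j ≤ k then p j else p (j + (l - k)),
        fun j => if j ≤ k then g j else g (j + (l - k)), ?_, ?_, ?_, ?_⟩
      · intro j hj
        rcases lt_trichotomy j k with hjk | hjk | hjk
        · simp only [if_pos hjk.le, if_pos (show j + 1 ≤ k by omega)]
          exact hc j (by omega)
        · subst hjk
          simp only [le_refl, if_true, if_neg (show ¬ j + 1 ≤ j by omega)]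
          refine ⟨(hc j (by omega)).1, ?_⟩
          rw [he, show j + 1 + (l - j) = l + 1 by omega]
          exact (hc l hl).2
        · simp only [if_neg (show ¬ j ≤ k by omega), if_neg (show ¬ j + 1 ≤ k by omega)]
          have := hc (j + (l - k)) (by omega)
          rw [show j + 1 + (l - k) = j + (l - k) + 1 by omega]
          exact this
      · simpa using h0
      · show (if n - (l - k) ≤ k then p (n - (l - k)) else p (n - (l - k) + (l - k))) = x
        rw [if_neg (by omega), show n - (l - k) + (l - k) = n by omega, hx]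
      · exact (len_skip p n k (l - k) (by omega)).trans hL
    intro k l hk hl he
    rcases lt_trichotomy k l with h | h | h
    · exact absurd he (key k l h hl)
    · exact h
    · exact absurd he.symm (key l k h hk)

theorem rho_le (Z : Set E3) (n : ℕ) (p : ℕ → E3) (g : ℕ → S.ι) (hc : S.IsChain n p g)
    (h0 : p 0 ∈ Z) : S.rho Z (p n) ≤ ENNReal.ofReal (len n p) := by
  unfold rho
  refine iInf_le_of_le n (iInf_le_of_le p (iInf_le_of_le g (iInf_le_of_le ⟨hc, h0, rfl⟩ le_rfl)))

end Surf

open Surf in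
/-- **PA**: shortest chains exist; they use every face at most once. -/
theorem PA : StPA := by
  classical
  intro S Z hZ x hx
  set r : ℝ := (S.rho Z x).toReal with hr
  have hr0 : 0 ≤ r := ENNReal.toReal_nonneg
  have hρ : S.rho Z x = ENNReal.ofReal r := (ENNReal.ofReal_toReal hx.ne).symm
  -- almost shortest reduced chains
  have h1 : ∀ j : ℕ, ∃ (n : ℕ) (p : ℕ → E3) (g : ℕ → S.ι),
      S.IsChain n p g ∧ p 0 ∈ Z ∧ p n = x ∧ len n p ≤ r + 1 / ((j : ℝ) + 1) ∧
      (∀ k, k < n → p k ≠ p (k + 1)) ∧ (∀ k l, k < n → l < n → g k = g l → k = l) := by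
    intro j
    apply S.exists_reduced
    have h2 : S.rho Z x < ENNReal.ofReal (r + 1 / ((j : ℝ) + 1)) := by
      rw [hρ, ENNReal.ofReal_lt_ofReal_iff (by positivity)]
      have : (0 : ℝ) < 1 / ((j : ℝ) + 1) := by positivity
      linarith
    unfold Surf.rho at h2
    simp only [iInf_lt_iff] at h2
    obtain ⟨n, p, g, ⟨hc, h0, hxn⟩, hlt⟩ := h2
    refine ⟨n, p, g, hc, h0, hxn, ?_⟩
    exact ((ENNReal.ofReal_lt_ofReal_iff (by positivity)).1 hlt).le
  choose n p g hc h0 hxn hlen hne hinj using h1
  set R : ℝ := ‖x‖ + r + 1 with hR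
  have hball : ∀ j k, k ≤ n j → p j k ∈ Metric.closedBall (0 : E3) R := by
    intro j k hk
    have h2 : dist (p j k) (p j (n j)) ≤ len (n j) (p j) := dist_le_len (p j) (n j) k (n j) hk le_rfl
    have h3 : (1 : ℝ) / ((j : ℝ) + 1) ≤ 1 := by
      rw [div_le_one (by positivity)]
      have : (0 : ℝ) ≤ j := Nat.cast_nonneg j
      linarith
    rw [hxn j] at h2
    rw [mem_closedBall_zero_iff]
    have h4 : ‖p j k‖ ≤ ‖x‖ + dist (p j k) x := by
      rw [dist_eq_norm]
      calc ‖p j k‖ = ‖x + (p j k - x)‖ := by rw [add_sub_cancel]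
        _ ≤ ‖x‖ + ‖p j k - x‖ := norm_add_le _ _
    have := hlen j
    linarith
  set 𝓕 : Set S.ι := {i | (S.F i ∩ Metric.closedBall 0 R).Nonempty} with h𝓕
  have hfin : 𝓕.Finite := S.locFin R
  have hg𝓕 : ∀ j k, k < n j → g j k ∈ 𝓕 := fun j k hk =>
    ⟨p j k, (hc j k hk).1, hball j k hk.le⟩
  have hnN : ∀ j, n j ≤ hfin.toFinset.card := by
    intro j
    have : (Finset.range (n j)).card ≤ hfin.toFinset.card := by
      refine Finset.card_le_card_of_injOn (g j) ?_ ?_
      · intro k hk
        rw [Finset.coe_range, Set.mem_Iio] at hk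
        rw [Finset.mem_coe, Set.Finite.mem_toFinset]
        exact hg𝓕 j k hk
      · intro k hk l hl he
        rw [Finset.coe_range, Set.mem_Iio] at hk hl
        exact hinj j k l hk hl he
    simpa using this
  let U : Ultrafilter ℕ := hyperfilter ℕ
  have hU : (U : Filter ℕ) ≤ atTop := by
    have := Nat.hyperfilter_le_atTop
    exact this
  -- a constant length along the ultrafilter
  obtain ⟨N, -, hN⟩ : ∃ N ∈ Set.Iic hfin.toFinset.card, ∀ᶠ j in (U : Filter ℕ), n j = N :=
    (Ultrafilter.eventually_exists_mem_iff (Set.finite_Iic _)).1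
      (Eventually.of_forall fun j => ⟨n j, hnN j, rfl⟩)
  -- constant faces
  have hG : ∀ k, ∃ i : S.ι, k < N → ∀ᶠ j in (U : Filter ℕ), g j k = i := by
    intro k
    by_cases hk : k < N
    · obtain ⟨i, -, hi⟩ : ∃ i ∈ 𝓕, ∀ᶠ j in (U : Filter ℕ), g j k = i :=
        (Ultrafilter.eventually_exists_mem_iff hfin).1 (by
          filter_upwards [hN] with j hj
          exact ⟨g j k, hg𝓕 j k (by omega), rfl⟩)
      exact ⟨i, fun _ => hi⟩
    · exact ⟨g 0 0, fun h => absurd h hk⟩
  choose G hG using hG
  -- limit points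
  have hP : ∀ k, ∃ q : E3, k ≤ N → Tendsto (fun j => p j k) U (𝓝 q) := by
    intro k
    by_cases hk : k ≤ N
    · obtain ⟨q, -, hq⟩ := (isCompact_closedBall (0 : E3) R).ultrafilter_le_nhds
        (U.map fun j => p j k) (by
          rw [le_principal_iff]
          show ∀ᶠ j in (U : Filter ℕ), p j k ∈ Metric.closedBall (0 : E3) R
          filter_upwards [hN] with j hj
          exact hball j k (by omega))
      exact ⟨q, fun _ => hq⟩
    · exact ⟨0, fun h => absurd h hk⟩
  choose P hP using hP
  have hchain : S.IsChain N P G := by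
    intro k hk
    have hcl : IsClosed (S.F (G k)) := (S.compact _).isClosed
    constructor
    · refine hcl.mem_of_tendsto (hP k hk.le) ?_
      filter_upwards [hN, hG k hk] with j hj hj'
      rw [← hj']; exact (hc j k (by omega)).1
    · refine hcl.mem_of_tendsto (hP (k + 1) hk) ?_
      filter_upwards [hN, hG k hk] with j hj hj'
      rw [← hj']; exact (hc j k (by omega)).2
  have hP0 : P 0 ∈ Z := by
    have hfinZ : (Z ∩ Metric.closedBall 0 R).Finite :=
      (S.V_locFin R).subset (Set.inter_subset_inter_left _ hZ)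
    have : P 0 ∈ Z ∩ Metric.closedBall 0 R := by
      refine hfinZ.isClosed.mem_of_tendsto (hP 0 (Nat.zero_le _)) ?_
      filter_upwards with j
      exact ⟨h0 j, hball j 0 (Nat.zero_le _)⟩
    exact this.1
  have hPN : P N = x := by
    have h2 : Tendsto (fun j => p j N) U (𝓝 x) := by
      refine Tendsto.congr' ?_ tendsto_const_nhds
      filter_upwards [hN] with j hj
      rw [← hj, hxn j]
    exact tendsto_nhds_unique (hP N le_rfl) h2
  have hlenP : len N P ≤ r := by
    have h2 : Tendsto (fun j => len N (p j)) U (𝓝 (len N P)) := by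
      unfold Surf.len
      refine tendsto_finsetSum _ fun k hk => ?_
      rw [Finset.mem_range] at hk
      exact (hP k hk.le).dist (hP (k + 1) hk)
    have h3 : Tendsto (fun j : ℕ => r + 1 / ((j : ℝ) + 1)) U (𝓝 r) := by
      have h4 : Tendsto (fun j : ℕ => 1 / ((j : ℝ) + 1)) U (𝓝 0) :=
        (tendsto_one_div_add_atTop_nhds_zero_nat (𝕜 := ℝ)).mono_left hU
      simpa using h4.const_add r
    refine le_of_tendsto_of_tendsto h2 h3 ?_
    filter_upwards [hN] with j hj
    rw [← hj]; exact hlen j
  obtain ⟨n', p', g', hc', h0', hx', hl', hne', hinj'⟩ :=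
    S.exists_reduced Z x r ⟨N, P, G, hchain, hP0, hPN, hlenP⟩
  refine ⟨n', p', g', ⟨hc', h0', hx', ?_, hne'⟩, hinj'⟩
  refine le_antisymm ?_ ?_
  · rw [hρ]; exact ENNReal.ofReal_le_ofReal hl'
  · rw [← hx']; exact S.rho_le Z n' p' g' hc' h0'

end Vale.Agent.P134.PS
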