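import Vale.Agent.P134.PS.BlockPA

/-!
# P134 / PS, block PB: a shortest chain is straight where it crosses an edge
-/

open MeasureTheory Set Filter Topology
open scoped ENNReal RealInnerProductSpace Real

namespace Vale.Agent.P134.PS

namespace Surf

variable (S : Surf)

/-- splitting the length at `k` -/
theorem len_split (p : ℕ → E3) (n k : ℕ) (hk : k + 1 < n) :
    len n p = ∑ j ∈ Finset.range k, dist (p j) (p (j + 1)) +
      (dist (p k) (p (k + 1)) + dist (p (k + 1)) (p (k + 2))) +
      ∑ j ∈ Finset.Ico (k + 2) n, dist (p j) (p (j + 1)) := by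
  unfold len
  rw [← Finset.sum_range_add_sum_Ico _ (show k + 2 ≤ n by omega), Finset.sum_range_succ,
    Finset.sum_range_succ]
  ring

/-- moving one interior node of a shortest chain inside the two faces does not make it shorter -/
theorem Min.le_of_move {S : Surf} {Z : Set E3} {x : E3} {n : ℕ} {p : ℕ → E3} {g : ℕ → S.ι}
    (h : S.Min Z x n p g) (k : ℕ) (hk : k + 1 < n) (y : E3) (hy : y ∈ S.F (g k))
    (hy' : y ∈ S.F (g (k + 1))) :
    dist (p k) (p (k + 1)) + dist (p (k + 1)) (p (k + 2)) ≤
      dist (p k) y + dist y (p (k + 2)) := by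
  by_contra hlt
  push Not at hlt
  obtain ⟨hc, h0, hx, hρ, hne⟩ := h
  have hchain : S.IsChain n (Function.update p (k + 1) y) g := by
    intro l hl
    constructor
    · by_cases he : l = k + 1
      · subst he; rw [Function.update_self]; exact hy'
      · rw [Function.update_of_ne he]; exact (hc l hl).1
    · by_cases he : l + 1 = k + 1
      · have : l = k := by omega
        subst this; rw [Function.update_self]; exact hy
      · rw [Function.update_of_ne he]; exact (hc l hl).2
  have h0' : Function.update p (k + 1) y 0 ∈ Z := by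
    rw [Function.update_of_ne (by omega)]; exact h0
  have hx' : Function.update p (k + 1) y n = x := by
    rw [Function.update_of_ne (by omega)]; exact hx
  have hlen : len n (Function.update p (k + 1) y) < len n p := by
    rw [len_split p n k hk, len_split _ n k hk]
    have e1 : ∑ j ∈ Finset.range k, dist (Function.update p (k + 1) y j)
        (Function.update p (k + 1) y (j + 1)) = ∑ j ∈ Finset.range k, dist (p j) (p (j + 1)) := by
      refine Finset.sum_congr rfl fun j hj => ?_
      rw [Finset.mem_range] at hj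
      rw [Function.update_of_ne (by omega), Function.update_of_ne (by omega)]
    have e2 : ∑ j ∈ Finset.Ico (k + 2) n, dist (Function.update p (k + 1) y j)
        (Function.update p (k + 1) y (j + 1)) =
        ∑ j ∈ Finset.Ico (k + 2) n, dist (p j) (p (j + 1)) := by
      refine Finset.sum_congr rfl fun j hj => ?_
      rw [Finset.mem_Ico] at hj
      rw [Function.update_of_ne (by omega), Function.update_of_ne (by omega)]
    rw [e1, e2, Function.update_self, Function.update_of_ne (show k ≠ k + 1 by omega),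
      Function.update_of_ne (show k + 2 ≠ k + 1 by omega)]
    linarith
  have h1 := S.rho_le Z n _ g hchain h0'
  rw [hx', ← hρ] at h1
  have h2 : 0 ≤ len n (Function.update p (k + 1) y) := len_nonneg _ _
  rw [ENNReal.ofReal_le_ofReal_iff h2] at h1
  linarith

end Surf

/-- two complex numbers orthogonal to a unit vector are proportional -/
theorem exists_smul_of_inner_eq_zero {ν y d : ℂ} (hν : ‖ν‖ = 1) (hy : inner ℝ ν y = (0 : ℝ))
    (hd : inner ℝ ν d = (0 : ℝ)) (hd0 : d ≠ 0) : ∃ s : ℝ, y = s • d := by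
  have hns : ν.re * ν.re + ν.im * ν.im = 1 := by
    have := Complex.normSq_apply ν
    rw [← this, Complex.normSq_eq_norm_sq, hν]; norm_num
  rw [Complex.inner] at hy hd
  simp only [Complex.mul_re, Complex.conj_re, Complex.conj_im] at hy hd
  have hy' : ν.re * y.re + ν.im * y.im = 0 := by linarith
  have hd' : ν.re * d.re + ν.im * d.im = 0 := by linarith
  -- `y = i ν t`
  have hyy : ∀ z : ℂ, ν.re * z.re + ν.im * z.im = 0 →
      z = ((ν.re * z.im - ν.im * z.re : ℝ) : ℂ) * (Complex.I * ν) := by
    intro z hz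
    apply Complex.ext
    · simp only [Complex.mul_re, Complex.ofReal_re, Complex.ofReal_im, Complex.I_re, Complex.I_im]
      linear_combination ν.re * hz - z.re * hns
    · simp only [Complex.mul_im, Complex.mul_re, Complex.ofReal_re, Complex.ofReal_im,
        Complex.I_re, Complex.I_im]
      linear_combination ν.im * hz - z.im * hns
  have h1 := hyy y hy'
  have h2 := hyy d hd'
  set t1 : ℝ := ν.re * y.im - ν.im * y.re
  set t2 : ℝ := ν.re * d.im - ν.im * d.re
  have ht2 : t2 ≠ 0 := by
    intro h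
    rw [h] at h2
    simp at h2
    exact hd0 h2
  refine ⟨t1 / t2, ?_⟩
  rw [Complex.real_smul, h1, h2, ← mul_assoc ((t1 / t2 : ℝ) : ℂ), ← Complex.ofReal_mul,
    div_mul_cancel₀ _ ht2]

open Surf in
/-- **PB**: a shortest chain is straight where it crosses an edge. -/
theorem PB : StPB := by
  intro S Q Z x n p g hmin k hk hg hV
  have hc := hmin.1
  have hne := hmin.2.2.2.2
  set i := g k with hi
  set j := g (k + 1) with hj
  set a := p k with ha
  set m := p (k + 1) with hm
  set b := p (k + 2) with hb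
  have hai : a ∈ S.F i := (hc k (by omega)).1
  have hmi : m ∈ S.F i := (hc k (by omega)).2
  have hmj : m ∈ S.F j := (hc (k + 1) hk).1
  have hbj : b ∈ S.F j := (hc (k + 1) hk).2
  have hadj : S.Adj i j := ⟨hg, m, ⟨hmi, hmj⟩, hV⟩
  obtain ⟨u, hu, w, hw, huw, hseg, hmo, -⟩ := S.meet i j hg m ⟨hmi, hmj⟩ hV
  obtain ⟨ν, hν, c, h1, h2, h3⟩ := Q.side i j hadj
  have huF : u ∈ S.F i ∩ S.F j := by rw [hseg]; exact left_mem_segment ℝ u w
  have hwF : w ∈ S.F i ∩ S.F j := by rw [hseg]; exact right_mem_segment ℝ u w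
  have hTm : Q.T i j (S.ch j m) = S.ch i m := Q.T_edge i j hadj m ⟨hmi, hmj⟩
  by_contra hno
  set A := S.ch i a with hA
  set M := S.ch i m with hM
  set B := Q.T i j (S.ch j b) with hB
  have dAM : dist A M = dist a m := S.ch_iso i a hai m hmi
  have dMB : dist M B = dist m b := by
    rw [← hTm, hB, (Q.T i j).isometry.dist_eq, S.ch_iso j m hmj b hbj]
  have hAM : A ≠ M := by
    intro h
    have : dist a m = 0 := by rw [← dAM, h, dist_self]
    exact hne k (by omega) (dist_eq_zero.1 this)
  have hMB : M ≠ B := by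
    intro h
    have : dist m b = 0 := by rw [← dMB, h, dist_self]
    exact hne (k + 1) hk (dist_eq_zero.1 this)
  -- strict triangle inequality
  have hlt : dist A B < dist A M + dist M B := by
    rcases (dist_triangle A M B).lt_or_eq with h | h
    · exact h
    · exfalso
      have h4 : Wbtw ℝ A M B := dist_add_dist_eq_iff.1 h.symm
      rw [← mem_segment_iff_wbtw] at h4
      exact hno (mem_openSegment_of_ne_left_right hAM hMB.symm h4)
  -- the point of the chord on the line of the edge
  have hMc : inner ℝ ν M = c := h3 m ⟨hmi, hmj⟩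
  have hAc : inner ℝ ν (A - M) ≤ (0 : ℝ) := by
    rw [inner_sub_right, hMc]; linarith [h1 a hai]
  have hBc : (0 : ℝ) ≤ inner ℝ ν (B - M) := by
    rw [inner_sub_right, hMc]; linarith [h2 b hbj]
  obtain ⟨τ, hτ0, hτ1, hτ⟩ : ∃ τ : ℝ, 0 ≤ τ ∧ τ ≤ 1 ∧
      inner ℝ ν ((1 - τ) • (A - M) + τ • (B - M)) = (0 : ℝ) := by
    set f : ℝ := inner ℝ ν (A - M) with hf
    set f' : ℝ := inner ℝ ν (B - M) with hf'
    by_cases h0 : f' - f = 0
    · refine ⟨0, le_rfl, zero_le_one, ?_⟩
      have : f = 0 := by linarith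
      simp only [sub_zero, one_smul, zero_smul, add_zero]
      exact this
    · have hpos : 0 < f' - f := lt_of_le_of_ne (by linarith) (Ne.symm h0)
      refine ⟨-f / (f' - f), div_nonneg (by linarith) hpos.le, ?_, ?_⟩
      · rw [div_le_one hpos]; linarith
      · rw [inner_add_right, real_inner_smul_right, real_inner_smul_right, ← hf, ← hf']
        field_simp
        ring
  set Y : ℂ := (1 - τ) • (A - M) + τ • (B - M) with hY
  -- the edge
  have hdUW : S.ch i w - S.ch i u ≠ 0 := by
    intro h
    have : dist (S.ch i u) (S.ch i w) = 0 := by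
      rw [dist_comm, dist_eq_norm, h, norm_zero]
    rw [S.ch_iso i u huF.1 w hwF.1] at this
    exact huw (dist_eq_zero.1 this)
  have hdin : inner ℝ ν (S.ch i w - S.ch i u) = (0 : ℝ) := by
    rw [inner_sub_right, h3 w hwF, h3 u huF, sub_self]
  obtain ⟨s, hs⟩ := exists_smul_of_inner_eq_zero hν hτ hdin hdUW
  -- `m = u + t (w - u)`
  obtain ⟨t, ⟨ht0, ht1⟩, htm⟩ : ∃ t ∈ Ioo (0 : ℝ) 1, u + t • (w - u) = m := by
    rw [openSegment_eq_image'] at hmo
    exact hmo
  have hchlin : ∀ t : ℝ, S.ch i (u + t • (w - u)) = S.ch i u + t • (S.ch i w - S.ch i u) := by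
    intro t
    have h4 : u + t • (w - u) = AffineMap.lineMap u w t := by
      rw [AffineMap.lineMap_apply, vsub_eq_sub, vadd_eq_add, add_comm]
    rw [h4, AffineMap.apply_lineMap, AffineMap.lineMap_apply, vsub_eq_sub, vadd_eq_add, add_comm]
  -- a small parameter
  obtain ⟨ε, hε0, hε1, hε2⟩ : ∃ ε : ℝ, 0 < ε ∧ ε ≤ 1 ∧ t + ε * s ∈ Icc (0 : ℝ) 1 := by
    have hcont : Tendsto (fun ε : ℝ => t + ε * s) (𝓝[>] 0) (𝓝 t) := by
      have : Tendsto (fun ε : ℝ => t + ε * s) (𝓝 0) (𝓝 (t + 0 * s)) := by
        exact (Continuous.tendsto (by fun_prop) 0)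
      rw [zero_mul, add_zero] at this
      exact this.mono_left nhdsWithin_le_nhds
    have e1 : ∀ᶠ ε : ℝ in 𝓝[>] 0, t + ε * s ∈ Ioo (0 : ℝ) 1 :=
      hcont.eventually (Ioo_mem_nhds ht0 ht1)
    have e2 : ∀ᶠ ε : ℝ in 𝓝[>] 0, ε ∈ Ioc (0 : ℝ) 1 := Ioc_mem_nhdsGT one_pos
    obtain ⟨ε, he1, he2⟩ := (e1.and e2).exists
    exact ⟨ε, he2.1, he2.2, he1.1.le, he1.2.le⟩
  set y : E3 := u + (t + ε * s) • (w - u) with hy
  have hyF : y ∈ S.F i ∩ S.F j := by
    rw [hseg, segment_eq_image']
    exact ⟨t + ε * s, hε2, rfl⟩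
  have hchy : S.ch i y = M + ε • Y := by
    rw [hy, hchlin, hM, ← htm, hchlin, hs]
    rw [add_smul, smul_smul, add_assoc]
  have hTy : Q.T i j (S.ch j y) = S.ch i y := Q.T_edge i j hadj y hyF
  have d1 : dist a y = ‖(1 - ε) • (A - M) + (ε * τ) • (A - B)‖ := by
    rw [← S.ch_iso i a hai y hyF.1, hchy, dist_eq_norm]
    congr 1
    rw [hY]
    simp only [Complex.real_smul]
    push_cast
    ring
  have d2 : dist y b = ‖(1 - ε) • (M - B) + (ε * (1 - τ)) • (A - B)‖ := by
    rw [← S.ch_iso j y hyF.2 b hbj, ← (Q.T i j).isometry.dist_eq, hTy, hchy, dist_eq_norm, ← hB]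
    congr 1
    rw [hY]
    simp only [Complex.real_smul]
    push_cast
    ring
  have e1 : dist a y ≤ (1 - ε) * dist A M + ε * τ * dist A B := by
    rw [d1, dist_eq_norm A M, dist_eq_norm A B]
    refine (norm_add_le _ _).trans ?_
    rw [norm_smul, norm_smul, Real.norm_of_nonneg (by linarith), Real.norm_of_nonneg (by positivity)]
  have e2 : dist y b ≤ (1 - ε) * dist M B + ε * (1 - τ) * dist A B := by
    rw [d2, dist_eq_norm M B, dist_eq_norm A B]
    refine (norm_add_le _ _).trans ?_
    rw [norm_smul, norm_smul, Real.norm_of_nonneg (by linarith),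
      Real.norm_of_nonneg (mul_nonneg hε0.le (by linarith))]
  have e3 := hmin.le_of_move k hk y hyF.1 hyF.2
  have e4 : dist a m + dist m b ≤ dist a y + dist y b := e3
  rw [← dAM, ← dMB] at e4
  have e5 : 0 < ε * (dist A M + dist M B - dist A B) := mul_pos hε0 (by linarith)
  nlinarith [e1, e2, e4, e5]

end Vale.Agent.P134.PS
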