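import Vale.Agent.P134.PS.Defs

/-!
# P134 / PS / block PC

At a vertex on a shortest chain both side angles are at least `π`.
-/

open MeasureTheory Set
open scoped ENNReal RealInnerProductSpace Real

namespace Vale.Agent.P134.PS

namespace PC

/-! ### chains -/

section chains

variable {S : Surf}

/-- `x` and `y` are joined by a chain of length at most `L`. -/
def Conn (S : Surf) (x y : E3) (L : ℝ) : Prop :=
  ∃ (n : ℕ) (p : ℕ → E3) (g : ℕ → S.ι), S.IsChain n p g ∧ p 0 = x ∧ p n = y ∧ Surf.len n p ≤ L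

lemma Conn.mono {x y : E3} {L L' : ℝ} (h : Conn S x y L) (hL : L ≤ L') : Conn S x y L' := by
  obtain ⟨n, p, g, h1, h2, h3, h4⟩ := h
  exact ⟨n, p, g, h1, h2, h3, h4.trans hL⟩

lemma Conn.step {x y : E3} {i : S.ι} (hx : x ∈ S.F i) (hy : y ∈ S.F i) :
    Conn S x y (dist x y) := by
  refine ⟨1, fun k => if k = 0 then x else y, fun _ => i, ?_, by simp, by simp, ?_⟩
  · intro k hk
    have : k = 0 := by omega
    subst this
    simp [hx, hy]
  · simp [Surf.len]

lemma Conn.trans {x y z : E3} {L L' : ℝ} (h : Conn S x y L) (h' : Conn S y z L') :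
    Conn S x z (L + L') := by
  obtain ⟨n, p, g, h1, h2, h3, h4⟩ := h
  obtain ⟨n', p', g', h1', h2', h3', h4'⟩ := h'
  set P : ℕ → E3 := fun k => if k ≤ n then p k else p' (k - n) with hP
  set G : ℕ → S.ι := fun k => if k < n then g k else g' (k - n) with hG
  have e1 : ∀ k, k ≤ n → P k = p k := fun k hk => by simp [hP, hk]
  have e2 : ∀ k, P (n + k) = p' k := by
    intro k
    by_cases hk : k = 0
    · subst hk
      simp [hP, h3, h2']
    · have : ¬ (n + k ≤ n) := by omega
      simp [hP, this]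
  refine ⟨n + n', P, G, ?_, ?_, ?_, ?_⟩
  · intro k hk
    by_cases hkn : k < n
    · have a1 : P k = p k := e1 k hkn.le
      have a2 : P (k + 1) = p (k + 1) := e1 (k + 1) hkn
      have a3 : G k = g k := by simp [hG, hkn]
      rw [a1, a2, a3]
      exact h1 k hkn
    · obtain ⟨j, rfl⟩ : ∃ j, k = n + j := ⟨k - n, by omega⟩
      have a1 : P (n + j) = p' j := e2 j
      have a2 : P (n + j + 1) = p' (j + 1) := e2 (j + 1)
      have a3 : G (n + j) = g' j := by simp [hG]
      rw [a1, a2, a3]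
      exact h1' j (by omega)
  · rw [e1 0 (Nat.zero_le _)]; exact h2
  · rw [e2 n']; exact h3'
  · have : Surf.len (n + n') P = Surf.len n p + Surf.len n' p' := by
      unfold Surf.len
      rw [Finset.sum_range_add]
      congr 1
      · apply Finset.sum_congr rfl
        intro k hk
        rw [Finset.mem_range] at hk
        rw [e1 k hk.le, e1 (k + 1) hk]
      · apply Finset.sum_congr rfl
        intro k _
        rw [e2 k, add_assoc, e2 (k + 1)]
    rw [this]
    linarith

lemma Conn.symm {x y : E3} {L : ℝ} (h : Conn S x y L) : Conn S y x L := by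
  obtain ⟨n, p, g, h1, h2, h3, h4⟩ := h
  refine ⟨n, fun k => p (n - k), fun k => g (n - 1 - k), ?_, by simp [h3], by simp [h2], ?_⟩
  · intro k hk
    have := h1 (n - 1 - k) (by omega)
    have e1 : n - 1 - k + 1 = n - k := by omega
    have e2 : n - (k + 1) = n - 1 - k := by omega
    rw [e1] at this
    simp only [e2]
    exact ⟨this.2, this.1⟩
  · have : Surf.len n (fun k => p (n - k)) = Surf.len n p := by
      unfold Surf.len
      rw [← Finset.sum_range_reflect]
      apply Finset.sum_congr rfl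
      intro k hk
      rw [Finset.mem_range] at hk
      have e1 : n - (n - 1 - k) = k + 1 := by omega
      have e2 : n - (n - 1 - k + 1) = k := by omega
      simp only [e1, e2]
      rw [dist_comm]
    rw [this]
    exact h4

lemma rho_le_of_conn {Z : Set E3} {z x : E3} {L : ℝ} (hz : z ∈ Z) (h : Conn S z x L) :
    S.rho Z x ≤ ENNReal.ofReal L := by
  obtain ⟨n, p, g, h1, h2, h3, h4⟩ := h
  refine le_trans ?_ (ENNReal.ofReal_le_ofReal h4)
  unfold Surf.rho
  refine iInf_le_of_le n (iInf_le_of_le p (iInf_le_of_le g (iInf_le_of_le ⟨h1, ?_, h3⟩ le_rfl)))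
  rw [h2]; exact hz

lemma conn_initial {n : ℕ} {p : ℕ → E3} {g : ℕ → S.ι} (h : S.IsChain n p g) {k : ℕ}
    (hk : k ≤ n) : Conn S (p 0) (p k) (Surf.len k p) :=
  ⟨k, p, g, fun j hj => h j (lt_of_lt_of_le hj hk), rfl, rfl, le_rfl⟩

lemma conn_final {n : ℕ} {p : ℕ → E3} {g : ℕ → S.ι} (h : S.IsChain n p g) {k : ℕ}
    (hk : k ≤ n) : Conn S (p k) (p n) (Surf.len n p - Surf.len k p) := by
  obtain ⟨j, rfl⟩ : ∃ j, n = k + j := ⟨n - k, by omega⟩
  refine ⟨j, fun i => p (k + i), fun i => g (k + i), ?_, by simp, rfl, ?_⟩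
  · intro i hi
    exact h (k + i) (by omega)
  · have : Surf.len (k + j) p = Surf.len k p + Surf.len j (fun i => p (k + i)) := by
      unfold Surf.len
      rw [Finset.sum_range_add]
      rfl
    rw [this]
    linarith

end chains

/-! ### the fan -/

section fan

variable {ι : Type} {F : ι → Set E3} {v : E3} (c : Fan F v)

lemma α_pos (l : ℕ) : 0 < c.α l := c.ang_pos l

lemma α_lt (l : ℕ) : c.α l < π := c.ang_lt l

lemma sin_α_pos (l : ℕ) : 0 < Real.sin (c.α l) :=
  Real.sin_pos_of_pos_of_lt_pi (α_pos c l) (α_lt c l)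

lemma A_succ (l : ℕ) : c.A (l + 1) = c.A l + c.α l := by
  unfold Fan.A
  rw [Finset.sum_range_succ]

lemma A_lt_succ (l : ℕ) : c.A l < c.A (l + 1) := by
  rw [A_succ]; linarith [α_pos c l]

lemma A_strictMono : StrictMono c.A := strictMono_nat_of_lt_succ (A_lt_succ c)

lemma inner_d (l : ℕ) : inner ℝ (c.d l) (c.d (l + 1)) = Real.cos (c.α l) := by
  unfold Fan.α
  rw [InnerProductGeometry.cos_angle, c.d_norm, c.d_norm]
  simp

lemma inner_dd (l : ℕ) : inner ℝ (c.d l) (c.d l) = 1 := by
  rw [real_inner_self_eq_norm_sq, c.d_norm]; norm_num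

/-- unit normal to `d l` in the plane of the face `f l` -/
noncomputable def nn (l : ℕ) : E3 :=
  (Real.sin (c.α l))⁻¹ • (c.d (l + 1) - Real.cos (c.α l) • c.d l)

lemma inner_d_nn (l : ℕ) : inner ℝ (c.d l) (nn c l) = 0 := by
  unfold nn
  rw [inner_smul_right, inner_sub_right, inner_smul_right, inner_d, inner_dd]
  ring

lemma inner_nn_nn (l : ℕ) : inner ℝ (nn c l) (nn c l) = 1 := by
  have hs := sin_α_pos c l
  have h1 : inner ℝ (c.d (l + 1)) (c.d l) = Real.cos (c.α l) := by
    rw [real_inner_comm, inner_d]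
  unfold nn
  rw [inner_smul_left, inner_smul_right, inner_sub_left, inner_sub_right, inner_sub_right,
    inner_smul_left, inner_smul_right, inner_smul_left, inner_smul_right, inner_dd, inner_dd,
    inner_d, h1]
  simp only [RCLike.conj_to_real]
  field_simp
  have := Real.sin_sq_add_cos_sq (c.α l)
  nlinarith

/-- the direction with unrolled coordinate `τ` in the plane of the face `f l` -/
noncomputable def dirv (l : ℕ) (τ : ℝ) : E3 :=
  Real.cos (τ - c.A l) • c.d l + Real.sin (τ - c.A l) • nn c l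

lemma dirv_A (l : ℕ) : dirv c l (c.A l) = c.d l := by
  unfold dirv; simp

lemma dirv_A_succ (l : ℕ) : dirv c l (c.A (l + 1)) = c.d (l + 1) := by
  have hs := (sin_α_pos c l).ne'
  unfold dirv nn
  rw [A_succ, add_sub_cancel_left, smul_smul, mul_inv_cancel₀ hs, one_smul]
  abel

lemma inner_dirv (l : ℕ) (σ τ : ℝ) : inner ℝ (dirv c l σ) (dirv c l τ) = Real.cos (σ - τ) := by
  have h1 : inner ℝ (nn c l) (c.d l) = 0 := by rw [real_inner_comm, inner_d_nn]
  unfold dirv
  rw [inner_add_left, inner_add_right, inner_add_right, inner_smul_left, inner_smul_right,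
    inner_smul_left, inner_smul_right, inner_smul_left, inner_smul_right, inner_smul_left,
    inner_smul_right, inner_dd, inner_d_nn, h1, inner_nn_nn]
  simp only [RCLike.conj_to_real]
  have : Real.cos (σ - τ) = Real.cos (σ - c.A l) * Real.cos (τ - c.A l)
      + Real.sin (σ - c.A l) * Real.sin (τ - c.A l) := by
    rw [← Real.cos_sub]; congr 1; ring
  rw [this]
  ring

lemma norm_dirv (l : ℕ) (τ : ℝ) : ‖dirv c l τ‖ = 1 := by
  have h := inner_dirv c l τ τ
  rw [real_inner_self_eq_norm_sq, sub_self, Real.cos_zero] at h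
  nlinarith [norm_nonneg (dirv c l τ)]

lemma dirv_eq_cone (l : ℕ) (τ : ℝ) : dirv c l τ =
    (Real.sin (c.A (l + 1) - τ) / Real.sin (c.α l)) • c.d l
      + (Real.sin (τ - c.A l) / Real.sin (c.α l)) • c.d (l + 1) := by
  have hs := (sin_α_pos c l).ne'
  have e : c.A (l + 1) - τ = c.α l - (τ - c.A l) := by rw [A_succ]; ring
  unfold dirv nn
  rw [e, Real.sin_sub (c.α l), smul_sub, smul_smul, smul_sub, smul_smul, smul_smul]
  have h1 : Real.cos (τ - c.A l) • c.d l +
      ((Real.sin (τ - c.A l) * (Real.sin (c.α l))⁻¹) • c.d (l + 1)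
        - (Real.sin (τ - c.A l) * ((Real.sin (c.α l))⁻¹ * Real.cos (c.α l))) • c.d l)
      = (Real.cos (τ - c.A l) - Real.sin (τ - c.A l) * (Real.sin (c.α l))⁻¹ * Real.cos (c.α l))
          • c.d l + (Real.sin (τ - c.A l) * (Real.sin (c.α l))⁻¹) • c.d (l + 1) := by
    rw [sub_smul, mul_assoc]; abel
  rw [h1]
  congr 2
  field_simp

/-- a direction with unrolled coordinate `t` in the face `f k` is `dirv k t` -/
lemma eq_dirv_of_isDir {k : ℕ} {t : ℝ} {w : E3} (h : c.IsDir k t w) : w = dirv c k t := by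
  obtain ⟨hw, ⟨a, b, ha, hb, hab⟩, h1, h2, h3⟩ := h
  have hs := sin_α_pos c k
  have hsn := hs.ne'
  -- `w` in the orthonormal frame
  have e1 : c.d (k + 1) = Real.cos (c.α k) • c.d k + Real.sin (c.α k) • nn c k := by
    unfold nn
    rw [smul_smul, mul_inv_cancel₀ hsn, one_smul]; abel
  have e2 : w = (a + b * Real.cos (c.α k)) • c.d k + (b * Real.sin (c.α k)) • nn c k := by
    rw [hab, e1, smul_add, smul_smul, smul_smul, add_smul]; abel
  set X := a + b * Real.cos (c.α k) with hX
  set Y := b * Real.sin (c.α k) with hY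
  have hY0 : 0 ≤ Y := mul_nonneg hb hs.le
  have hin : inner ℝ (c.d k) (w) = X := by
    rw [e2, inner_add_right, inner_smul_right, inner_smul_right, inner_dd, inner_d_nn]; ring
  have hcos : Real.cos (t - c.A k) = X := by
    rw [← h3, InnerProductGeometry.cos_angle, c.d_norm, hw, hin]; simp
  have hnorm : X ^ 2 + Y ^ 2 = 1 := by
    have h4 : inner ℝ (w) (w) = 1 := by rw [real_inner_self_eq_norm_sq, hw]; norm_num
    have h5 : inner ℝ (nn c k) (c.d k) = 0 := by rw [real_inner_comm, inner_d_nn]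
    rw [e2, inner_add_left, inner_add_right, inner_add_right, inner_smul_left, inner_smul_right,
      inner_smul_left, inner_smul_right, inner_smul_left, inner_smul_right, inner_smul_left,
      inner_smul_right, inner_dd, inner_d_nn, h5, inner_nn_nn] at h4
    simp only [RCLike.conj_to_real] at h4
    linarith
  have hsin : Real.sin (t - c.A k) = Y := by
    have h6 : 0 ≤ Real.sin (t - c.A k) := by
      apply Real.sin_nonneg_of_nonneg_of_le_pi (by linarith)
      rw [A_succ] at h2
      linarith [α_lt c k]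
    have h7 := Real.sin_sq_add_cos_sq (t - c.A k)
    rw [hcos] at h7
    have h8 : Real.sin (t - c.A k) ^ 2 = Y ^ 2 := by linarith
    exact (sq_eq_sq₀ h6 hY0).mp h8
  unfold dirv
  rw [hcos, hsin]
  exact e2

/-- the point with unrolled direction `τ` on the chord `{z : ⟨z, u_M⟩ = D}` -/
noncomputable def pt (M D : ℝ) (l : ℕ) (τ : ℝ) : E3 :=
  v + (D / Real.cos (τ - M)) • dirv c l τ

lemma pt_mem {M D : ℝ} {l : ℕ} {τ : ℝ} (h1 : c.A l ≤ τ) (h2 : τ ≤ c.A (l + 1)) (hD : 0 ≤ D)
    (hc : 0 < Real.cos (τ - M)) (hr : D / Real.cos (τ - M) ≤ c.r) : pt c M D l τ ∈ F (c.f l) := by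
  have hq : 0 ≤ D / Real.cos (τ - M) := div_nonneg hD hc.le
  rw [c.sector l]
  · refine ⟨D / Real.cos (τ - M) * (Real.sin (c.A (l + 1) - τ) / Real.sin (c.α l)),
      D / Real.cos (τ - M) * (Real.sin (τ - c.A l) / Real.sin (c.α l)), ?_, ?_, ?_⟩
    · apply mul_nonneg hq
      apply div_nonneg _ (sin_α_pos c l).le
      apply Real.sin_nonneg_of_nonneg_of_le_pi (by linarith)
      have := A_succ c l
      linarith [α_lt c l]
    · apply mul_nonneg hq
      apply div_nonneg _ (sin_α_pos c l).le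
      apply Real.sin_nonneg_of_nonneg_of_le_pi (by linarith)
      have := A_succ c l
      linarith [α_lt c l]
    · unfold pt
      rw [dirv_eq_cone, smul_add, smul_smul, smul_smul, add_assoc]
  · unfold pt
    rw [add_sub_cancel_left, norm_smul, norm_dirv, mul_one, Real.norm_eq_abs, abs_of_nonneg hq]
    exact hr

lemma dist_pt {M D : ℝ} {l : ℕ} {σ τ : ℝ} (hD : 0 ≤ D) (hστ : σ ≤ τ)
    (h1 : -(π / 2) < σ - M) (h2 : τ - M < π / 2) :
    dist (pt c M D l σ) (pt c M D l τ) = D * (Real.tan (τ - M) - Real.tan (σ - M)) := by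
  have hcσ : 0 < Real.cos (σ - M) := Real.cos_pos_of_mem_Ioo ⟨h1, by linarith⟩
  have hcτ : 0 < Real.cos (τ - M) := Real.cos_pos_of_mem_Ioo ⟨by linarith, h2⟩
  have hmono : Real.tan (σ - M) ≤ Real.tan (τ - M) := by
    rcases hστ.eq_or_lt with h | h
    · rw [h]
    · exact (Real.tan_lt_tan_of_lt_of_lt_pi_div_two h1 h2 (by linarith)).le
  have hR : 0 ≤ D * (Real.tan (τ - M) - Real.tan (σ - M)) :=
    mul_nonneg hD (by linarith)
  rw [dist_eq_norm]
  have hsub : pt c M D l σ - pt c M D l τ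
      = (D / Real.cos (σ - M)) • dirv c l σ - (D / Real.cos (τ - M)) • dirv c l τ := by
    unfold pt; abel
  rw [hsub]
  have hsq : ‖(D / Real.cos (σ - M)) • dirv c l σ - (D / Real.cos (τ - M)) • dirv c l τ‖ ^ 2
      = (D * (Real.tan (τ - M) - Real.tan (σ - M))) ^ 2 := by
    rw [← real_inner_self_eq_norm_sq, inner_sub_left, inner_sub_right, inner_sub_right,
      inner_smul_left, inner_smul_right, inner_smul_left, inner_smul_right, inner_smul_left,
      inner_smul_right, inner_smul_left, inner_smul_right, inner_dirv, inner_dirv, inner_dirv,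
      inner_dirv]
    simp only [RCLike.conj_to_real, sub_self, Real.cos_zero]
    have e1 : Real.cos (σ - τ) = Real.cos (σ - M) * Real.cos (τ - M)
        + Real.sin (σ - M) * Real.sin (τ - M) := by
      rw [← Real.cos_sub]; congr 1; ring
    have e2 : Real.cos (τ - σ) = Real.cos (σ - M) * Real.cos (τ - M)
        + Real.sin (σ - M) * Real.sin (τ - M) := by
      rw [← e1, ← Real.cos_neg]; congr 1; ring
    rw [e1, e2, Real.tan_eq_sin_div_cos, Real.tan_eq_sin_div_cos]
    have s1 := Real.sin_sq_add_cos_sq (σ - M)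
    have s2 := Real.sin_sq_add_cos_sq (τ - M)
    set cs := Real.cos (σ - M)
    set ct := Real.cos (τ - M)
    set ss := Real.sin (σ - M)
    set st := Real.sin (τ - M)
    have hcσ' : cs ≠ 0 := hcσ.ne'
    have hcτ' : ct ≠ 0 := hcτ.ne'
    field_simp
    linear_combination (-(D ^ 2 * ct ^ 2)) * s1 + (-(D ^ 2 * cs ^ 2)) * s2
  exact (sq_eq_sq₀ (norm_nonneg _) hR).mp hsq

end fan

/-- short cut around a vertex -/
lemma shortcut (S : Surf) {v : E3} (c : Fan S.F v) {a b : ℕ} {s t δ : ℝ} (hst : s ≤ t)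
    (h : t - s < π) (ha1 : c.A a ≤ s) (ha2 : s ≤ c.A (a + 1)) (hb1 : c.A b ≤ t)
    (hb2 : t ≤ c.A (b + 1)) (hδ : 0 < δ) (hδr : δ ≤ c.r) :
    Conn S (v + δ • dirv c a s) (v + δ • dirv c b t) (2 * δ * Real.sin ((t - s) / 2)) := by
  set M : ℝ := (s + t) / 2 with hM
  set H : ℝ := (t - s) / 2 with hH
  have hH0 : 0 ≤ H := by rw [hH]; linarith
  have hHlt : H < π / 2 := by rw [hH]; linarith
  have hπ := Real.pi_pos
  have hcH : 0 < Real.cos H := Real.cos_pos_of_mem_Ioo ⟨by linarith, hHlt⟩
  set D : ℝ := δ * Real.cos H with hD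
  have hD0 : 0 ≤ D := mul_nonneg hδ.le hcH.le
  have hcos : ∀ τ, s ≤ τ → τ ≤ t → Real.cos H ≤ Real.cos (τ - M) := by
    intro τ h1 h2
    rw [← Real.cos_abs (τ - M)]
    apply Real.cos_le_cos_of_nonneg_of_le_pi (abs_nonneg _) (by linarith)
    rw [abs_le]
    constructor <;> · rw [hM, hH]; linarith
  have hmem : ∀ l τ, c.A l ≤ τ → τ ≤ c.A (l + 1) → s ≤ τ → τ ≤ t → pt c M D l τ ∈ S.F (c.f l) := by
    intro l τ h1 h2 h3 h4
    have h5 := hcos τ h3 h4
    have h6 : 0 < Real.cos (τ - M) := lt_of_lt_of_le hcH h5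
    apply pt_mem c h1 h2 hD0 h6
    rw [div_le_iff₀ h6]
    exact mul_le_mul hδr h5 hcH.le (le_trans hδ.le hδr)
  have hs0 : s - M = -H := by rw [hM, hH]; ring
  have ht0 : t - M = H := by rw [hM, hH]; ring
  have epa : pt c M D a s = v + δ • dirv c a s := by
    unfold pt
    rw [hs0, Real.cos_neg, hD, mul_div_assoc, div_self hcH.ne', mul_one]
  have epb : pt c M D b t = v + δ • dirv c b t := by
    unfold pt
    rw [ht0, hD, mul_div_assoc, div_self hcH.ne', mul_one]
  have hdist : ∀ l σ τ, σ ≤ τ → s ≤ σ → τ ≤ t →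
      dist (pt c M D l σ) (pt c M D l τ) = D * (Real.tan (τ - M) - Real.tan (σ - M)) := by
    intro l σ τ h1 h2 h3
    apply dist_pt c hD0 h1
    · have : -H ≤ σ - M := by rw [← hs0]; linarith
      linarith
    · have : τ - M ≤ H := by rw [← ht0]; linarith
      linarith
  have hlast : D * (Real.tan (t - M) - Real.tan (s - M)) = 2 * δ * Real.sin H := by
    rw [hs0, ht0, Real.tan_neg, Real.tan_eq_sin_div_cos, hD]
    field_simp
    ring
  rw [← epa, ← epb, ← hlast]
  by_cases hab : a ≤ b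
  · obtain ⟨j, rfl⟩ : ∃ j, b = a + j := ⟨b - a, by omega⟩
    clear epa epb hlast hab
    -- induction over the faces
    have key : ∀ j τ, s ≤ τ → τ ≤ t → c.A (a + j) ≤ τ → τ ≤ c.A (a + j + 1) →
        Conn S (pt c M D a s) (pt c M D (a + j) τ) (D * (Real.tan (τ - M) - Real.tan (s - M))) := by
      intro j
      induction j with
      | zero =>
        intro τ h1 h2 h3 h4
        rw [← hdist a s τ h1 le_rfl h2]
        exact Conn.step (hmem a s ha1 ha2 le_rfl hst) (hmem a τ (by simpa using h3) (by simpa using h4) h1 h2)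
      | succ j ih =>
        intro τ h1 h2 h3 h4
        set σ : ℝ := c.A (a + j + 1) with hσ
        have g1 : s ≤ σ := ha2.trans ((A_strictMono c).monotone (by omega))
        have g2 : σ ≤ τ := h3
        have g3 := ih σ g1 (g2.trans h2) (A_lt_succ c _).le le_rfl
        have e : pt c M D (a + j) σ = pt c M D (a + (j + 1)) σ := by
          unfold pt
          rw [hσ, dirv_A_succ, ← add_assoc, dirv_A]
        rw [e] at g3
        have g4 := hdist (a + (j + 1)) σ τ g2 g1 h2
        have g5 : Conn S (pt c M D (a + (j + 1)) σ) (pt c M D (a + (j + 1)) τ)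
            (D * (Real.tan (τ - M) - Real.tan (σ - M))) := by
          rw [← g4]
          exact Conn.step (hmem _ σ le_rfl (by rw [hσ]; exact (A_lt_succ c _).le) g1 (g2.trans h2))
            (hmem _ τ h3 h4 h1 h2)
        exact (g3.trans g5).mono (by linarith)
    exact key j t hst le_rfl hb1 hb2
  · push Not at hab
    have h1 : c.A (b + 1) ≤ c.A a := (A_strictMono c).monotone hab
    have h2 : s = t := le_antisymm hst (by linarith)
    have h3 : c.A a = c.A (b + 1) := le_antisymm (by linarith) h1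
    have h4 : a = b + 1 := (A_strictMono c).injective h3
    subst h4
    have h5 : s = c.A (b + 1) := le_antisymm (by linarith) ha1
    subst h2
    have e : pt c M D (b + 1) s = pt c M D b s := by
      unfold pt
      rw [h5, dirv_A, dirv_A_succ]
    rw [e, sub_self, mul_zero]
    have := Conn.step (S := S) (hmem b s hb1 hb2 le_rfl le_rfl) (hmem b s hb1 hb2 le_rfl le_rfl)
    rwa [dist_self] at this

lemma shortcut' (S : Surf) {v : E3} (c : Fan S.F v) {a b : ℕ} {s t δ : ℝ}
    (h : |t - s| < π) (ha1 : c.A a ≤ s) (ha2 : s ≤ c.A (a + 1)) (hb1 : c.A b ≤ t)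
    (hb2 : t ≤ c.A (b + 1)) (hδ : 0 < δ) (hδr : δ ≤ c.r) :
    Conn S (v + δ • dirv c a s) (v + δ • dirv c b t) (2 * δ * Real.sin (|t - s| / 2)) := by
  rcases le_total s t with hst | hst
  · have e : |t - s| = t - s := abs_of_nonneg (by linarith)
    rw [e] at h ⊢
    exact shortcut S c hst h ha1 ha2 hb1 hb2 hδ hδr
  · have e : |t - s| = s - t := by rw [abs_sub_comm]; exact abs_of_nonneg (by linarith)
    rw [e] at h ⊢
    exact (shortcut S c hst h hb1 hb2 ha1 ha2 hδ hδr).symm

end PC

/-- Block PC: at a vertex on a shortest chain both side angles are at least `π`. -/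
theorem PC : StPC := by
  intro S Z x n p g hmin k hk c a b s t hs ht
  by_contra hcon
  push Not at hcon
  obtain ⟨hch, hp0, hpn, hlen, hne⟩ := hmin
  generalize hv : p (k + 1) = v at c hs ht
  have hw1 := PC.eq_dirv_of_isDir c hs
  have hw2 := PC.eq_dirv_of_isDir c ht
  set l1 : ℝ := ‖p k - v‖ with hl1
  set l2 : ℝ := ‖p (k + 2) - v‖ with hl2
  have hl1p : 0 < l1 := norm_pos_iff.mpr (sub_ne_zero.mpr (hv ▸ hne k (by omega)))
  have hl2p : 0 < l2 := norm_pos_iff.mpr (sub_ne_zero.mpr (hv ▸ (hne (k + 1) hk).symm))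
  set δ : ℝ := min c.r (min l1 l2) with hδ
  have hδ0 : 0 < δ := lt_min c.r_pos (lt_min hl1p hl2p)
  have hδr : δ ≤ c.r := min_le_left _ _
  have hδ1 : δ ≤ l1 := (min_le_right _ _).trans (min_le_left _ _)
  have hδ2 : δ ≤ l2 := (min_le_right _ _).trans (min_le_right _ _)
  have hmid := PC.shortcut' S c hcon hs.2.2.1 hs.2.2.2.1 ht.2.2.1 ht.2.2.2.1 hδ0 hδr
  rw [← hw1, ← hw2] at hmid
  set q1 : E3 := v + δ • (l1⁻¹ • (p k - v)) with hq1
  set q2 : E3 := v + δ • (l2⁻¹ • (p (k + 2) - v)) with hq2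
  have hk1 := hch k (by omega)
  have hk2 := hch (k + 1) hk
  -- `q1`, `q2` lie in the faces of the chain
  have hr1 : 0 ≤ δ / l1 ∧ δ / l1 ≤ 1 := ⟨by positivity, (div_le_one hl1p).mpr hδ1⟩
  have hr2 : 0 ≤ δ / l2 ∧ δ / l2 ≤ 1 := ⟨by positivity, (div_le_one hl2p).mpr hδ2⟩
  have m1 : q1 ∈ S.F (g k) := by
    have := (S.convex (g k)) hk1.2 hk1.1 (by linarith : (0:ℝ) ≤ 1 - δ / l1) hr1.1 (by ring)
    convert this using 1
    rw [hq1, smul_smul, smul_sub, sub_smul, one_smul, hv, div_eq_mul_inv]; abel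
  have m2 : q2 ∈ S.F (g (k + 1)) := by
    have := (S.convex (g (k + 1))) hk2.1 hk2.2 (by linarith : (0:ℝ) ≤ 1 - δ / l2) hr2.1 (by ring)
    convert this using 1
    rw [hq2, smul_smul, smul_sub, sub_smul, one_smul, hv, div_eq_mul_inv]; abel
  have d1 : dist (p k) q1 = l1 - δ := by
    rw [dist_eq_norm]
    have : p k - q1 = (1 - δ / l1) • (p k - v) := by
      rw [hq1, smul_smul, sub_smul, one_smul, div_eq_mul_inv]; abel
    rw [this, norm_smul, ← hl1, Real.norm_eq_abs, abs_of_nonneg (by linarith)]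
    field_simp
  have d2 : dist q2 (p (k + 2)) = l2 - δ := by
    rw [dist_comm, dist_eq_norm]
    have : p (k + 2) - q2 = (1 - δ / l2) • (p (k + 2) - v) := by
      rw [hq2, smul_smul, sub_smul, one_smul, div_eq_mul_inv]; abel
    rw [this, norm_smul, ← hl2, Real.norm_eq_abs, abs_of_nonneg (by linarith)]
    field_simp
  have c1 := PC.conn_initial hch (show k ≤ n by omega)
  have c2 := PC.Conn.step hk1.1 m1
  have c3 := PC.Conn.step m2 hk2.2
  have c4 := PC.conn_final hch (show k + 2 ≤ n by omega)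
  rw [d1] at c2
  rw [show k + 1 + 1 = k + 2 from rfl, d2] at c3
  have hall := (((c1.trans c2).trans hmid).trans c3).trans c4
  rw [hpn] at hall
  have hrho := PC.rho_le_of_conn hp0 hall
  rw [← hlen] at hrho
  -- lengths
  have hlk : Surf.len (k + 2) p = Surf.len k p + l1 + l2 := by
    unfold Surf.len
    rw [Finset.sum_range_succ, Finset.sum_range_succ, dist_eq_norm, hv, ← hl1, dist_comm,
      show k + 1 + 1 = k + 2 from rfl, dist_eq_norm, ← hl2]
  have hsin : Real.sin (|t - s| / 2) < 1 := by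
    have h1 : 0 ≤ |t - s| := abs_nonneg _
    have h2 : Real.sin (|t - s| / 2) < Real.sin (π / 2) := by
      apply Real.sin_lt_sin_of_lt_of_le_pi_div_two _ le_rfl (by linarith)
      linarith [Real.pi_pos]
    rwa [Real.sin_pi_div_two] at h2
  have hsin0 : 0 ≤ Real.sin (|t - s| / 2) := by
    apply Real.sin_nonneg_of_nonneg_of_le_pi (by positivity)
    linarith [Real.pi_pos]
  have hlt : Surf.len k p + (l1 - δ) + 2 * δ * Real.sin (|t - s| / 2) + (l2 - δ)
      + (Surf.len n p - Surf.len (k + 2) p) < Surf.len n p := by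
    rw [hlk]
    nlinarith
  have hpos : 0 < Surf.len n p := by
    have h1 : 0 ≤ Surf.len k p := Finset.sum_nonneg fun _ _ => dist_nonneg
    have h2 : Surf.len (k + 2) p ≤ Surf.len n p := by
      unfold Surf.len
      apply Finset.sum_le_sum_of_subset_of_nonneg
      · intro i hi
        rw [Finset.mem_range] at hi ⊢
        omega
      · intro i _ _
        exact dist_nonneg
    rw [hlk] at h2
    linarith
  rw [ENNReal.ofReal_le_ofReal_iff'] at hrho
  rcases hrho with h1 | h1 <;> linarith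

end Vale.Agent.P134.PS
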