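import Vale.Agent.P134.PS.Defs
import Vale.Agent.P134.PS.H399.Dev
import Vale.Agent.P134.PS.H399.Sector
import Vale.Agent.P134.PS.H399.Path

/-! # PS-PD: geodesics from a vertex sweep out at most the area of the sector -/

namespace Vale.Agent.P134.PS.H399

open MeasureTheory Set
open scoped ENNReal RealInnerProductSpace Real

/-- Polar coordinates: upper bound for the integral of a radial function over a sector. -/
theorem lintegral_gsector_le (v : ℂ) {A : Set ℝ} (hA : MeasurableSet A) {θ₀ : ℝ}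
    (hAθ : A ⊆ Ico θ₀ (θ₀ + 2 * π)) {G : ℝ → ℝ≥0∞} (hG : Measurable G) :
    ∫⁻ z in gsector v (Ioi 0) A, G ‖z - v‖ ≤
      volume A * ∫⁻ r in Ioi (0 : ℝ), G r * ENNReal.ofReal r := by
  have h0 : gsector v (Ioi 0) A = (fun z => v + z) '' (gsector 0 (Ioi 0) A) := by
    ext z
    simp only [gsector, mem_ofPred_eq, mem_image, zero_add]
    constructor
    · rintro ⟨r, hr, θ, hθ, rfl⟩
      exact ⟨r * dir θ, ⟨r, hr, θ, hθ, rfl⟩, rfl⟩
    · rintro ⟨w, ⟨r, hr, θ, hθ, rfl⟩, rfl⟩
      exact ⟨r, hr, θ, hθ, rfl⟩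
  have h1 : ∫⁻ z in gsector v (Ioi 0) A, G ‖z - v‖ =
      ∫⁻ z in gsector 0 (Ioi 0) A, G ‖z‖ := by
    have hmp := measurePreserving_add_left (volume : Measure ℂ) v
    have := hmp.setLIntegral_comp_emb (MeasurableEquiv.addLeft v).measurableEmbedding
      (fun z => G ‖z - v‖) (gsector 0 (Ioi 0) A)
    rw [h0]
    rw [← this]
    refine lintegral_congr fun z => ?_
    simp
  rw [h1, gsector_eq_image]
  set Sp : Set (ℝ × ℝ) := (fun p : ℝ × ℝ => polarCoord.symm p) '' (Ioi 0 ×ˢ A) with hSp
  have h2 : (fun p : ℝ × ℝ => Complex.measurableEquivRealProd.symm p) '' Sp =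
      Complex.measurableEquivRealProd ⁻¹' Sp := MeasurableEquiv.image_symm _ _
  rw [h2]
  have h3 : ∫⁻ z in Complex.measurableEquivRealProd ⁻¹' Sp, G ‖z‖ =
      ∫⁻ p in Sp, G ‖Complex.measurableEquivRealProd.symm p‖ := by
    rw [← Complex.volume_preserving_equiv_real_prod.setLIntegral_comp_preimage_emb
      Complex.measurableEquivRealProd.measurableEmbedding
      (fun p => G ‖Complex.measurableEquivRealProd.symm p‖) Sp]
    refine lintegral_congr fun z => ?_
    simp
  rw [h3]
  have hm : MeasurableSet (Ioi (0 : ℝ) ×ˢ A) := measurableSet_Ioi.prod hA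
  have hinj : InjOn (fun p : ℝ × ℝ => polarCoord.symm p) (Ioi 0 ×ˢ A) := by
    rintro ⟨r, θ⟩ ⟨hr, hθ⟩ ⟨r', θ'⟩ ⟨hr', hθ'⟩ heq
    have hr0 : 0 < r := hr
    have hr0' : 0 < r' := hr'
    have e1 : r * Real.cos θ = r' * Real.cos θ' := congrArg Prod.fst heq
    have e2 : r * Real.sin θ = r' * Real.sin θ' := congrArg Prod.snd heq
    have e3 : (r : ℂ) * dir θ = r' * dir θ' := by
      simp only [dir, Complex.ext_iff]
      constructor
      · simpa [Complex.cos_ofReal_re] using e1
      · simpa [Complex.sin_ofReal_re] using e2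
    have h2 : r = r' := by
      have := congrArg (fun z => ‖z‖) e3
      simpa [norm_dir, abs_of_pos hr0, abs_of_pos hr0'] using this
    subst h2
    have h3 : dir θ = dir θ' := mul_left_cancel₀ (by exact_mod_cast hr0.ne') e3
    have h4 : θ = θ' := dir_injOn θ₀ (hAθ hθ) (hAθ hθ') h3
    rw [h4]
  rw [hSp, lintegral_image_eq_lintegral_abs_det_fderiv_mul volume hm
    (fun p _ => (hasFDerivAt_polarCoord_symm p).hasFDerivWithinAt) hinj]
  simp_rw [det_fderivPolarCoordSymm]
  have h4 : ∫⁻ p in Ioi (0 : ℝ) ×ˢ A, ENNReal.ofReal |p.1| *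
      G ‖Complex.measurableEquivRealProd.symm (polarCoord.symm p)‖ =
      ∫⁻ p in Ioi (0 : ℝ) ×ˢ A, G p.1 * ENNReal.ofReal p.1 := by
    refine setLIntegral_congr_fun hm fun p hp => ?_
    have hp1 : 0 < p.1 := hp.1
    have e : ‖Complex.measurableEquivRealProd.symm (polarCoord.symm p)‖ = p.1 := by
      have : Complex.measurableEquivRealProd.symm (polarCoord.symm p) = p.1 * dir p.2 := by
        simp [dir, Complex.ext_iff, Complex.measurableEquivRealProd, Complex.cos_ofReal_re,
          Complex.sin_ofReal_re]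
      rw [this, norm_mul, norm_dir, mul_one, Complex.norm_real, Real.norm_of_nonneg hp1.le]
    simp only [e, abs_of_pos hp1]
    rw [mul_comm]
  rw [h4, Measure.volume_eq_prod, ← Measure.prod_restrict]
  rw [lintegral_prod _ (by fun_prop)]
  simp only [lintegral_const, Measure.restrict_apply MeasurableSet.univ, univ_inter]
  rw [lintegral_mul_const _ (by fun_prop), mul_comm]

/-- directions: a linear map to `ℂ` which is isometric on the span of the unit vectors `d`, `d'`
maps the unit vectors of the cone at angle `τ` from `d` to `dir (θ₁ + τ)` or to `dir (θ₁ - τ)`. -/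
theorem exists_dir (M : E3 →ₗ[ℝ] ℂ) {d d' : E3} (hd : ‖d‖ = 1) (hd' : ‖d'‖ = 1)
    (h0 : 0 < InnerProductGeometry.angle d d') (hpi : InnerProductGeometry.angle d d' < π)
    (hM : ∀ a b : ℝ, ‖M (a • d + b • d')‖ = ‖a • d + b • d'‖) :
    ∃ (θ₁ : ℝ) (σ : ℝ), (σ = 1 ∨ σ = -1) ∧ ∀ (a b : ℝ), 0 ≤ a → 0 ≤ b →
      ‖a • d + b • d'‖ = 1 →
      M (a • d + b • d') = dir (θ₁ + σ * InnerProductGeometry.angle d (a • d + b • d')) := by
  set α := InnerProductGeometry.angle d d' with hα
  -- inner products are preserved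
  have hin : ∀ a b : ℝ, inner ℝ (M d) (M (a • d + b • d')) = inner ℝ d (a • d + b • d') := by
    intro a b
    have k1 : ‖M d + M (a • d + b • d')‖ = ‖d + (a • d + b • d')‖ := by
      have := hM (1 + a) b
      rw [← map_add]
      have e : d + (a • d + b • d') = (1 + a) • d + b • d' := by rw [add_smul, one_smul]; abel
      rw [e]; exact this
    have k2 : ‖M d‖ = ‖d‖ := by simpa using hM 1 0
    have k3 := hM a b
    have l1 := norm_add_sq_real (M d) (M (a • d + b • d'))
    have l2 := norm_add_sq_real d (a • d + b • d')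
    rw [k1, k2, k3] at l1
    linarith
  have hMd : ‖M d‖ = 1 := by have := hM 1 0; simpa [hd] using this
  have hMd' : ‖M d'‖ = 1 := by have := hM 0 1; simpa [hd'] using this
  -- polar form of `M d`
  set θ₁ := Complex.arg (M d) with hθ₁
  have hMd1 : M d = dir θ₁ := by
    have := Complex.norm_mul_exp_arg_mul_I (M d)
    rw [hMd] at this
    rw [← this, Complex.exp_mul_I]
    simp only [Complex.ofReal_one, one_mul, dir, Complex.ofReal_cos, Complex.ofReal_sin]
    rfl
  have hdir : ∀ x y : ℝ, dir (x + y) = dir x * dir y := by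
    intro x y
    simp only [dir, Real.cos_add, Real.sin_add]
    push_cast
    linear_combination -(Complex.sin x * Complex.sin y) * Complex.I_sq
  have hdre : ∀ x : ℝ, (dir x).re = Real.cos x := by
    intro x; simp [dir, Complex.cos_ofReal_re]
  have hdim : ∀ x : ℝ, (dir x).im = Real.sin x := by
    intro x; simp [dir, Complex.sin_ofReal_re]
  have hd0 : dir 0 = 1 := by simp [dir]
  have hinner : ∀ z : ℂ, inner ℝ (M d) z = (z * dir (-θ₁)).re := by
    intro z
    rw [hMd1, Complex.inner, Complex.mul_re, Complex.mul_re, hdre, hdim, Complex.conj_re,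
      Complex.conj_im, hdre, hdim, Real.cos_neg, Real.sin_neg]
    try ring
  have hone : ∀ z : ℂ, ‖z‖ = 1 → z.re ^ 2 + z.im ^ 2 = 1 := by
    intro z hz
    have := Complex.sq_norm z
    rw [hz, Complex.normSq_apply] at this
    linarith
  have hsα : 0 < Real.sin α := Real.sin_pos_of_pos_of_lt_pi h0 hpi
  set m' := M d' * dir (-θ₁) with hm'
  have hm'n : ‖m'‖ = 1 := by rw [hm', norm_mul, norm_dir, hMd', one_mul]
  have hm're : m'.re = Real.cos α := by
    have h1 := hin 0 1
    simp only [zero_smul, one_smul, zero_add] at h1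
    rw [hinner] at h1
    rw [hm', h1, ← InnerProductGeometry.cos_angle_mul_norm_mul_norm, hd, hd']
    simp [hα]
  have hm'im : m'.im ^ 2 = Real.sin α ^ 2 := by
    have h1 := hone _ hm'n
    rw [hm're] at h1
    have := Real.sin_sq_add_cos_sq α
    linarith
  obtain ⟨σ, hσ, hm'σ⟩ : ∃ σ : ℝ, (σ = 1 ∨ σ = -1) ∧ m'.im = σ * Real.sin α := by
    rcases sq_eq_sq_iff_eq_or_eq_neg.1 hm'im with h | h
    · exact ⟨1, Or.inl rfl, by rw [h, one_mul]⟩
    · exact ⟨-1, Or.inr rfl, by rw [h]; ring⟩
  refine ⟨θ₁, σ, hσ, fun a b ha hb hw => ?_⟩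
  set w := a • d + b • d' with hwdef
  set τ := InnerProductGeometry.angle d w with hτ
  have hs2 : 0 ≤ Real.sin τ := InnerProductGeometry.sin_angle_nonneg d w
  set q := M w * dir (-θ₁) with hq
  have hMw : M w = dir θ₁ * q := by
    rw [hq]
    have : dir θ₁ * dir (-θ₁) = 1 := by rw [← hdir, add_neg_cancel, hd0]
    linear_combination -(M w) * this
  have hqn : ‖q‖ = 1 := by rw [hq, norm_mul, norm_dir, hM a b, hw, one_mul]
  have hqe : q = a + b * m' := by
    have e1 : dir θ₁ * dir (-θ₁) = 1 := by rw [← hdir, add_neg_cancel, hd0]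
    rw [hq, hwdef, map_add, map_smul, map_smul, hm', hMd1]
    rw [Complex.real_smul, Complex.real_smul]
    linear_combination (a : ℂ) * e1
  have hqre : q.re = Real.cos τ := by
    have h1 := hin a b
    rw [hinner, ← hwdef, ← hq, ← InnerProductGeometry.cos_angle_mul_norm_mul_norm, hd, hw,
      mul_one, mul_one] at h1
    exact h1
  have hqim : q.im = σ * (b * Real.sin α) := by
    rw [hqe]
    simp only [Complex.add_im, Complex.ofReal_im, zero_add, Complex.mul_im, Complex.ofReal_re,
      zero_mul, add_zero]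
    rw [hm'σ]; ring
  have hbs : b * Real.sin α = Real.sin τ := by
    have h1 := hone _ hqn
    rw [hqre, hqim] at h1
    have h2 : σ ^ 2 = 1 := by rcases hσ with rfl | rfl <;> norm_num
    have h3 : (b * Real.sin α) ^ 2 = Real.sin τ ^ 2 := by
      have := Real.sin_sq_add_cos_sq τ
      have e : (σ * (b * Real.sin α)) ^ 2 = (b * Real.sin α) ^ 2 := by
        rw [mul_pow, h2, one_mul]
      linarith
    have h4 : 0 ≤ b * Real.sin α := mul_nonneg hb hsα.le
    exact (pow_left_inj₀ h4 hs2 two_ne_zero).1 h3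
  have hqdir : q = dir (σ * τ) := by
    apply Complex.ext
    · rw [hqre, hdre]
      rcases hσ with rfl | rfl
      · simp
      · simp
    · rw [hqim, hdim, hbs]
      rcases hσ with rfl | rfl
      · simp
      · simp
  rw [hMw, hqdir, hdir]

/-- the linear part of the chart is isometric on the span of the two spokes of the face -/
lemma chart_isom (S : Surf) {v : E3} (c : Fan S.F v) (k : ℕ) (a b : ℝ) :
    ‖(S.ch (c.f k)).linear (a • c.d k + b • c.d (k + 1))‖ = ‖a • c.d k + b • c.d (k + 1)‖ := by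
  set N : ℝ := |a| + |b| + 1 with hN
  have hN0 : 0 < N := by positivity
  set ε : ℝ := c.r / N with hε
  have hε0 : 0 < ε := div_pos c.r_pos hN0
  have hεN : ε * N = c.r := by rw [hε]; field_simp
  have key : ∀ a' b' : ℝ, 0 ≤ a' → 0 ≤ b' → a' ≤ |a| → b' ≤ |b| →
      v + (ε * a') • c.d k + (ε * b') • c.d (k + 1) ∈ S.F (c.f k) := by
    intro a' b' ha' hb' haa hbb
    refine (c.sector k _ ?_).2 ⟨ε * a', ε * b', by positivity, by positivity, rfl⟩
    have e : v + (ε * a') • c.d k + (ε * b') • c.d (k + 1) - v =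
        (ε * a') • c.d k + (ε * b') • c.d (k + 1) := by abel
    rw [e]
    refine (norm_add_le _ _).trans ?_
    rw [norm_smul, norm_smul, c.d_norm, c.d_norm, mul_one, mul_one,
      Real.norm_of_nonneg (by positivity), Real.norm_of_nonneg (by positivity), ← mul_add, ← hεN]
    gcongr
    linarith
  have hx := key (max a 0) (max b 0) (le_max_right _ _) (le_max_right _ _)
    (max_le (le_abs_self a) (abs_nonneg a)) (max_le (le_abs_self b) (abs_nonneg b))
  have hy := key (max (-a) 0) (max (-b) 0) (le_max_right _ _) (le_max_right _ _)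
    (max_le (neg_le_abs a) (abs_nonneg a)) (max_le (neg_le_abs b) (abs_nonneg b))
  have h1 := S.ch_iso _ _ hx _ hy
  rw [dist_eq_norm, dist_eq_norm, ← vsub_eq_sub (S.ch (c.f k) _), ← AffineMap.linearMap_vsub,
    vsub_eq_sub] at h1
  have e : v + (ε * max a 0) • c.d k + (ε * max b 0) • c.d (k + 1) -
      (v + (ε * max (-a) 0) • c.d k + (ε * max (-b) 0) • c.d (k + 1)) =
      ε • (a • c.d k + b • c.d (k + 1)) := by
    have ea : a = max a 0 - max (-a) 0 := by
      rcases le_total 0 a with h | h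
      · rw [max_eq_left h, max_eq_right (by linarith)]; ring
      · rw [max_eq_right h, max_eq_left (by linarith)]; ring
    have eb : b = max b 0 - max (-b) 0 := by
      rcases le_total 0 b with h | h
      · rw [max_eq_left h, max_eq_right (by linarith)]; ring
      · rw [max_eq_right h, max_eq_left (by linarith)]; ring
    have l : ∀ (x1 x2 y1 y2 : ℝ) (d d' : E3), v + (ε * x1) • d + (ε * y1) • d' -
        (v + (ε * x2) • d + (ε * y2) • d') = ε • ((x1 - x2) • d + (y1 - y2) • d') := by
      intro x1 x2 y1 y2 d d'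
      simp only [smul_add, smul_smul, sub_smul, smul_sub]
      abel
    rw [l, ← ea, ← eb]
  rw [e, map_smul, norm_smul, norm_smul] at h1
  exact mul_left_cancel₀ (norm_pos_iff.2 hε0.ne').ne' h1

end Vale.Agent.P134.PS.H399

namespace Vale.Agent.P134.PS

open MeasureTheory Set
open scoped ENNReal RealInnerProductSpace Real
open H399

/-- **Block PD** -/
theorem PD : StPD := by
  classical
  intro S Q v hv c k T hT hTs L G hG
  have : Countable S.ι := S.cnt
  obtain ⟨θ₁, σ, hσ, hdir⟩ := exists_dir (S.ch (c.f k)).linear (c.d_norm k) (c.d_norm (k + 1))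
    (c.ang_pos k) (c.ang_lt k) (chart_isom S c k)
  set Θ : Set ℝ := (fun s => c.A k + σ * (s - θ₁)) ⁻¹' T with hΘ
  have hΘm : MeasurableSet Θ := by
    have : Measurable (fun s : ℝ => c.A k + σ * (s - θ₁)) := by fun_prop
    exact this hT
  have hΘv : volume Θ = volume T := by
    rcases hσ with rfl | rfl
    · have e : (fun s : ℝ => c.A k + 1 * (s - θ₁)) = fun s => (c.A k - θ₁) + s := by
        ext s; ring
      rw [hΘ, e, measure_preimage_add]
    · have e : (fun s : ℝ => c.A k + -1 * (s - θ₁)) = fun s => (c.A k + θ₁) - s := by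
        ext s; ring
      rw [hΘ, e]
      exact (Measure.measurePreserving_sub_left volume (c.A k + θ₁)).measure_preimage
        hT.nullMeasurableSet
  have hα : c.A (k + 1) - c.A k < π := by
    have : c.A (k + 1) = c.A k + c.α k := by
      simp only [Fan.A, Finset.sum_range_succ]
    rw [this, add_sub_cancel_left]
    exact c.ang_lt k
  have hΘs : Θ ⊆ Ico (θ₁ - π) (θ₁ - π + 2 * π) := by
    intro s hs
    have h1 := hTs hs
    simp only [mem_Icc] at h1
    rcases hσ with rfl | rfl
    · constructor <;> linarith [h1.1, h1.2]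
    · constructor <;> linarith [h1.1, h1.2]
  set P0 : ℂ := S.ch (c.f k) v with hP0
  set Sec : Set ℂ := gsector P0 (Ioi 0) Θ with hSec
  have hSecm : MeasurableSet Sec :=
    measurableSet_gsector P0 measurableSet_Ioi hΘm le_rfl hΘs
  set e : List S.ι → S.ι × (ℂ ≃ᵢ ℂ) :=
    fun γ => fin (net Q) (c.f k) (IsometryEquiv.refl ℂ) γ with he
  set R : List S.ι → S.ι → Set ℂ := fun γ j => {z | (e γ).1 = j ∧
    (e γ).2 z ∈ Tset (net Q) (c.f k) P0 γ ∩ Sec ∧ L j z = ‖(e γ).2 z - P0‖} with hR
  have hreach : ∀ j, Q.Reach c k T L j ⊆ ⋃ γ, R γ j := by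
    rintro j z ⟨hzi, n, p, g, t, h, hp0, hg0, hj, hz, hlen, ht, hw⟩
    have hzi' : S.ch (g (n - 1)) (p n) ∈ interior (S.C (g (n - 1))) := by
      rw [hj, hz]; exact hzi
    have hfin := fin_fl Q g (n - 1) 0
    have hGo := Go_fl h hzi' (n - 1) 0 (by omega)
    have hPn : P Q p g n = Q.dev g (n - 1) (S.ch (g (n - 1)) (p n)) := by
      obtain ⟨m, rfl⟩ : ∃ m, n = m + 1 := ⟨n - 1, by have := h.1; omega⟩
      rfl
    have hP0' : P Q p g 0 = P0 := by
      show S.ch (g 0) (p 0) = _
      rw [hg0, hp0]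
    have hlen0 : Surf.len 0 p = 0 := by simp [Surf.len]
    have hdev0 : Q.dev g 0 = IsometryEquiv.refl ℂ := rfl
    rw [hlen0, zero_div, hP0', hg0, hdev0] at hGo
    rw [zero_add, hg0, hdev0] at hfin
    rw [hj, hz] at hPn
    have hformula := P_formula h n le_rfl
    rw [hP0', hPn] at hformula
    have hLpos := len_pos h
    refine mem_iUnion.2 ⟨fl g 0 (n - 1), ?_, ⟨?_, ?_⟩, ?_⟩
    · show (fin (net Q) (c.f k) (IsometryEquiv.refl ℂ) (fl g 0 (n - 1))).1 = j
      rw [hfin]; exact hj
    · show (fin (net Q) (c.f k) (IsometryEquiv.refl ℂ) (fl g 0 (n - 1))).2 z ∈ _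
      rw [hfin, ← hPn]
      exact hGo
    · show (fin (net Q) (c.f k) (IsometryEquiv.refl ℂ) (fl g 0 (n - 1))).2 z ∈ _
      rw [hfin]
      show Q.dev g (n - 1) z ∈ _
      rw [hformula]
      obtain ⟨hw1, ⟨a, b, ha, hb, hab⟩, ht1, ht2, hang⟩ := hw
      have hu : udir Q p g = dir (θ₁ + σ * (t - c.A k)) := by
        have h1 := hdir a b ha hb (by rw [← hab]; exact hw1)
        rw [← hab, hang] at h1
        rw [← h1]
        simp only [udir]
        have e1 : P Q p g 1 - P Q p g 0 = (S.ch (c.f k)).linear (p 1 - v) := by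
          show Q.dev g 0 (S.ch (g 0) (p 1)) - S.ch (g 0) (p 0) = _
          rw [hdev0, hg0, hp0]
          show S.ch (c.f k) (p 1) - S.ch (c.f k) v = _
          rw [← vsub_eq_sub, ← AffineMap.linearMap_vsub, vsub_eq_sub]
        rw [e1, map_smul, dist_comm, dist_eq_norm, hp0]
      refine ⟨Surf.len n p, hLpos, θ₁ + σ * (t - c.A k), ?_, ?_⟩
      · show c.A k + σ * (θ₁ + σ * (t - c.A k) - θ₁) ∈ T
        have : c.A k + σ * (θ₁ + σ * (t - c.A k) - θ₁) = t := by
          rcases hσ with rfl | rfl <;> ring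
        rw [this]; exact ht
      · rw [hu, Complex.real_smul]
    · show L j z = ‖(fin (net Q) (c.f k) (IsometryEquiv.refl ℂ) (fl g 0 (n - 1))).2 z - P0‖
      rw [hfin]
      show L j z = ‖Q.dev g (n - 1) z - P0‖
      rw [hformula, add_sub_cancel_left, norm_smul, norm_udir h, mul_one,
        Real.norm_of_nonneg hLpos.le]
      exact hlen.symm
  set H : ℂ → ℝ≥0∞ := fun w => G ‖w - P0‖ with hH
  have hHm : Measurable H := by
    have : Measurable fun w : ℂ => ‖w - P0‖ := by fun_prop
    exact hG.comp this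
  have hpiece : ∀ γ j, ∫⁻ z in R γ j, G (L j z) ≤
      if (e γ).1 = j then ∫⁻ w in Tset (net Q) (c.f k) P0 γ ∩ Sec, H w else 0 := by
    intro γ j
    split_ifs with hγ
    · have hmp : MeasurePreserving (e γ).2 volume volume :=
        ⟨(e γ).2.continuous.measurable, by
          ext A hA
          rw [Measure.map_apply (e γ).2.continuous.measurable hA, volume_preimage_isometryEquiv]⟩
      rw [← hmp.setLIntegral_comp_preimage_emb (e γ).2.toHomeomorph.measurableEmbedding H]
      have hm2 : Measurable fun z => H ((e γ).2 z) := hHm.comp (e γ).2.continuous.measurable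
      calc ∫⁻ z in R γ j, G (L j z) ≤ ∫⁻ z in R γ j, H ((e γ).2 z) := by
            refine setLIntegral_mono hm2 fun z hz => ?_
            rw [hz.2.2]
        _ ≤ ∫⁻ z in (e γ).2 ⁻¹' (Tset (net Q) (c.f k) P0 γ ∩ Sec), H ((e γ).2 z) :=
            lintegral_mono_set fun z hz => hz.2.1
    · have : R γ j = ∅ := by
        ext z
        simp only [mem_empty_iff_false, iff_false]
        exact fun hz => hγ hz.1
      rw [this]; simp
  calc ∑' j : S.ι, ∫⁻ z in Q.Reach c k T L j, G (L j z)
      ≤ ∑' j : S.ι, ∑' γ, ∫⁻ z in R γ j, G (L j z) := by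
        refine ENNReal.tsum_le_tsum fun j => ?_
        exact (lintegral_mono_set (hreach j)).trans (lintegral_iUnion_le _ _)
    _ ≤ ∑' j : S.ι, ∑' γ, (if (e γ).1 = j then
          ∫⁻ w in Tset (net Q) (c.f k) P0 γ ∩ Sec, H w else 0) :=
        ENNReal.tsum_le_tsum fun j => ENNReal.tsum_le_tsum fun γ => hpiece γ j
    _ = ∑' γ, ∑' j : S.ι, (if (e γ).1 = j then
          ∫⁻ w in Tset (net Q) (c.f k) P0 γ ∩ Sec, H w else 0) := ENNReal.tsum_comm
    _ = ∑' γ, ∫⁻ w in Tset (net Q) (c.f k) P0 γ ∩ Sec, H w := by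
        refine tsum_congr fun γ => ?_
        rw [tsum_eq_single (e γ).1 (fun f hf => if_neg (Ne.symm hf)), if_pos rfl]
    _ = ∫⁻ w in ⋃ γ, Tset (net Q) (c.f k) P0 γ ∩ Sec, H w := by
        refine (lintegral_iUnion₀ ?_ ?_ _).symm
        · exact fun γ => ((convex_Tset _ _ _ γ).nullMeasurableSet _).inter hSecm.nullMeasurableSet
        · intro γ γ' h
          exact ((disjoint_Tset _ _ _ h).mono inter_subset_left inter_subset_left).aedisjoint
    _ ≤ ∫⁻ w in Sec, H w := lintegral_mono_set (iUnion_subset fun γ => inter_subset_right)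
    _ ≤ volume Θ * ∫⁻ r in Ioi (0 : ℝ), G r * ENNReal.ofReal r :=
        lintegral_gsector_le P0 hΘm hΘs hG
    _ = volume T * ∫⁻ r in Ioi (0 : ℝ), G r * ENNReal.ofReal r := by rw [hΘv]

end Vale.Agent.P134.PS
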