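import Vale.Agent.P134.PS.Defs

/-!
# P134 / PS : block PE, the assembly of the area inequality
-/

open MeasureTheory Set
open scoped ENNReal RealInnerProductSpace Real

namespace Vale.Agent.P134.PS

/-! ### A covering lemma for lower integrals -/

theorem PE.lint_le {κ : Type} [Countable κ] {μ : Measure ℂ} (U : Set ℂ)
    (g : ℂ → ℝ≥0∞) (R : κ → Set ℂ) (f : κ → ℂ → ℝ≥0∞) (hf : ∀ n, Measurable (f n))
    (h : ∀ z ∈ U, g z = 0 ∨ ∃ n, z ∈ R n ∧ g z ≤ f n z) :
    ∫⁻ z in U, g z ∂μ ≤ ∑' n, ∫⁻ z in R n, f n z ∂μ := by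
  obtain ⟨s, hs, hsg, heq⟩ := exists_measurable_le_lintegral_eq (μ := μ.restrict U) g
  rw [heq]
  set A : Set ℂ := {z | s z ≠ 0} with hA
  have hAm : MeasurableSet A := by
    have : A = s ⁻¹' {0}ᶜ := by ext z; simp [hA]
    rw [this]; exact hs (measurableSet_singleton 0).compl
  have h1 : ∫⁻ z in U, s z ∂μ = ∫⁻ z in A ∩ U, s z ∂μ := by
    have e : s = A.indicator s := by
      ext z; by_cases hz : s z = 0
      · simp [hz, Set.indicator]
      · simp [Set.indicator, hA, hz]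
    rw [← Measure.restrict_restrict hAm, ← lintegral_indicator hAm, ← e]
  rw [h1]
  set R' : κ → Set ℂ := fun n => R n ∩ {z | g z ≤ f n z} with hR'
  have h2 : A ∩ U ⊆ ⋃ n, R' n := by
    rintro z ⟨hz, hzU⟩
    rcases h z hzU with h0 | ⟨n, hn, hgn⟩
    · exact absurd (le_antisymm (h0 ▸ hsg z) (zero_le)) hz
    · exact mem_iUnion.2 ⟨n, hn, hgn⟩
  calc ∫⁻ z in A ∩ U, s z ∂μ ≤ ∫⁻ z in ⋃ n, R' n, s z ∂μ := lintegral_mono_set h2
    _ ≤ ∑' n, ∫⁻ z in R' n, s z ∂μ := lintegral_iUnion_le _ _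
    _ ≤ ∑' n, ∫⁻ z in R n, f n z ∂μ := by
      refine ENNReal.tsum_le_tsum fun n => ?_
      calc ∫⁻ z in R' n, s z ∂μ ≤ ∫⁻ z in R' n, f n z ∂μ :=
            setLIntegral_mono (hf n) (fun z hz => (hsg z).trans hz.2)
        _ ≤ ∫⁻ z in R n, f n z ∂μ := lintegral_mono_set inter_subset_left

namespace Surf

variable {S : Surf}

/-! ### Chains -/

theorem len_nonnegE (n : ℕ) (p : ℕ → E3) : 0 ≤ len n p :=
  Finset.sum_nonneg fun _ _ => dist_nonneg

theorem dist_le_lenE (n : ℕ) (p : ℕ → E3) : dist (p 0) (p n) ≤ len n p := by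
  induction n with
  | zero => simp [len]
  | succ n ih =>
    have : len (n + 1) p = len n p + dist (p n) (p (n + 1)) := by simp [len, Finset.sum_range_succ]
    rw [this]
    exact (dist_triangle _ (p n) _).trans (by gcongr)

theorem len_add (m n : ℕ) (p : ℕ → E3) :
    len (m + n) p = len m p + len n (fun k => p (m + k)) := by
  simp only [len, Finset.sum_range_add]
  rfl

theorem len_pos {n : ℕ} {p : ℕ → E3} (hn : 0 < n) (h : ∀ k, k < n → p k ≠ p (k + 1)) :
    0 < len n p :=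
  Finset.sum_pos (fun k hk => dist_pos.2 (h k (Finset.mem_range.1 hk)))
    ⟨0, Finset.mem_range.2 hn⟩

theorem rho_leE {Z : Set E3} {x : E3} {n : ℕ} {p : ℕ → E3} {g : ℕ → S.ι}
    (h : S.IsChain n p g) (h0 : p 0 ∈ Z) (hn : p n = x) :
    S.rho Z x ≤ ENNReal.ofReal (len n p) := by
  unfold rho
  exact iInf_le_of_le n (iInf_le_of_le p (iInf_le_of_le g (iInf_le_of_le ⟨h, h0, hn⟩ le_rfl)))

/-- concatenation of chains -/
theorem rho_le_add {Z : Set E3} {x y : E3} {n : ℕ} {p : ℕ → E3} {g : ℕ → S.ι}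
    (h : S.IsChain n p g) (h0 : p 0 = y) (hn : p n = x) :
    S.rho Z x ≤ S.rho Z y + ENNReal.ofReal (len n p) := by
  rw [rho.eq_1 S Z y, ENNReal.iInf_add]
  refine le_iInf fun n' => ?_
  rw [ENNReal.iInf_add]
  refine le_iInf fun p' => ?_
  rw [ENNReal.iInf_add]
  refine le_iInf fun g' => ?_
  rw [ENNReal.iInf_add]
  refine le_iInf fun h' => ?_
  obtain ⟨hc, hz, he⟩ := h'
  rw [← ENNReal.ofReal_add (len_nonnegE _ _) (len_nonnegE _ _)]
  set q : ℕ → E3 := fun k => if k ≤ n' then p' k else p (k - n') with hq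
  set w : ℕ → S.ι := fun k => if k < n' then g' k else g (k - n') with hw
  have q1 : ∀ k, k ≤ n' → q k = p' k := fun k hk => by simp [hq, hk]
  have q2 : ∀ k, q (n' + k) = p k := fun k => by
    rcases Nat.eq_zero_or_pos k with rfl | hk
    · simp [hq, he, h0]
    · have : ¬ n' + k ≤ n' := by omega
      simp [hq, this]
  have hchain : S.IsChain (n' + n) q w := by
    intro k hk
    by_cases hkn : k < n'
    · rw [q1 k hkn.le, q1 (k + 1) hkn]
      simp only [hw, hkn, if_true]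
      exact hc k hkn
    · obtain ⟨j, rfl⟩ := Nat.exists_eq_add_of_le (not_lt.1 hkn)
      rw [q2 j, add_assoc, q2 (j + 1)]
      have : w (n' + j) = g j := by simp [hw]
      rw [this]
      exact h j (by omega)
  have hlen : len (n' + n) q = len n' p' + len n p := by
    rw [len_add]
    congr 1
    · refine Finset.sum_congr rfl fun k hk => ?_
      have := Finset.mem_range.1 hk
      rw [q1 k this.le, q1 (k + 1) this]
    · congr 1; ext1 k; exact q2 k
  rw [← hlen]
  exact rho_leE hchain (by rw [q1 0 (Nat.zero_le _)]; exact hz) (by rw [q2]; exact hn)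

theorem rho_le_face {Z : Set E3} {x y : E3} {j : S.ι} (hx : x ∈ S.F j) (hy : y ∈ S.F j) :
    S.rho Z x ≤ S.rho Z y + ENNReal.ofReal (dist y x) := by
  have := rho_le_add (S := S) (Z := Z) (x := x) (y := y) (n := 1)
    (p := fun k => if k = 0 then y else x) (g := fun _ => j)
    (by intro k hk; obtain rfl : k = 0 := by omega
        simp [hx, hy]) (by simp) (by simp)
  simpa [len] using this

/-! ### Inverse charts -/

theorem inv_mem {j : S.ι} {z : ℂ} (hz : z ∈ S.C j) : S.inv j z ∈ S.F j :=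
  Function.invFunOn_mem (by simpa [C] using hz)

theorem ch_inv {j : S.ι} {z : ℂ} (hz : z ∈ S.C j) : S.ch j (S.inv j z) = z :=
  Function.invFunOn_eq (by simpa [C] using hz)

theorem dist_inv {j : S.ι} {z w : ℂ} (hz : z ∈ S.C j) (hw : w ∈ S.C j) :
    dist (S.inv j z) (S.inv j w) = dist z w := by
  rw [← S.ch_iso j _ (inv_mem hz) _ (inv_mem hw), ch_inv hz, ch_inv hw]

theorem isCompact_C (j : S.ι) : IsCompact (S.C j) :=
  (S.compact j).image (S.ch j).continuous_of_finiteDimensional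

theorem convex_C (j : S.ι) : Convex ℝ (S.C j) := (S.convex j).affine_image (S.ch j)

theorem lip_toReal (Z : Set E3) (j : S.ι) :
    LipschitzOnWith 1 (fun z => (S.rho Z (S.inv j z)).toReal) (S.C j) := by
  refine LipschitzOnWith.of_dist_le_mul fun z hz w hw => ?_
  have key : ∀ z ∈ S.C j, ∀ w ∈ S.C j,
      (S.rho Z (S.inv j z)).toReal ≤ (S.rho Z (S.inv j w)).toReal + dist z w := by
    intro z hz w hw
    have h1 := rho_le_face (S := S) (Z := Z) (inv_mem hz) (inv_mem hw)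
    have h2 := rho_le_face (S := S) (Z := Z) (inv_mem hw) (inv_mem hz)
    rw [dist_inv hw hz] at h1
    rw [dist_inv hz hw] at h2
    by_cases ht : S.rho Z (S.inv j w) = ⊤
    · have : S.rho Z (S.inv j z) = ⊤ := by
        by_contra hne
        rw [ht, top_le_iff] at h2
        exact (ENNReal.add_ne_top.2 ⟨hne, ENNReal.ofReal_ne_top⟩) h2
      simp [this, ht]
    · have := ENNReal.toReal_mono (ENNReal.add_ne_top.2 ⟨ht, ENNReal.ofReal_ne_top⟩) h1
      rwa [ENNReal.toReal_add ht ENNReal.ofReal_ne_top, ENNReal.toReal_ofReal dist_nonneg,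
        dist_comm w z] at this
  rw [Real.dist_eq, abs_le]
  have h1 := key z hz w hw
  have h2 := key w hw z hz
  rw [dist_comm w z] at h2
  simp only [NNReal.coe_one, one_mul]
  constructor <;> linarith

open Classical in
/-- distance function to `v` in the chart of `j` -/
noncomputable def LL (S : Surf) (Z : Set E3) (v : E3) (j : S.ι) : ℂ → ℝ :=
  (S.C j).piecewise (fun z => (S.rho Z (S.inv j z)).toReal - (S.rho Z v).toReal) 0

theorem measurable_LL (Z : Set E3) (v : E3) (j : S.ι) : Measurable (S.LL Z v j) := by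
  classical
  unfold LL
  refine ContinuousOn.measurable_piecewise ?_ continuousOn_const (isCompact_C j).measurableSet
  exact (lip_toReal Z j).continuousOn.sub continuousOn_const

theorem LL_eq {Z : Set E3} {v : E3} {j : S.ι} {z : ℂ} (hz : z ∈ S.C j) :
    S.LL Z v j z = (S.rho Z (S.inv j z)).toReal - (S.rho Z v).toReal := by
  simp [LL, Set.piecewise, hz]

theorem countable_V (S : Surf) : S.V.Countable := by
  have : S.V = ⋃ N : ℕ, S.V ∩ Metric.closedBall 0 (N : ℝ) := by
    rw [← inter_iUnion]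
    have : (⋃ N : ℕ, Metric.closedBall (0 : E3) (N : ℝ)) = univ := by
      refine eq_univ_of_forall fun x => mem_iUnion.2 ?_
      obtain ⟨N, hN⟩ := exists_nat_ge ‖x‖
      exact ⟨N, by simpa using hN⟩
    rw [this, inter_univ]
  rw [this]
  exact countable_iUnion fun N => (S.V_locFin N).countable

/-! ### The pointwise statement -/

/-- a point in the interior of a face lies in `Reach` of the last vertex of a shortest chain -/
theorem exists_reach (hA : StPA) (hB : StPB) (Q : S.Glue) (Z : Set E3) (hZ : Z ⊆ S.V)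
    (T : {v // v ∈ S.V ∧ S.rho Z v < ⊤} → ℕ → Set ℝ)
    (hT : ∀ v : {v // v ∈ S.V ∧ S.rho Z v < ⊤},
      ∀ (n : ℕ) (p : ℕ → E3) (g : ℕ → S.ι), 0 < n → S.IsChain n p g → p 0 = v.1 →
      (∀ k, k < n → p k ≠ p (k + 1)) →
      S.rho Z (p n) = S.rho Z v.1 + ENNReal.ofReal (Surf.len n p) →
      ∃ k, k < (S.fan v.1 v.2.1).m ∧ ∃ t ∈ T v k, g 0 = (S.fan v.1 v.2.1).f k ∧
        (S.fan v.1 v.2.1).IsDir k t (‖p 1 - v.1‖⁻¹ • (p 1 - v.1)))
    (i : S.ι) (z : ℂ) (hz : z ∈ interior (S.C i)) (hfin : S.rho Z (S.inv i z) < ⊤) :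
    ∃ (v : {v // v ∈ S.V ∧ S.rho Z v < ⊤}) (k : ℕ), k < (S.fan v.1 v.2.1).m ∧
      z ∈ Q.Reach (S.fan v.1 v.2.1) k (T v k) (S.LL Z v.1) i ∧
      0 < S.LL Z v.1 i z ∧
      S.rho Z (S.inv i z) = S.rho Z v.1 + ENNReal.ofReal (S.LL Z v.1 i z) ∧
      dist v.1 (S.inv i z) ≤ S.LL Z v.1 i z := by
  have hzC : z ∈ S.C i := interior_subset hz
  set x := S.inv i z with hx
  have hxF : x ∈ S.F i := inv_mem hzC
  have hxz : S.ch i x = z := ch_inv hzC
  have hxV : x ∉ S.V := fun hV => S.V_int x hV i hxF (by rw [hxz]; exact hz)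
  obtain ⟨n, p, g, hmin, hinj⟩ := hA S Z hZ x hfin
  obtain ⟨hch, hp0, hpn, hlen, hne⟩ := hmin
  have hn0 : 0 < n := by
    rcases Nat.eq_zero_or_pos n with rfl | h
    · exact absurd (hZ (hpn ▸ hp0)) hxV
    · exact h
  -- last vertex
  classical
  set K := Nat.findGreatest (fun k => p k ∈ S.V) n with hK
  have hKV : p K ∈ S.V := by
    have := Nat.findGreatest_spec (P := fun k => p k ∈ S.V) (m := 0) (n := n)
      (Nat.zero_le _) (hZ hp0)
    exact this
  have hKle : K ≤ n := Nat.findGreatest_le n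
  have hKn : K < n := by
    rcases hKle.lt_or_eq with h | h
    · exact h
    · exact absurd (h ▸ hKV : p n ∈ S.V) (hpn ▸ hxV)
  have hKgt : ∀ k, K < k → k ≤ n → p k ∉ S.V := fun k hk hkn =>
    Nat.findGreatest_is_greatest hk hkn
  obtain ⟨n', hn'⟩ := Nat.exists_eq_add_of_le hKle
  have hn'0 : 0 < n' := by omega
  set p' : ℕ → E3 := fun k => p (K + k) with hp'
  set g' : ℕ → S.ι := fun k => g (K + k) with hg'
  have hlen2 : len n p = len K p + len n' p' := by rw [hn', len_add]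
  have hch1 : S.IsChain K p g := fun k hk => hch k (by omega)
  have hch2 : S.IsChain n' p' g' := fun k hk => by
    have := hch (K + k) (by omega)
    simpa [hp', hg', add_assoc] using this
  have hne2 : ∀ k, k < n' → p' k ≠ p' (k + 1) := fun k hk => by
    have := hne (K + k) (by omega)
    simpa [hp', add_assoc] using this
  have hpn' : p' n' = x := by simp only [hp']; rw [← hn', hpn]
  have hpos : 0 < len n' p' := len_pos hn'0 hne2
  have r1 : S.rho Z (p K) ≤ ENNReal.ofReal (len K p) := rho_leE hch1 hp0 rfl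
  have r2 : S.rho Z x ≤ S.rho Z (p K) + ENNReal.ofReal (len n' p') :=
    rho_le_add hch2 (by simp [hp']) hpn'
  have r3 : S.rho Z (p K) = ENNReal.ofReal (len K p) := by
    refine le_antisymm r1 ?_
    rw [← hlen, hlen2, ENNReal.ofReal_add (len_nonnegE _ _) (len_nonnegE _ _)] at r2
    exact (ENNReal.add_le_add_iff_right ENNReal.ofReal_ne_top).1 r2
  have r4 : S.rho Z x = S.rho Z (p K) + ENNReal.ofReal (len n' p') := by
    rw [← hlen, hlen2, ENNReal.ofReal_add (len_nonnegE _ _) (len_nonnegE _ _), r3]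
  have hKfin : S.rho Z (p K) < ⊤ := by rw [r3]; exact ENNReal.ofReal_lt_top
  set v : {v // v ∈ S.V ∧ S.rho Z v < ⊤} := ⟨p K, hKV, hKfin⟩ with hv
  have hLL : S.LL Z v.1 i z = len n' p' := by
    rw [LL_eq hzC, ← hx, r4, ENNReal.toReal_add hKfin.ne ENNReal.ofReal_ne_top,
      ENNReal.toReal_ofReal hpos.le]
    simp [hv]
  obtain ⟨k, hk, t, ht, hg0, hdir⟩ := hT v n' p' g' hn'0 hch2 (by simp [hp', hv]) hne2
    (by rw [hpn']; exact r4)
  refine ⟨v, k, hk, ?_, by rw [hLL]; exact hpos, by rw [hLL]; exact r4, ?_⟩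
  · refine ⟨hz, n', p', g', t, ?_, by simp [hp', hv], hg0, ?_, ?_, hLL.symm, ht, hdir⟩
    · refine ⟨hn'0, hch2, hne2, fun l hl => ⟨?_, ?_, ?_⟩⟩
      · intro h
        have := hinj (K + l) (K + (l + 1)) (by omega) (by omega) h
        omega
      · exact hKgt (K + (l + 1)) (by omega) (by omega)
      · have := hB S Q Z x n p g ⟨hch, hp0, hpn, hlen, hne⟩ (K + l) (by omega)
          (fun h => by
            have := hinj (K + l) (K + l + 1) (by omega) (by omega) h
            omega)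
          (hKgt (K + l + 1) (by omega) (by omega))
        simpa [hp', hg', add_assoc] using this
    · -- the last face is `i`
      by_contra hne'
      have hxg : x ∈ S.F (g' (n' - 1)) := by
        have := (hch2 (n' - 1) (by omega)).2
        rwa [Nat.sub_add_cancel hn'0, hpn'] at this
      obtain ⟨a, -, b, -, -, -, hxo, hint⟩ := S.meet i (g' (n' - 1)) (Ne.symm hne') x
        ⟨hxF, hxg⟩ hxV
      exact (hint x hxo).2.1 (by rw [hxz]; exact hz)
    · rw [hpn', hxz]
  · rw [hLL, ← hpn']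
    have := dist_le_lenE n' p'
    simpa [hp', hv] using this

end Surf

/-- PE: the area inequality -/
theorem PE : StPE := by
  intro hPT hA hB hC hV hD S Z hZ Ψ Φ hΦ hΨ hbd
  obtain ⟨Q⟩ := hPT S
  have hV' : ∀ v : {v // v ∈ S.V ∧ S.rho Z v < ⊤}, _ := fun v => hV hA hC S Z hZ v.1 v.2.1 v.2.2
  choose T hT1 hT2 hT3 using hV'
  have : Countable S.V := (S.countable_V).to_subtype
  have : Countable {v // v ∈ S.V ∧ S.rho Z v < ⊤} :=
    Function.Injective.countable (f := fun v => (⟨v.1, v.2.1⟩ : S.V))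
      (fun a b h => Subtype.ext (by simpa using h))
  -- one face
  have hface : ∀ i : S.ι, ∫⁻ z in S.C i, Ψ (S.inv i z) ≤
      ∑' v : {v // v ∈ S.V ∧ S.rho Z v < ⊤}, ∑ k ∈ Finset.range (S.fan v.1 v.2.1).m,
        ∫⁻ z in Q.Reach (S.fan v.1 v.2.1) k (T v k) (S.LL Z v.1) i, Φ v.1 (S.LL Z v.1 i z) := by
    intro i
    have hae : (S.C i : Set ℂ) =ᵐ[volume] interior (S.C i) := by
      have h0 : volume (frontier (S.C i)) = 0 := (S.convex_C i).addHaar_frontier volume
      refine (ae_eq_set.2 ⟨measure_mono_null ?_ h0, ?_⟩)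
      · rw [(Surf.isCompact_C i).isClosed.frontier_eq]
      · rw [Set.sdiff_eq_empty.2 interior_subset]; simp
    rw [Measure.restrict_congr_set hae]
    have := PE.lint_le (κ := Σ v : {v // v ∈ S.V ∧ S.rho Z v < ⊤}, Fin (S.fan v.1 v.2.1).m)
      (μ := volume) (interior (S.C i)) (fun z => Ψ (S.inv i z))
      (fun n => Q.Reach (S.fan n.1.1 n.1.2.1) n.2 (T n.1 n.2) (S.LL Z n.1.1) i)
      (fun n z => Φ n.1.1 (S.LL Z n.1.1 i z))
      (fun n => (hΦ n.1.1).comp (Surf.measurable_LL Z n.1.1 i)) ?_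
    · refine this.trans (le_of_eq ?_)
      rw [ENNReal.tsum_sigma']
      refine tsum_congr fun v => ?_
      rw [tsum_fintype, Finset.sum_range]
    · intro z hz
      by_cases hfin : S.rho Z (S.inv i z) = ⊤
      · exact Or.inl (hΨ _ hfin)
      · obtain ⟨v, k, hk, hR, hpos, hrho, hdist⟩ := Surf.exists_reach hA hB Q Z hZ T hT3 i z hz
          (lt_top_iff_ne_top.2 hfin)
        refine Or.inr ⟨⟨v, ⟨k, hk⟩⟩, hR, ?_⟩
        exact hbd v.1 v.2.1 v.2.2 _ _ hpos hrho hdist
  calc ∑' i : S.ι, ∫⁻ z in S.C i, Ψ (S.inv i z)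
      ≤ ∑' i : S.ι, ∑' v : {v // v ∈ S.V ∧ S.rho Z v < ⊤},
          ∑ k ∈ Finset.range (S.fan v.1 v.2.1).m,
          ∫⁻ z in Q.Reach (S.fan v.1 v.2.1) k (T v k) (S.LL Z v.1) i,
            Φ v.1 (S.LL Z v.1 i z) := ENNReal.tsum_le_tsum hface
    _ = ∑' v : {v // v ∈ S.V ∧ S.rho Z v < ⊤}, ∑ k ∈ Finset.range (S.fan v.1 v.2.1).m,
          ∑' i : S.ι, ∫⁻ z in Q.Reach (S.fan v.1 v.2.1) k (T v k) (S.LL Z v.1) i,
            Φ v.1 (S.LL Z v.1 i z) := by
        rw [ENNReal.tsum_comm]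
        refine tsum_congr fun v => ?_
        rw [Summable.tsum_finsetSum (fun _ _ => ENNReal.summable)]
    _ ≤ ∑' v : {v // v ∈ S.V ∧ S.rho Z v < ⊤}, ENNReal.ofReal (S.β Z v) *
          ∫⁻ r in Ioi (0 : ℝ), Φ v r * ENNReal.ofReal r := by
        refine ENNReal.tsum_le_tsum fun v => ?_
        calc ∑ k ∈ Finset.range (S.fan v.1 v.2.1).m,
              ∑' i : S.ι, ∫⁻ z in Q.Reach (S.fan v.1 v.2.1) k (T v k) (S.LL Z v.1) i,
                Φ v.1 (S.LL Z v.1 i z)
            ≤ ∑ k ∈ Finset.range (S.fan v.1 v.2.1).m, volume (T v k) *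
                ∫⁻ r in Ioi (0 : ℝ), Φ v r * ENNReal.ofReal r := by
              refine Finset.sum_le_sum fun k hk => ?_
              exact hD S Q v.1 v.2.1 (S.fan v.1 v.2.1) k (T v k) (hT1 v k).1 (hT1 v k).2
                (S.LL Z v.1) (Φ v.1) (hΦ v.1)
          _ = (∑ k ∈ Finset.range (S.fan v.1 v.2.1).m, volume (T v k)) *
                ∫⁻ r in Ioi (0 : ℝ), Φ v r * ENNReal.ofReal r := by rw [Finset.sum_mul]
          _ ≤ _ := by gcongr; exact hT2 v

end Vale.Agent.P134.PS
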