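import Vale.Agent.P134.PS.Defs

/-! Block PT: gluing isometries exist. -/

open MeasureTheory Set
open scoped ENNReal RealInnerProductSpace Real

namespace Vale.Agent.P134.PS

/-- supporting line of a convex set at an interior point of a chord that lies on the boundary -/
theorem PT_support {K : Set ℂ} (hK : Convex ℝ K) (hi : (interior K).Nonempty) {A B y : ℂ}
    (hA : A ∈ K) (hB : B ∈ K) (hy : y ∈ openSegment ℝ A B) (hyi : y ∉ interior K) :
    ∃ ν : ℂ, ‖ν‖ = 1 ∧ (∀ z ∈ K, inner ℝ ν z ≤ inner ℝ ν A) ∧ inner ℝ ν B = inner ℝ ν A := by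
  obtain ⟨f, hf⟩ := geometric_hahn_banach_open_point hK.interior isOpen_interior hyi
  set ν' := (InnerProductSpace.toDual ℝ ℂ).symm f with hν'
  have hin : ∀ z, inner ℝ ν' z = f z := fun z => InnerProductSpace.toDual_symm_apply
  have hle : ∀ z ∈ K, f z ≤ f y := by
    intro z hz
    have h1 : z ∈ closure (interior K) := by
      rw [hK.closure_interior_eq_closure_of_nonempty_interior hi]
      exact subset_closure hz
    have h2 : closure (interior K) ⊆ {z | f z ≤ f y} :=
      closure_minimal (fun z hz => (hf z hz).le) (isClosed_le f.continuous continuous_const)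
    exact h2 h1
  have hAB : f A = f y ∧ f B = f y := by
    obtain ⟨s, t, hs, ht, hst, rfl⟩ := hy
    have h1 := hle A hA
    have h2 := hle B hB
    rw [map_add, map_smul, map_smul, smul_eq_mul, smul_eq_mul] at *
    have hs' : s = 1 - t := by linarith
    subst hs'
    constructor <;> nlinarith
  have hne : ν' ≠ 0 := by
    intro h0
    obtain ⟨z, hz⟩ := hi
    have h1 := hf z hz
    rw [← hin, ← hin, h0, inner_zero_left, inner_zero_left] at h1
    exact lt_irrefl _ h1
  have hpos : 0 < ‖ν'‖⁻¹ := inv_pos.mpr (norm_pos_iff.mpr hne)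
  refine ⟨‖ν'‖⁻¹ • ν', ?_, ?_, ?_⟩
  · rw [norm_smul, norm_inv, norm_norm, inv_mul_cancel₀ (norm_ne_zero_iff.mpr hne)]
  · intro z hz
    rw [real_inner_smul_left, real_inner_smul_left, hin, hin, hAB.1]
    exact mul_le_mul_of_nonneg_left (hle z hz) hpos.le
  · rw [real_inner_smul_left, real_inner_smul_left, hin, hin, hAB.1, hAB.2]

/-- an orthonormal basis of the plane from an orthonormal pair -/
theorem PT_basis {u v : ℂ} (hu : ‖u‖ = 1) (hv : ‖v‖ = 1) (huv : inner ℝ u v = 0) :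
    ∃ b : OrthonormalBasis (Fin 2) ℝ ℂ, b 0 = u ∧ b 1 = v := by
  have hon : Orthonormal ℝ ![u, v] := by
    rw [orthonormal_iff_ite]
    intro i j
    fin_cases i <;> fin_cases j <;> simp [hu, hv, huv, real_inner_comm]
  have hsp : ⊤ ≤ Submodule.span ℝ (Set.range ![u, v]) := by
    refine (LinearIndependent.span_eq_top_of_card_eq_finrank hon.linearIndependent ?_).ge
    rw [Complex.finrank_real_complex]
    simp
  exact ⟨OrthonormalBasis.mk hon hsp, by simp, by simp⟩

/-- the isometry that maps one pair of points to another one and one unit normal to another -/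
theorem PT_isometry {A B A' B' ν ν' : ℂ} (hAB : A ≠ B) (hd : dist A' B' = dist A B)
    (hν : ‖ν‖ = 1) (hν' : ‖ν'‖ = 1) (h1 : inner ℝ ν B = inner ℝ ν A)
    (h2 : inner ℝ ν' B' = inner ℝ ν' A') :
    ∃ T : ℂ ≃ᵢ ℂ, (∀ t : ℝ, T (A' + t • (B' - A')) = A + t • (B - A)) ∧
      ∀ z, inner ℝ ν (T z) = inner ℝ ν A - (inner ℝ ν' z - inner ℝ ν' A') := by
  have hdp : 0 < dist A B := dist_pos.mpr hAB
  set d := dist A B with hdd
  have n1 : ‖B - A‖ = d := by rw [hdd, dist_comm, dist_eq_norm]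
  have n2 : ‖B' - A'‖ = d := by rw [← hd, dist_comm, dist_eq_norm]
  obtain ⟨b1, hb10, hb11⟩ := PT_basis (u := d⁻¹ • (B' - A')) (v := ν')
    (by rw [norm_smul, n2, Real.norm_eq_abs, abs_of_pos (inv_pos.mpr hdp),
      inv_mul_cancel₀ hdp.ne']) hν'
    (by rw [real_inner_smul_left, real_inner_comm, inner_sub_right, h2, sub_self, mul_zero])
  obtain ⟨b2, hb20, hb21⟩ := PT_basis (u := d⁻¹ • (B - A)) (v := -ν)
    (by rw [norm_smul, n1, Real.norm_eq_abs, abs_of_pos (inv_pos.mpr hdp),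
      inv_mul_cancel₀ hdp.ne']) (by rw [norm_neg, hν])
    (by rw [real_inner_smul_left, inner_neg_right, real_inner_comm, inner_sub_right, h1, sub_self,
      neg_zero, mul_zero])
  set L : ℂ ≃ₗᵢ[ℝ] ℂ := b1.equiv b2 (Equiv.refl _) with hL
  have hL0 : L (d⁻¹ • (B' - A')) = d⁻¹ • (B - A) := by
    rw [← hb10, ← hb20, hL]; simp
  have hL1 : L ν' = -ν := by
    rw [← hb11, ← hb21, hL]; simp
  have hL2 : L (B' - A') = B - A := by
    have := congrArg (fun z => d • z) hL0
    rwa [← map_smul, smul_smul, smul_smul, mul_inv_cancel₀ hdp.ne', one_smul, one_smul] at this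
  refine ⟨(IsometryEquiv.subRight A').trans (L.toIsometryEquiv.trans (IsometryEquiv.addRight A)),
    ?_, ?_⟩
  · intro t
    change L (A' + t • (B' - A') - A') + A = _
    rw [add_sub_cancel_left, map_smul, hL2, add_comm]
  · intro z
    change inner ℝ ν (L (z - A') + A) = _
    have h3 : inner ℝ ν (L (z - A')) = - inner ℝ ν' (z - A') := by
      have h4 := L.inner_map_map ν' (z - A')
      rw [hL1, inner_neg_left] at h4
      linarith
    rw [inner_add_right, h3, inner_sub_right]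
    ring

namespace Surf

variable (S : Surf)

theorem PT_exists (i j : S.ι) (h : S.Adj i j) : ∃ T : ℂ ≃ᵢ ℂ,
    (∀ x ∈ S.F i ∩ S.F j, T (S.ch j x) = S.ch i x) ∧
    ∃ ν : ℂ, ‖ν‖ = 1 ∧ ∃ c : ℝ,
    (∀ x ∈ S.F i, inner ℝ ν (S.ch i x) ≤ c) ∧
    (∀ x ∈ S.F j, c ≤ inner ℝ ν (T (S.ch j x))) ∧
    (∀ x ∈ S.F i ∩ S.F j, inner ℝ ν (S.ch i x) = c) := by
  obtain ⟨hij, x, hx, hxV⟩ := h
  obtain ⟨a, -, b, -, hab, hseg, hxo, hopen⟩ := S.meet i j hij x hx hxV
  have ha : a ∈ S.F i ∩ S.F j := by rw [hseg]; exact left_mem_segment ℝ a b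
  have hb : b ∈ S.F i ∩ S.F j := by rw [hseg]; exact right_mem_segment ℝ a b
  obtain ⟨-, hxi, hxj, -⟩ := hopen x hxo
  have himg : ∀ (k : S.ι), S.ch k x ∈ openSegment ℝ (S.ch k a) (S.ch k b) := by
    intro k
    rw [← image_openSegment]
    exact mem_image_of_mem _ hxo
  obtain ⟨ν, hν, hνle, hνeq⟩ := PT_support ((S.convex i).affine_image (S.ch i)) (S.ch_int i)
    (mem_image_of_mem _ ha.1) (mem_image_of_mem _ hb.1) (himg i) hxi
  obtain ⟨ν', hν', hνle', hνeq'⟩ := PT_support ((S.convex j).affine_image (S.ch j)) (S.ch_int j)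
    (mem_image_of_mem _ ha.2) (mem_image_of_mem _ hb.2) (himg j) hxj
  have hne : S.ch i a ≠ S.ch i b := by
    intro h
    apply hab
    rw [← dist_eq_zero, ← S.ch_iso i a ha.1 b hb.1, h, dist_self]
  obtain ⟨T, hT1, hT2⟩ := PT_isometry hne
    ((S.ch_iso j a ha.2 b hb.2).trans (S.ch_iso i a ha.1 b hb.1).symm) hν hν' hνeq hνeq'
  have hpar : ∀ y ∈ S.F i ∩ S.F j, ∃ t : ℝ, ∀ k, S.ch k y = S.ch k a + t • (S.ch k b - S.ch k a) := by
    intro y hy
    rw [hseg, segment_eq_image_lineMap] at hy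
    obtain ⟨t, -, rfl⟩ := hy
    refine ⟨t, fun k => ?_⟩
    rw [AffineMap.apply_lineMap, AffineMap.lineMap_apply, vsub_eq_sub, vadd_eq_add, add_comm]
  refine ⟨T, ?_, ν, hν, inner ℝ ν (S.ch i a), ?_, ?_, ?_⟩
  · intro y hy
    obtain ⟨t, ht⟩ := hpar y hy
    rw [ht j, ht i, hT1]
  · intro y hy
    exact hνle _ (mem_image_of_mem _ hy)
  · intro y hy
    rw [hT2]
    have := hνle' _ (mem_image_of_mem _ hy)
    linarith
  · intro y hy
    obtain ⟨t, ht⟩ := hpar y hy
    rw [ht i, inner_add_right, inner_smul_right, inner_sub_right, hνeq]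
    ring

end Surf

theorem PT : StPT := by
  intro S
  classical
  refine ⟨{
    T := fun i j => if h : S.Adj i j then (S.PT_exists i j h).choose else IsometryEquiv.refl ℂ
    T_edge := ?_
    side := ?_ }⟩
  · intro i j h x hx
    rw [dif_pos h]
    exact (S.PT_exists i j h).choose_spec.1 x hx
  · intro i j h
    rw [dif_pos h]
    exact (S.PT_exists i j h).choose_spec.2

end Vale.Agent.P134.PS
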