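import Vale.Agent.P134.PS.Defs

/-!
# P134 / PS / block PV : allowed directions at a vertex
-/

open MeasureTheory Set
open scoped ENNReal NNReal RealInnerProductSpace Real

namespace Vale.Agent.P134.PS

namespace Fan

variable {ι : Type} {F : ι → Set E3} {v : E3}

theorem α_nonneg (c : Fan F v) (k : ℕ) : 0 ≤ c.α k := InnerProductGeometry.angle_nonneg _ _

theorem A_zero (c : Fan F v) : c.A 0 = 0 := by simp [A]

theorem A_succ (c : Fan F v) (k : ℕ) : c.A (k + 1) = c.A k + c.α k := by
  simp [A, Finset.sum_range_succ]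

theorem A_mono (c : Fan F v) : Monotone c.A :=
  monotone_nat_of_le_succ fun k => by
    rw [A_succ]; linarith [c.α_nonneg k]

theorem α_per (c : Fan F v) (k : ℕ) : c.α (k + c.m) = c.α k := by
  unfold α
  rw [c.d_per, show k + c.m + 1 = (k + 1) + c.m by ring, c.d_per]

theorem A_per (c : Fan F v) (k : ℕ) : c.A (k + c.m) = c.A k + c.θ := by
  induction k with
  | zero => simp [A_zero, θ]
  | succ k ih =>
    rw [show k + 1 + c.m = (k + c.m) + 1 by ring, A_succ, ih, A_succ, α_per]; ring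

theorem θ_nonneg (c : Fan F v) : 0 ≤ c.θ := by
  unfold θ
  rw [← c.A_zero]
  exact c.A_mono (Nat.zero_le _)

/-- the coordinate of a direction in the next turn -/
theorem IsDir.add_period {c : Fan F v} {k : ℕ} {t : ℝ} {w : E3} (h : c.IsDir k t w) :
    c.IsDir (k + c.m) (t + c.θ) w := by
  obtain ⟨h1, ⟨a, b, ha, hb, hw⟩, h3, h4, h5⟩ := h
  have e1 : c.d (k + c.m + 1) = c.d (k + 1) := by
    rw [show k + c.m + 1 = (k + 1) + c.m by ring, c.d_per]
  have e2 : c.A (k + c.m + 1) = c.A (k + 1) + c.θ := by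
    rw [show k + c.m + 1 = (k + 1) + c.m by ring, c.A_per]
  refine ⟨h1, ⟨a, b, ha, hb, ?_⟩, ?_, ?_, ?_⟩
  · rw [c.d_per, e1]; exact hw
  · rw [c.A_per]; linarith
  · rw [e2]; linarith
  · rw [c.d_per, c.A_per, h5]; ring

/-- a unit vector in the cone of two vectors makes a smaller angle with the first one -/
theorem angle_le_of_cone {d e w : E3} {a b : ℝ} (ha : 0 ≤ a) (hb : 0 ≤ b) (hw : w ≠ 0)
    (h : w = a • d + b • e) :
    InnerProductGeometry.angle d w ≤ InnerProductGeometry.angle d e := by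
  have hmem : w ∈ Submodule.span ℝ≥0 {d, e} := by
    rw [Submodule.mem_span_pair]
    refine ⟨⟨a, ha⟩, ⟨b, hb⟩, ?_⟩
    rw [h]; rfl
  rw [InnerProductGeometry.angle_eq_angle_add_add_angle_add_of_mem_span hw hmem]
  linarith [InnerProductGeometry.angle_nonneg w e]

/-- every direction at `v` into a face has an unrolled coordinate -/
theorem exists_isDir (c : Fan F v) (hconv : ∀ i, Convex ℝ (F i)) {i : ι} {x : E3}
    (hv : v ∈ F i) (hx : x ∈ F i) (hne : x ≠ v) :
    ∃ k < c.m, c.f k = i ∧ ∃ t, c.IsDir k t (‖x - v‖⁻¹ • (x - v)) := by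
  obtain ⟨k, hk, hki⟩ := (c.f_all i).1 hv
  have hn : 0 < ‖x - v‖ := norm_pos_iff.2 (sub_ne_zero.2 hne)
  set w : E3 := ‖x - v‖⁻¹ • (x - v) with hwdef
  have hw1 : ‖w‖ = 1 := by
    rw [hwdef, norm_smul, norm_inv, norm_norm, inv_mul_cancel₀ hn.ne']
  have hw0 : w ≠ 0 := by
    intro h; rw [h, norm_zero] at hw1; exact zero_ne_one hw1
  set ε : ℝ := min 1 (c.r / ‖x - v‖) with hε
  have hε0 : 0 < ε := lt_min one_pos (div_pos c.r_pos hn)
  have hε1 : ε ≤ 1 := min_le_left _ _
  have hε2 : ε * ‖x - v‖ ≤ c.r := by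
    have := min_le_right 1 (c.r / ‖x - v‖)
    calc ε * ‖x - v‖ ≤ c.r / ‖x - v‖ * ‖x - v‖ := by gcongr
      _ = c.r := div_mul_cancel₀ _ hn.ne'
  have hy : v + ε • (x - v) ∈ F (c.f k) := by
    rw [hki]
    exact (hconv i).add_smul_sub_mem hv hx ⟨hε0.le, hε1⟩
  have hyr : ‖v + ε • (x - v) - v‖ ≤ c.r := by
    rw [add_sub_cancel_left, norm_smul, Real.norm_of_nonneg hε0.le]; exact hε2
  obtain ⟨a, b, ha, hb, hab⟩ := (c.sector k _ hyr).1 hy
  have hab' : ε • (x - v) = a • c.d k + b • c.d (k + 1) := by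
    have : v + ε • (x - v) = v + (a • c.d k + b • c.d (k + 1)) := by rw [hab]; abel
    exact add_left_cancel this
  have hwab : w = ((ε * ‖x - v‖)⁻¹ * a) • c.d k + ((ε * ‖x - v‖)⁻¹ * b) • c.d (k + 1) := by
    rw [mul_smul, mul_smul, ← smul_add, ← hab', smul_smul, hwdef]
    congr 1
    field_simp
  have hp : 0 ≤ (ε * ‖x - v‖)⁻¹ := by positivity
  refine ⟨k, hk, hki, c.A k + InnerProductGeometry.angle (c.d k) w, hw1,
    ⟨_, _, mul_nonneg hp ha, mul_nonneg hp hb, hwab⟩, ?_, ?_, ?_⟩
  · linarith [InnerProductGeometry.angle_nonneg (c.d k) w]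
  · rw [A_succ]
    have := angle_le_of_cone (mul_nonneg hp ha) (mul_nonneg hp hb) hw0 hwab
    unfold α; linarith
  · ring

/-- the sum of the measures of pieces of consecutive intervals -/
theorem sum_volume_le (c : Fan F v) (T : ℕ → Set ℝ) (U : Set ℝ)
    (hm : ∀ k, MeasurableSet (T k)) (hT : ∀ k, T k ⊆ Icc (c.A k) (c.A (k + 1)))
    (hU : ∀ k < c.m, T k ⊆ U) :
    ∑ k ∈ Finset.range c.m, volume (T k) ≤ volume U := by
  have h1 : ∀ k, volume (T k) = volume (T k ∩ Ioc (c.A k) (c.A (k + 1))) := by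
    intro k
    apply measure_congr
    have : T k = T k ∩ Icc (c.A k) (c.A (k + 1)) := (inter_eq_left.2 (hT k)).symm
    conv_lhs => rw [this]
    exact (ae_eq_refl _).inter (Ioc_ae_eq_Icc).symm
  calc ∑ k ∈ Finset.range c.m, volume (T k)
      = ∑ k ∈ Finset.range c.m, volume (T k ∩ Ioc (c.A k) (c.A (k + 1))) := by
        exact Finset.sum_congr rfl fun k _ => h1 k
    _ = volume (⋃ k ∈ Finset.range c.m, (T k ∩ Ioc (c.A k) (c.A (k + 1)))) := by
        rw [measure_biUnion_finset]
        · intro k _ l _ hkl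
          have := c.A_mono.pairwise_disjoint_on_Ioc_succ hkl
          exact Disjoint.mono inter_subset_right inter_subset_right this
        · intro k _
          exact (hm k).inter measurableSet_Ioc
    _ ≤ volume U := by
        apply measure_mono
        intro t ht
        simp only [mem_iUnion, Finset.mem_range] at ht
        obtain ⟨k, hk, ht, -⟩ := ht
        exact hU k hk ht

end Fan

theorem measurableSet_allowed (θ s : ℝ) :
    MeasurableSet {t : ℝ | π ≤ |t - s| ∧ π ≤ θ - |t - s|} := by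
  have h1 : IsClosed {t : ℝ | π ≤ |t - s|} := isClosed_le continuous_const (by fun_prop)
  have h2 : IsClosed {t : ℝ | π ≤ θ - |t - s|} := isClosed_le continuous_const (by fun_prop)
  exact (h1.inter h2).measurableSet

/-- the measure of the set of directions with both side angles at least `π` -/
theorem volume_allowed_le {θ s : ℝ} :
    volume {t : ℝ | t ∈ Icc 0 θ ∧ π ≤ |t - s| ∧ π ≤ θ - |t - s|} ≤
      ENNReal.ofReal (max (θ - 2 * π) 0) := by
  have hπ := Real.pi_pos
  have hsub : {t : ℝ | t ∈ Icc 0 θ ∧ π ≤ |t - s| ∧ π ≤ θ - |t - s|} ⊆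
      Icc (s + π) (min θ (s + θ - π)) ∪ Icc (max 0 (s - θ + π)) (s - π) := by
    rintro t ⟨⟨h0, h1⟩, h2, h3⟩
    rcases le_total s t with h | h
    · left
      rw [abs_of_nonneg (by linarith)] at h2 h3
      exact ⟨by linarith, le_min h1 (by linarith)⟩
    · right
      rw [abs_of_nonpos (by linarith)] at h2 h3
      exact ⟨max_le h0 (by linarith), by linarith⟩
  refine (measure_mono hsub).trans ((measure_union_le _ _).trans ?_)
  rw [Real.volume_Icc, Real.volume_Icc]
  rcases le_total (min θ (s + θ - π) - (s + π)) 0 with h1 | h1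
  · rw [ENNReal.ofReal_of_nonpos h1, zero_add]
    apply ENNReal.ofReal_le_ofReal
    rcases le_total (s - π) 0 with h2 | h2
    · apply le_max_of_le_right
      linarith [le_max_left 0 (s - θ + π)]
    · rcases le_total (s - θ + π) 0 with h3 | h3
      · apply le_max_of_le_left
        rw [max_eq_left h3]
        rcases le_total θ (s + θ - π) with h4 | h4
        · rw [min_eq_left h4] at h1; linarith
        · rw [min_eq_right h4] at h1; linarith
      · apply le_max_of_le_left
        rw [max_eq_right h3]; linarith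
  · rcases le_total (s - π - max 0 (s - θ + π)) 0 with h2 | h2
    · rw [ENNReal.ofReal_of_nonpos h2, add_zero]
      apply ENNReal.ofReal_le_ofReal
      apply le_max_of_le_left
      linarith [min_le_right θ (s + θ - π)]
    · rw [← ENNReal.ofReal_add h1 h2]
      apply ENNReal.ofReal_le_ofReal
      apply le_max_of_le_left
      linarith [min_le_left θ (s + θ - π), le_max_left 0 (s - θ + π)]

namespace Surf

variable {S : Surf}

/-- concatenation of two sequences -/
def cat {α : Type} (n : ℕ) (p q : ℕ → α) : ℕ → α := fun k => if k < n then p k else q (k - n)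

theorem cat_lt {α : Type} {n k : ℕ} {p q : ℕ → α} (h : k < n) : cat n p q k = p k := by
  simp [cat, h]

theorem cat_ge {α : Type} {n k : ℕ} {p q : ℕ → α} (h : n ≤ k) : cat n p q k = q (k - n) := by
  simp [cat, not_lt.2 h]

theorem cat_le {α : Type} {n k : ℕ} {p q : ℕ → α} (h : k ≤ n) (hpq : p n = q 0) :
    cat n p q k = p k := by
  rcases h.lt_or_eq with h | rfl
  · exact cat_lt h
  · rw [cat_ge le_rfl, Nat.sub_self, hpq]

theorem isChain_cat {n n' : ℕ} {p p' : ℕ → E3} {g g' : ℕ → S.ι} (h : S.IsChain n p g)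
    (h' : S.IsChain n' p' g') (hpp : p n = p' 0) :
    S.IsChain (n + n') (cat n p p') (cat n g g') := by
  intro k hk
  rcases lt_or_ge k n with hkn | hkn
  · rw [cat_le hkn.le hpp, cat_le (show k + 1 ≤ n from hkn) hpp, cat_lt hkn]
    exact h k hkn
  · rw [cat_ge hkn, cat_ge (show n ≤ k + 1 by omega), cat_ge hkn,
      show k + 1 - n = k - n + 1 by omega]
    exact h' (k - n) (by omega)

theorem len_cat {n n' : ℕ} {p p' : ℕ → E3} (hpp : p n = p' 0) :
    len (n + n') (cat n p p') = len n p + len n' p' := by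
  unfold len
  rw [Finset.sum_range_add]
  congr 1
  · apply Finset.sum_congr rfl
    intro k hk
    have hk' := Finset.mem_range.1 hk
    rw [cat_le hk'.le hpp, cat_le (show k + 1 ≤ n from hk') hpp]
  · apply Finset.sum_congr rfl
    intro k _
    rw [cat_ge (Nat.le_add_right n k), cat_ge (by omega), Nat.add_sub_cancel_left,
      show n + k + 1 - n = k + 1 by omega]

theorem len_nonnegV (n : ℕ) (p : ℕ → E3) : 0 ≤ len n p :=
  Finset.sum_nonneg fun _ _ => dist_nonneg

/-- PC with the vertex as a variable -/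
theorem angle_ge (hPC : StPC) {Z : Set E3} {x : E3} {n : ℕ} {p : ℕ → E3} {g : ℕ → S.ι}
    (hmin : S.Min Z x n p g) {k : ℕ} (hk : k + 1 < n) {v : E3} (hv : p (k + 1) = v)
    (c : Fan S.F v) {a b : ℕ} {s t : ℝ}
    (h1 : c.IsDir a s (‖p k - v‖⁻¹ • (p k - v)))
    (h2 : c.IsDir b t (‖p (k + 2) - v‖⁻¹ • (p (k + 2) - v))) : π ≤ |t - s| := by
  subst hv
  exact hPC S Z x n p g hmin k hk c a b s t h1 h2

end Surf

open Surf in
theorem PV : StPV := by
  intro hPA hPC S Z hZ v hv hfin
  set c := S.fan v hv with hc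
  have hθ : S.θ v = c.θ := by
    rw [Surf.θ, dif_pos hv]
  by_cases hvZ : v ∈ Z
  · refine ⟨fun k => Icc (c.A k) (c.A (k + 1)), fun k => ⟨measurableSet_Icc, subset_rfl⟩, ?_, ?_⟩
    · have hβ : S.β Z v = c.θ := by rw [Surf.β, if_pos hvZ, hθ]
      rw [hβ]
      have : ∀ k ∈ Finset.range c.m, volume (Icc (c.A k) (c.A (k + 1)))
          = ENNReal.ofReal (c.α k) := by
        intro k _
        rw [Real.volume_Icc, c.A_succ]; congr 1; ring
      rw [Finset.sum_congr rfl this, ← ENNReal.ofReal_sum_of_nonneg fun k _ => c.α_nonneg k]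
      exact le_rfl
    · intro n p g hn hch hp0 hne _
      have h0 := hch 0 hn
      have hne0 := hne 0 hn
      rw [hp0] at h0 hne0
      obtain ⟨k, hk, hki, t, ht⟩ := c.exists_isDir S.convex h0.1 h0.2 (Ne.symm hne0)
      exact ⟨k, hk, t, ⟨ht.2.2.1, ht.2.2.2.1⟩, hki.symm, ht⟩
  · obtain ⟨n₀, p₀, g₀, hmin, -⟩ := hPA S Z hZ v hfin
    obtain ⟨hch₀, hZ₀, hend₀, hlen₀, hne₀⟩ := hmin
    have hn₀ : n₀ ≠ 0 := by
      rintro rfl
      exact hvZ (hend₀ ▸ hZ₀)
    obtain ⟨j, rfl⟩ := Nat.exists_eq_succ_of_ne_zero hn₀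
    have hj := hch₀ j (Nat.lt_succ_self j)
    have hnej := hne₀ j (Nat.lt_succ_self j)
    rw [show j + 1 = j.succ from rfl, hend₀] at hj hnej
    obtain ⟨a, ha, hag, s, hs⟩ := c.exists_isDir S.convex hj.2 hj.1 hnej
    have hs0 : 0 ≤ s := by
      have := c.A_mono (Nat.zero_le a)
      rw [c.A_zero] at this
      exact this.trans hs.2.2.1
    have hs1 : s ≤ c.θ := hs.2.2.2.1.trans (c.A_mono (show a + 1 ≤ c.m from ha))
    refine ⟨fun k => Icc (c.A k) (c.A (k + 1)) ∩ {t | π ≤ |t - s| ∧ π ≤ c.θ - |t - s|}, ?_, ?_, ?_⟩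
    · intro k
      exact ⟨measurableSet_Icc.inter (measurableSet_allowed _ _), inter_subset_left⟩
    · have hβ : S.β Z v = max (c.θ - 2 * π) 0 := by rw [Surf.β, if_neg hvZ, hθ]
      rw [hβ]
      refine (c.sum_volume_le _ {t : ℝ | t ∈ Icc 0 c.θ ∧ π ≤ |t - s| ∧ π ≤ c.θ - |t - s|}
        ?_ ?_ ?_).trans volume_allowed_le
      · intro k
        exact measurableSet_Icc.inter (measurableSet_allowed _ _)
      · intro k; exact inter_subset_left
      · intro k hk t ht
        refine ⟨⟨?_, ?_⟩, ht.2⟩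
        · have := c.A_mono (Nat.zero_le k)
          rw [c.A_zero] at this
          exact this.trans ht.1.1
        · exact ht.1.2.trans (c.A_mono (show k + 1 ≤ c.m from hk))
    · intro n p g hn hch hp0 hne hrho
      have h0 := hch 0 hn
      have hne0 := hne 0 hn
      rw [hp0] at h0 hne0
      obtain ⟨k, hk, hki, t, ht⟩ := c.exists_isDir S.convex h0.1 h0.2 (Ne.symm hne0)
      refine ⟨k, hk, t, ⟨⟨ht.2.2.1, ht.2.2.2.1⟩, ?_⟩, hki.symm, ht⟩
      have hpp : p₀ j.succ = p 0 := by rw [hend₀, hp0]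
      have hmin' : S.Min Z (p n) (j.succ + n) (cat j.succ p₀ p) (cat j.succ g₀ g) := by
        refine ⟨isChain_cat hch₀ hch hpp, ?_, ?_, ?_, ?_⟩
        · rw [cat_le (Nat.zero_le _) hpp]; exact hZ₀
        · rw [cat_ge (Nat.le_add_right _ _), Nat.add_sub_cancel_left]
        · rw [len_cat hpp, ENNReal.ofReal_add (len_nonnegV _ _) (len_nonnegV _ _), hlen₀, hrho]
        · intro l hl
          rcases lt_or_ge l j.succ with hln | hln
          · rw [cat_le hln.le hpp, cat_le (show l + 1 ≤ j.succ from hln) hpp]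
            exact hne₀ l hln
          · rw [cat_ge hln, cat_ge (show j.succ ≤ l + 1 by omega),
              show l + 1 - j.succ = l - j.succ + 1 by omega]
            exact hne (l - j.succ) (by omega)
      have hk1 : j + 1 < j.succ + n := by omega
      have hP : cat j.succ p₀ p (j + 1) = v := by
        rw [cat_le (le_refl (j + 1)) hpp]; exact hend₀
      have hPj : cat j.succ p₀ p j = p₀ j := cat_lt (Nat.lt_succ_self j)
      have hPj2 : cat j.succ p₀ p (j + 2) = p 1 := by
        rw [cat_ge (show j.succ ≤ j + 2 by omega)]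
        congr 1; omega
      have key : ∀ (a' b' : ℕ) (s' t' : ℝ), c.IsDir a' s' (‖p₀ j - v‖⁻¹ • (p₀ j - v)) →
          c.IsDir b' t' (‖p 1 - v‖⁻¹ • (p 1 - v)) → π ≤ |t' - s'| := by
        intro a' b' s' t' h1 h2
        refine angle_ge hPC hmin' hk1 hP c (a := a') (b := b') ?_ ?_
        · rw [hPj]; exact h1
        · rw [hPj2]; exact h2
      have k1 := key a k s t hs ht
      have k2 := key a (k + c.m) s (t + c.θ) hs ht.add_period
      have k3 := key (a + c.m) k (s + c.θ) t hs.add_period ht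
      have ht0 : 0 ≤ t := by
        have := c.A_mono (Nat.zero_le k)
        rw [c.A_zero] at this
        exact this.trans ht.2.2.1
      have ht1 : t ≤ c.θ := ht.2.2.2.1.trans (c.A_mono (show k + 1 ≤ c.m from hk))
      refine ⟨k1, ?_⟩
      rcases le_total s t with h | h
      · rw [abs_of_nonneg (show 0 ≤ t - s by linarith)]
        rw [abs_of_nonpos (show t - (s + c.θ) ≤ 0 by linarith)] at k3
        linarith
      · rw [abs_of_nonpos (show t - s ≤ 0 by linarith)]
        rw [abs_of_nonneg (show 0 ≤ t + c.θ - s by linarith)] at k2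
        linarith

end Vale.Agent.P134.PS
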