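import Mathlib

/-!
# P134 / PS : abstract polyhedral surfaces and the Fiala type area inequality

`Surf` is a locally finite polyhedral surface in `E3`: faces are compact convex planar sets with
isometric charts to `ℂ`; a point which lies in two faces is a vertex or an interior point of a
common edge; around every vertex the faces form a cyclic fan.
`rho Z x` is the distance from the vertex set `Z` along the surface.
-/

open MeasureTheory Set
open scoped ENNReal RealInnerProductSpace Real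

namespace Vale.Agent.P134.PS

abbrev E3 := EuclideanSpace ℝ (Fin 3)

/-- The faces around a vertex `v`, listed cyclically (`f`, `d` have period `m`);
near `v` the face `f k` is the sector between the spokes `d k` and `d (k+1)`. -/
structure Fan {ι : Type} (F : ι → Set E3) (v : E3) where
  m : ℕ
  f : ℕ → ι
  d : ℕ → E3
  r : ℝ
  m3 : 3 ≤ m
  r_pos : 0 < r
  f_per : ∀ k, f (k + m) = f k
  d_per : ∀ k, d (k + m) = d k
  f_inj : ∀ k l, k < m → l < m → f k = f l → k = l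
  f_all : ∀ i, v ∈ F i ↔ ∃ k, k < m ∧ f k = i
  d_norm : ∀ k, ‖d k‖ = 1
  ang_pos : ∀ k, 0 < InnerProductGeometry.angle (d k) (d (k + 1))
  ang_lt : ∀ k, InnerProductGeometry.angle (d k) (d (k + 1)) < π
  sector : ∀ k x, ‖x - v‖ ≤ r →
    (x ∈ F (f k) ↔ ∃ a b : ℝ, 0 ≤ a ∧ 0 ≤ b ∧ x = v + a • d k + b • d (k + 1))

namespace Fan

variable {ι : Type} {F : ι → Set E3} {v : E3}

/-- angle of the `k`-th face at the vertex -/
noncomputable def α (c : Fan F v) (k : ℕ) : ℝ :=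
  InnerProductGeometry.angle (c.d k) (c.d (k + 1))

/-- unrolled angular coordinate of the spoke `d k` -/
noncomputable def A (c : Fan F v) (k : ℕ) : ℝ := ∑ l ∈ Finset.range k, c.α l

/-- total angle at the vertex -/
noncomputable def θ (c : Fan F v) : ℝ := c.A c.m

/-- the unit vector `w` is the direction with unrolled coordinate `t` in the face `f k` -/
def IsDir (c : Fan F v) (k : ℕ) (t : ℝ) (w : E3) : Prop :=
  ‖w‖ = 1 ∧ (∃ a b : ℝ, 0 ≤ a ∧ 0 ≤ b ∧ w = a • c.d k + b • c.d (k + 1)) ∧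
    c.A k ≤ t ∧ t ≤ c.A (k + 1) ∧ InnerProductGeometry.angle (c.d k) w = t - c.A k

end Fan

/-- A locally finite polyhedral surface in `E3`. -/
structure Surf where
  ι : Type
  cnt : Countable ι
  F : ι → Set E3
  V : Set E3
  ch : ι → (E3 →ᵃ[ℝ] ℂ)
  convex : ∀ i, Convex ℝ (F i)
  compact : ∀ i, IsCompact (F i)
  ch_iso : ∀ i, ∀ x ∈ F i, ∀ y ∈ F i, dist (ch i x) (ch i y) = dist x y
  ch_int : ∀ i, (interior (ch i '' F i)).Nonempty
  locFin : ∀ R : ℝ, {i | (F i ∩ Metric.closedBall 0 R).Nonempty}.Finite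
  V_locFin : ∀ R : ℝ, (V ∩ Metric.closedBall 0 R).Finite
  V_face : ∀ v ∈ V, ∃ i, v ∈ F i
  V_int : ∀ v ∈ V, ∀ i, v ∈ F i → ch i v ∉ interior (ch i '' F i)
  /-- a common point of two faces which is not a vertex is interior to a common edge -/
  meet : ∀ i j, i ≠ j → ∀ x ∈ F i ∩ F j, x ∉ V → ∃ a ∈ V, ∃ b ∈ V, a ≠ b ∧
    F i ∩ F j = segment ℝ a b ∧ x ∈ openSegment ℝ a b ∧
    ∀ y ∈ openSegment ℝ a b, y ∉ V ∧ ch i y ∉ interior (ch i '' F i) ∧
      ch j y ∉ interior (ch j '' F j) ∧ ∀ k, y ∈ F k → k = i ∨ k = j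
  fan : ∀ v, v ∈ V → Fan F v

namespace Surf

variable (S : Surf)

/-- the face in its chart -/
def C (i : S.ι) : Set ℂ := S.ch i '' S.F i

/-- the inverse of the chart -/
noncomputable def inv (i : S.ι) : ℂ → E3 := Function.invFunOn (S.ch i) (S.F i)

/-- two different faces with a common edge -/
def Adj (i j : S.ι) : Prop := i ≠ j ∧ ∃ x ∈ S.F i ∩ S.F j, x ∉ S.V

/-- `p 0, …, p n` is a chain: `p k, p (k+1)` lie in the face `g k` for `k < n`. -/
def IsChain (n : ℕ) (p : ℕ → E3) (g : ℕ → S.ι) : Prop :=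
  ∀ k, k < n → p k ∈ S.F (g k) ∧ p (k + 1) ∈ S.F (g k)

/-- length of a chain -/
noncomputable def len (n : ℕ) (p : ℕ → E3) : ℝ := ∑ k ∈ Finset.range n, dist (p k) (p (k + 1))

/-- distance from `Z` along the surface -/
noncomputable def rho (Z : Set E3) (x : E3) : ℝ≥0∞ :=
  ⨅ (n : ℕ) (p : ℕ → E3) (g : ℕ → S.ι) (_ : S.IsChain n p g ∧ p 0 ∈ Z ∧ p n = x),
    ENNReal.ofReal (len n p)

/-- a shortest chain from `Z` to `x` -/
def Min (Z : Set E3) (x : E3) (n : ℕ) (p : ℕ → E3) (g : ℕ → S.ι) : Prop :=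
  S.IsChain n p g ∧ p 0 ∈ Z ∧ p n = x ∧ ENNReal.ofReal (len n p) = S.rho Z x ∧
  (∀ k, k < n → p k ≠ p (k + 1))

open Classical in
/-- total angle at `v` (`0` if `v` is not a vertex) -/
noncomputable def θ (v : E3) : ℝ := if h : v ∈ S.V then (S.fan v h).θ else 0

open Classical in
/-- the angle available for outgoing geodesics at `v` -/
noncomputable def β (Z : Set E3) (v : E3) : ℝ := if v ∈ Z then S.θ v else max (S.θ v - 2 * π) 0

/-- gluing isometries: `T i j` maps the chart of `j` to the chart of `i` so that the two faces lie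
on different sides of the (line of the) common edge. -/
structure Glue where
  T : S.ι → S.ι → (ℂ ≃ᵢ ℂ)
  T_edge : ∀ i j, S.Adj i j → ∀ x ∈ S.F i ∩ S.F j, T i j (S.ch j x) = S.ch i x
  side : ∀ i j, S.Adj i j → ∃ ν : ℂ, ‖ν‖ = 1 ∧ ∃ c : ℝ,
    (∀ x ∈ S.F i, inner ℝ ν (S.ch i x) ≤ c) ∧
    (∀ x ∈ S.F j, c ≤ inner ℝ ν (T i j (S.ch j x))) ∧
    (∀ x ∈ S.F i ∩ S.F j, inner ℝ ν (S.ch i x) = c)

variable {S}

/-- `p 0, …, p n` is a straight path (a geodesic): it crosses the edge between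
`g k` and `g (k+1)` at `p (k+1)`, an interior point of the edge, without a bend. -/
def Glue.Straight (Q : S.Glue) (n : ℕ) (p : ℕ → E3) (g : ℕ → S.ι) : Prop :=
  0 < n ∧ S.IsChain n p g ∧ (∀ k, k < n → p k ≠ p (k + 1)) ∧
  (∀ k, k + 1 < n → g k ≠ g (k + 1) ∧ p (k + 1) ∉ S.V ∧
    S.ch (g k) (p (k + 1)) ∈ openSegment ℝ (S.ch (g k) (p k))
      (Q.T (g k) (g (k + 1)) (S.ch (g (k + 1)) (p (k + 2)))))

/-- development of the chart of `g k` into the chart of `g 0` along the face path `g` -/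
noncomputable def Glue.dev (Q : S.Glue) (g : ℕ → S.ι) : ℕ → (ℂ ≃ᵢ ℂ)
  | 0 => IsometryEquiv.refl ℂ
  | k + 1 => (Q.T (g k) (g (k + 1))).trans (Q.dev g k)

/-- end points (in the chart of `j`, interior to the face) of straight paths which start at the
vertex `v` into the `k`-th face of the fan `c`, with direction in `T` and length `L j z` -/
def Glue.Reach (Q : S.Glue) {v : E3} (c : Fan S.F v) (k : ℕ) (T : Set ℝ) (L : S.ι → ℂ → ℝ)
    (j : S.ι) : Set ℂ :=
  {z : ℂ | z ∈ interior (S.C j) ∧ ∃ (n : ℕ) (p : ℕ → E3) (g : ℕ → S.ι) (t : ℝ),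
      Q.Straight n p g ∧ p 0 = v ∧ g 0 = c.f k ∧ g (n - 1) = j ∧ S.ch j (p n) = z ∧
      len n p = L j z ∧ t ∈ T ∧ c.IsDir k t (‖p 1 - v‖⁻¹ • (p 1 - v))}

end Surf

/-! ## Block statements -/

/-- PT: gluing isometries exist. -/
def StPT : Prop := ∀ S : Surf, Nonempty S.Glue

/-- PA: shortest chains exist; they use every face at most once. -/
def StPA : Prop := ∀ (S : Surf) (Z : Set E3), Z ⊆ S.V → ∀ x, S.rho Z x < ⊤ →
  ∃ (n : ℕ) (p : ℕ → E3) (g : ℕ → S.ι), S.Min Z x n p g ∧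
    (∀ k l, k < n → l < n → g k = g l → k = l)

/-- PB: a shortest chain is straight where it crosses an edge. -/
def StPB : Prop := ∀ (S : Surf) (Q : S.Glue) (Z : Set E3) (x : E3) (n : ℕ) (p : ℕ → E3)
  (g : ℕ → S.ι), S.Min Z x n p g → ∀ k, k + 1 < n → g k ≠ g (k + 1) → p (k + 1) ∉ S.V →
    S.ch (g k) (p (k + 1)) ∈ openSegment ℝ (S.ch (g k) (p k))
      (Q.T (g k) (g (k + 1)) (S.ch (g (k + 1)) (p (k + 2))))

/-- PC: at a vertex on a shortest chain both side angles are at least `π`.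
`s` = unrolled coordinate of the direction back to `p k`, `t` = that of the outgoing direction
(all unrolled coordinates, in all turns, are allowed). -/
def StPC : Prop := ∀ (S : Surf) (Z : Set E3) (x : E3) (n : ℕ) (p : ℕ → E3) (g : ℕ → S.ι),
  S.Min Z x n p g → ∀ k, k + 1 < n → ∀ c : Fan S.F (p (k + 1)),
  ∀ (a b : ℕ) (s t : ℝ),
    c.IsDir a s (‖p k - p (k + 1)‖⁻¹ • (p k - p (k + 1))) →
    c.IsDir b t (‖p (k + 2) - p (k + 1)‖⁻¹ • (p (k + 2) - p (k + 1))) →
    π ≤ |t - s|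

/-- PV: at every vertex `v` at finite distance there are sets `T k` of directions, of total
measure at most `β Z v`, such that every shortest continuation from `v` starts in one of them. -/
def StPV : Prop := StPA → StPC → ∀ (S : Surf) (Z : Set E3), Z ⊆ S.V → ∀ (v : E3) (hv : v ∈ S.V),
  S.rho Z v < ⊤ → ∃ T : ℕ → Set ℝ,
    (∀ k, MeasurableSet (T k) ∧ T k ⊆ Icc ((S.fan v hv).A k) ((S.fan v hv).A (k + 1))) ∧
    ∑ k ∈ Finset.range (S.fan v hv).m, volume (T k) ≤ ENNReal.ofReal (S.β Z v) ∧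
    ∀ (n : ℕ) (p : ℕ → E3) (g : ℕ → S.ι), 0 < n → S.IsChain n p g → p 0 = v →
      (∀ k, k < n → p k ≠ p (k + 1)) →
      S.rho Z (p n) = S.rho Z v + ENNReal.ofReal (Surf.len n p) →
      ∃ k, k < (S.fan v hv).m ∧ ∃ t ∈ T k, g 0 = (S.fan v hv).f k ∧
        (S.fan v hv).IsDir k t (‖p 1 - v‖⁻¹ • (p 1 - v))

/-- PD: geodesics leaving the vertex `v` into the face `c.f k` with directions in `T`
sweep out at most the area of the sector. -/
def StPD : Prop := ∀ (S : Surf) (Q : S.Glue) (v : E3), v ∈ S.V → ∀ (c : Fan S.F v) (k : ℕ)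
  (T : Set ℝ), MeasurableSet T → T ⊆ Icc (c.A k) (c.A (k + 1)) →
  ∀ (L : S.ι → ℂ → ℝ) (G : ℝ → ℝ≥0∞), Measurable G →
  ∑' j : S.ι, ∫⁻ z in Q.Reach c k T L j, G (L j z) ≤
    volume T * ∫⁻ r in Ioi (0 : ℝ), G r * ENNReal.ofReal r

/-- P2: the area inequality.  `Ψ` is the integrand on the surface, `Φ v` a bound for it on the
points whose last vertex is `v`, as a function of `rho x - rho v`. -/
def StP2 : Prop := ∀ (S : Surf) (Z : Set E3), Z ⊆ S.V → ∀ (Ψ : E3 → ℝ≥0∞) (Φ : E3 → ℝ → ℝ≥0∞),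
  (∀ v, Measurable (Φ v)) → (∀ x, S.rho Z x = ⊤ → Ψ x = 0) →
  (∀ v ∈ S.V, S.rho Z v < ⊤ → ∀ (x : E3) (r : ℝ), 0 < r →
    S.rho Z x = S.rho Z v + ENNReal.ofReal r → dist v x ≤ r → Ψ x ≤ Φ v r) →
  ∑' i : S.ι, ∫⁻ z in S.C i, Ψ (S.inv i z) ≤
    ∑' v : {v // v ∈ S.V ∧ S.rho Z v < ⊤}, ENNReal.ofReal (S.β Z v) *
      ∫⁻ r in Ioi (0 : ℝ), Φ v r * ENNReal.ofReal r

/-- PE: the assembly; inside, `PV` gives the directions, `PB` the straightness. -/
def StPE : Prop := StPT → StPA → StPB → StPC → StPV → StPD → StP2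

end Vale.Agent.P134.PS
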