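import Vale.Agent.P134.PS.Defs

/-!
# P134 / PS : level surfaces of the Kuhn (Freudenthal) interpolation

`w : Lat → ℝ` are lattice values, `c` is not a value of `w`; `kF w c i` is the part of the level
surface `{interpolation = c}` in the Kuhn tetrahedron `i = (z, s)`; `kV w c` are its vertices.
-/

open MeasureTheory Set
open scoped ENNReal RealInnerProductSpace Real

namespace Vale.Agent.P134.PS

abbrev Lat := Fin 3 → ℤ

/-- index of a Kuhn tetrahedron: base point and order of the coordinates -/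
abbrev KI := Lat × Fin 6

/-- lattice point as a point of `E3` -/
noncomputable def pt (q : Lat) : E3 := WithLp.toLp 2 (fun j => (q j : ℝ))

/-- the six orders of the coordinates -/
def ord : Fin 6 → Fin 3 → Fin 3 :=
  ![![0, 1, 2], ![0, 2, 1], ![1, 0, 2], ![1, 2, 0], ![2, 0, 1], ![2, 1, 0]]

/-- the position of a coordinate in the order -/
def rk : Fin 6 → Fin 3 → ℕ :=
  ![![0, 1, 2], ![0, 2, 1], ![1, 0, 2], ![2, 0, 1], ![1, 2, 0], ![2, 1, 0]]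

theorem rk_ord (s : Fin 6) (l : Fin 3) : rk s (ord s l) = l := by
  revert s l; decide

theorem ord_inj (s : Fin 6) : Function.Injective (ord s) := by
  revert s; decide

/-- the `k`-th vertex of the tetrahedron `i` -/
def vert (i : KI) (k : Fin 4) : Lat := fun j => i.1 j + if rk i.2 j < k then 1 else 0

/-- barycentric coordinates in the tetrahedron `i` -/
noncomputable def bar (i : KI) (k : Fin 4) (x : E3) : ℝ :=
  ![1 - (x (ord i.2 0) - i.1 (ord i.2 0)),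
    (x (ord i.2 0) - i.1 (ord i.2 0)) - (x (ord i.2 1) - i.1 (ord i.2 1)),
    (x (ord i.2 1) - i.1 (ord i.2 1)) - (x (ord i.2 2) - i.1 (ord i.2 2)),
    x (ord i.2 2) - i.1 (ord i.2 2)] k

/-- the level surface in the tetrahedron `i` -/
def kF (w : Lat → ℝ) (c : ℝ) (i : KI) : Set E3 :=
  {x | (∀ k, 0 ≤ bar i k x) ∧ ∑ k, bar i k x * w (vert i k) = c}

/-- the seven edge directions -/
def evec : Fin 7 → Lat :=
  ![![1, 0, 0], ![0, 1, 0], ![0, 0, 1], ![1, 1, 0], ![1, 0, 1], ![0, 1, 1], ![1, 1, 1]]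

/-- number of tetrahedra around an edge -/
def mm : Fin 7 → ℕ := ![6, 6, 6, 4, 4, 4, 6]

/-- link vertices (relative to the lower end of the edge), only the first `mm` are used -/
def bt : Fin 7 → Fin 6 → Lat :=
  ![![![0, -1, -1], ![0, 0, -1], ![1, 1, 0], ![1, 1, 1], ![1, 0, 1], ![0, -1, 0]],
    ![![-1, 0, -1], ![0, 0, -1], ![1, 1, 0], ![1, 1, 1], ![0, 1, 1], ![-1, 0, 0]],
    ![![-1, -1, 0], ![0, -1, 0], ![1, 0, 1], ![1, 1, 1], ![0, 1, 1], ![-1, 0, 0]],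
    ![![0, 0, -1], ![1, 0, 0], ![1, 1, 1], ![0, 1, 0], ![0, 0, -1], ![0, 0, -1]],
    ![![0, -1, 0], ![1, 0, 0], ![1, 1, 1], ![0, 0, 1], ![0, -1, 0], ![0, -1, 0]],
    ![![-1, 0, 0], ![0, 1, 0], ![1, 1, 1], ![0, 0, 1], ![-1, 0, 0], ![-1, 0, 0]],
    ![![1, 0, 0], ![1, 1, 0], ![0, 1, 0], ![0, 1, 1], ![0, 0, 1], ![1, 0, 1]]]

/-- the tetrahedra around the edge (relative to the lower end of the edge) -/
def ft : Fin 7 → Fin 6 → KI :=
  ![![(![0, -1, -1], 3), (![0, 0, -1], 4), (![0, 0, 0], 0), (![0, 0, 0], 1), (![0, -1, 0], 2),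
      (![0, -1, -1], 5)],
    ![(![-1, 0, -1], 1), (![0, 0, -1], 5), (![0, 0, 0], 2), (![0, 0, 0], 3), (![-1, 0, 0], 0),
      (![-1, 0, -1], 4)],
    ![(![-1, -1, 0], 0), (![0, -1, 0], 3), (![0, 0, 0], 4), (![0, 0, 0], 5), (![-1, 0, 0], 1),
      (![-1, -1, 0], 2)],
    ![(![0, 0, -1], 4), (![0, 0, 0], 0), (![0, 0, 0], 2), (![0, 0, -1], 5), (![0, 0, -1], 4),
      (![0, 0, -1], 4)],
    ![(![0, -1, 0], 2), (![0, 0, 0], 1), (![0, 0, 0], 4), (![0, -1, 0], 3), (![0, -1, 0], 2),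
      (![0, -1, 0], 2)],
    ![(![-1, 0, 0], 0), (![0, 0, 0], 3), (![0, 0, 0], 5), (![-1, 0, 0], 1), (![-1, 0, 0], 0),
      (![-1, 0, 0], 0)],
    ![(![0, 0, 0], 0), (![0, 0, 0], 2), (![0, 0, 0], 3), (![0, 0, 0], 5), (![0, 0, 0], 4),
      (![0, 0, 0], 1)]]

/-- link vertices, periodic in `k` -/
def bb (τ : Fin 7) (k : ℕ) : Lat := bt τ (Fin.ofNat 6 (k % mm τ))

/-- tetrahedra around the edge, periodic in `k`; the `k`-th one contains `0, evec τ, bb τ k,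
bb τ (k+1)` -/
def ff (τ : Fin 7) (k : ℕ) : KI := ft τ (Fin.ofNat 6 (k % mm τ))

/-- the vertices of the level surface: points of the open lattice edges -/
def kV (w : Lat → ℝ) (c : ℝ) : Set E3 :=
  {x | ∃ (q : Lat) (τ : Fin 7) (t : ℝ), 0 < t ∧ t < 1 ∧ x = pt q + t • pt (evec τ) ∧
    (1 - t) * w q + t * w (q + evec τ) = c}

/-- slope of the spoke `k` -/
noncomputable def slope (w : Lat → ℝ) (q : Lat) (τ : Fin 7) (k : ℕ) : ℝ :=
  (w (q + bb τ k) - w q) / (w (q + evec τ) - w q)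

/-- the spoke `k` at a vertex on the edge `q, q + evec τ` (not normalized) -/
noncomputable def spoke (w : Lat → ℝ) (q : Lat) (τ : Fin 7) (k : ℕ) : E3 :=
  pt (bb τ k) - slope w q τ k • pt (evec τ)

/-- `y` lies on the boundary of `F`: an affine function is `≥ 0` on `F`, `0` at `y`, not `0` on
all of `F` -/
def Supp (F : Set E3) (y : E3) : Prop :=
  ∃ f : E3 →ᵃ[ℝ] ℝ, (∀ z ∈ F, 0 ≤ f z) ∧ f y = 0 ∧ ∃ z ∈ F, f z ≠ 0

/-! ## Basic facts on barycentric coordinates -/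

theorem bar_sum (i : KI) (x : E3) : ∑ k, bar i k x = 1 := by
  simp [bar, Fin.sum_univ_four]

theorem bar_pt (i : KI) (x : E3) : ∑ k, bar i k x • pt (vert i k) = x := by
  obtain ⟨z, s⟩ := i
  ext j
  simp only [Fin.sum_univ_four, PiLp.add_apply, PiLp.smul_apply, pt, smul_eq_mul, bar, vert]
  match s, j with
  | 0, 0 => simp [ord, rk]; ring
  | 0, 1 => simp [ord, rk]; ring
  | 0, 2 => simp [ord, rk]; ring
  | 1, 0 => simp [ord, rk]; ring
  | 1, 1 => simp [ord, rk]; ring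
  | 1, 2 => simp [ord, rk]; ring
  | 2, 0 => simp [ord, rk]; ring
  | 2, 1 => simp [ord, rk]; ring
  | 2, 2 => simp [ord, rk]; ring
  | 3, 0 => simp [ord, rk]; ring
  | 3, 1 => simp [ord, rk]; ring
  | 3, 2 => simp [ord, rk]; ring
  | 4, 0 => simp [ord, rk]; ring
  | 4, 1 => simp [ord, rk]; ring
  | 4, 2 => simp [ord, rk]; ring
  | 5, 0 => simp [ord, rk]; ring
  | 5, 1 => simp [ord, rk]; ring
  | 5, 2 => simp [ord, rk]; ring

theorem bar_comb (i : KI) (l : Fin 4 → ℝ) (hl : ∑ k, l k = 1) (k : Fin 4) :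
    bar i k (∑ k, l k • pt (vert i k)) = l k := by
  obtain ⟨z, s⟩ := i
  rw [Fin.sum_univ_four] at hl
  have h0 : l 0 = 1 - l 1 - l 2 - l 3 := by linarith
  simp only [Fin.sum_univ_four, PiLp.add_apply, PiLp.smul_apply, pt, smul_eq_mul, bar, vert]
  match s, k with
  | 0, 0 => simp [ord, rk, h0]; ring
  | 0, 1 => simp [ord, rk, h0]; ring
  | 0, 2 => simp [ord, rk, h0]; ring
  | 0, 3 => simp [ord, rk, h0]; ring
  | 1, 0 => simp [ord, rk, h0]; ring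
  | 1, 1 => simp [ord, rk, h0]; ring
  | 1, 2 => simp [ord, rk, h0]; ring
  | 1, 3 => simp [ord, rk, h0]; ring
  | 2, 0 => simp [ord, rk, h0]; ring
  | 2, 1 => simp [ord, rk, h0]; ring
  | 2, 2 => simp [ord, rk, h0]; ring
  | 2, 3 => simp [ord, rk, h0]; ring
  | 3, 0 => simp [ord, rk, h0]; ring
  | 3, 1 => simp [ord, rk, h0]; ring
  | 3, 2 => simp [ord, rk, h0]; ring
  | 3, 3 => simp [ord, rk, h0]; ring
  | 4, 0 => simp [ord, rk, h0]; ring
  | 4, 1 => simp [ord, rk, h0]; ring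
  | 4, 2 => simp [ord, rk, h0]; ring
  | 4, 3 => simp [ord, rk, h0]; ring
  | 5, 0 => simp [ord, rk, h0]; ring
  | 5, 1 => simp [ord, rk, h0]; ring
  | 5, 2 => simp [ord, rk, h0]; ring
  | 5, 3 => simp [ord, rk, h0]; ring

/-! ## Block statements -/

/-- K1: faces are convex and compact, the complex is locally finite. -/
def StK1 : Prop := ∀ (w : Lat → ℝ) (c : ℝ), (∀ q, w q ≠ c) →
  (∀ i, Convex ℝ (kF w c i) ∧ IsCompact (kF w c i)) ∧
  (∀ R : ℝ, {i | (kF w c i ∩ Metric.closedBall 0 R).Nonempty}.Finite) ∧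
  (∀ R : ℝ, (kV w c ∩ Metric.closedBall 0 R).Finite) ∧
  (∀ v ∈ kV w c, ∃ i, v ∈ kF w c i)

/-- K2: charts. -/
def StK2 : Prop := ∀ (w : Lat → ℝ) (c : ℝ), (∀ q, w q ≠ c) → ∀ i, (kF w c i).Nonempty →
  ∃ ch : E3 →ᵃ[ℝ] ℂ, (∀ x ∈ kF w c i, ∀ y ∈ kF w c i, dist (ch x) (ch y) = dist x y) ∧
    (interior (ch '' kF w c i)).Nonempty ∧
    ∀ y ∈ kF w c i, Supp (kF w c i) y → ch y ∉ interior (ch '' kF w c i)

/-- K3: intersections of faces. -/
def StK3 : Prop := ∀ (w : Lat → ℝ) (c : ℝ), (∀ q, w q ≠ c) →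
  (∀ v ∈ kV w c, ∀ i, v ∈ kF w c i → Supp (kF w c i) v) ∧
  ∀ i j, i ≠ j → ∀ x ∈ kF w c i ∩ kF w c j, x ∉ kV w c → ∃ a ∈ kV w c, ∃ b ∈ kV w c, a ≠ b ∧
    kF w c i ∩ kF w c j = segment ℝ a b ∧ x ∈ openSegment ℝ a b ∧
    ∀ y ∈ openSegment ℝ a b, y ∉ kV w c ∧ Supp (kF w c i) y ∧ Supp (kF w c j) y ∧
      ∀ k, y ∈ kF w c k → k = i ∨ k = j

/-- K4: the fan around a vertex. -/
def StK4 : Prop := ∀ (w : Lat → ℝ) (c : ℝ), (∀ q, w q ≠ c) → ∀ (q : Lat) (τ : Fin 7) (t : ℝ),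
  0 < t → t < 1 → (1 - t) * w q + t * w (q + evec τ) = c →
  ∃ fn : Fan (fun i : {i : KI // (kF w c i).Nonempty} => kF w c i.1) (pt q + t • pt (evec τ)),
    fn.m = mm τ ∧ (∀ k, (fn.f k).1 = (q + (ff τ k).1, (ff τ k).2)) ∧
    ∀ k, fn.d k = ‖spoke w q τ k‖⁻¹ • spoke w q τ k

/-- K5: the level surface is a `Surf`, with explicit total angles. -/
def StK5 : Prop := StK1 → StK2 → StK3 → StK4 → ∀ (w : Lat → ℝ) (c : ℝ), (∀ q, w q ≠ c) →
  ∃ (S : Surf) (e : S.ι ≃ {i : KI // (kF w c i).Nonempty}),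
    (∀ i, S.F i = kF w c (e i).1) ∧ S.V = kV w c ∧
    ∀ (q : Lat) (τ : Fin 7) (t : ℝ), 0 < t → t < 1 →
      (1 - t) * w q + t * w (q + evec τ) = c →
      S.θ (pt q + t • pt (evec τ)) =
        ∑ k ∈ Finset.range (mm τ), InnerProductGeometry.angle (spoke w q τ k) (spoke w q τ (k + 1))

/-- the tetrahedron -/
def tet (i : KI) : Set E3 := {x | ∀ k, 0 ≤ bar i k x}

/-- gradient of the interpolation in the tetrahedron `i` -/
noncomputable def grad (w : Lat → ℝ) (i : KI) : E3 :=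
  WithLp.toLp 2 (fun j => w (vert i (Fin.ofNat 4 (rk i.2 j + 1))) - w (vert i (Fin.ofNat 4 (rk i.2 j))))

/-- K6: surface integrals over a planar face do not depend on the chart. -/
def StK6 : Prop := ∀ (F : Set E3) (ch ch' : E3 →ᵃ[ℝ] ℂ),
  (∀ x ∈ F, ∀ y ∈ F, dist (ch x) (ch y) = dist x y) →
  (∀ x ∈ F, ∀ y ∈ F, dist (ch' x) (ch' y) = dist x y) →
  (interior (ch '' F)).Nonempty → Convex ℝ F → ∀ Ψ : E3 → ℝ≥0∞,
  ∫⁻ z in ch '' F, Ψ (Function.invFunOn ch F z) = ∫⁻ z in ch' '' F, Ψ (Function.invFunOn ch' F z)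

open Classical in
/-- K7: coarea formula in a tetrahedron. -/
def StK7 : Prop := ∀ (w : Lat → ℝ) (i : KI) (ch : ℝ → (E3 →ᵃ[ℝ] ℂ)),
  (∀ c, (∀ q, w q ≠ c) → (kF w c i).Nonempty →
    (∀ x ∈ kF w c i, ∀ y ∈ kF w c i, dist (ch c x) (ch c y) = dist x y) ∧
    (interior (ch c '' kF w c i)).Nonempty) →
  ∀ Ψ : E3 → ℝ≥0∞, Measurable Ψ →
  ∫⁻ c, (if (∀ q, w q ≠ c) ∧ (kF w c i).Nonempty then
      ∫⁻ z in ch c '' kF w c i, Ψ (Function.invFunOn (ch c) (kF w c i) z) else 0) =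
    ∫⁻ x in tet i, Ψ x * ENNReal.ofReal ‖grad w i‖

end Vale.Agent.P134.PS
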