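import Vale.Agent.P134.PS.BlockPT
import Vale.Agent.P134.PS.BlockPA
import Vale.Agent.P134.PS.BlockPB
import Vale.Agent.P134.PS.BlockPC
import Vale.Agent.P134.PS.BlockPV
import Vale.Agent.P134.PS.BlockPD
import Vale.Agent.P134.PS.BlockPE
import Vale.Agent.P134.PS.BlockK1
import Vale.Agent.P134.PS.BlockK2
import Vale.Agent.P134.PS.BlockK3
import Vale.Agent.P134.PS.BlockK4
import Vale.Agent.P134.PS.BlockK5
import Vale.Agent.P134.PS.BlockK6
import Vale.Agent.P134.PS.BlockK7

/-! # P134 / PS : the area inequality and the level surfaces, all blocks put together -/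

open MeasureTheory Set

namespace Vale.Agent.P134.PS

/-- the area inequality -/
theorem P2 : StP2 := PE PT PA PB PC PV PD

theorem K7 : StK7 := K7.K7_of K6

/-- the level surface of a generic level -/
theorem levelSurf (w : Lat → ℝ) (c : ℝ) (hc : ∀ q, w q ≠ c) :
    ∃ (S : Surf) (e : S.ι ≃ {i : KI // (kF w c i).Nonempty}),
    (∀ i, S.F i = kF w c (e i).1) ∧ S.V = kV w c ∧
    ∀ (q : Lat) (τ : Fin 7) (t : ℝ), 0 < t → t < 1 →
      (1 - t) * w q + t * w (q + evec τ) = c →
      S.θ (pt q + t • pt (evec τ)) =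
        ∑ k ∈ Finset.range (mm τ),
          InnerProductGeometry.angle (spoke w q τ k) (spoke w q τ (k + 1)) :=
  K5 K1 K2 K3 K4 w c hc

end Vale.Agent.P134.PS
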